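import Vale.Agent.Lib.P110F.Defs

/-!
# P110T: interface between the input, the correction and the final rounding
-/

namespace Vale.Agent.P110T

open Vale.Agent.P110F
open scoped ComplexConjugate

/-- the polynomial with real coefficients `b` and length `N` on the circle -/
noncomputable def pol (N : ℕ) (b : ℕ → ℝ) (x : ℝ) : ℂ :=
  ∑ k ∈ Finset.range N, (b k : ℂ) * e1 ((k : ℝ) * x)

/-- The input: `μ` is the margin on both sides, `n` the natural length (`√n` is the amplitude), `ε`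
the deficit relative to `n`, and `η'`, `K` the quality and the window of the local purity. -/
structure Inp (μ ε η' K : ℝ) (N n : ℕ) (b : ℕ → ℝ) : Prop where
  le : n ≤ N
  ge : (1 - 3 * μ) * N ≤ n
  abs_le : ∀ k, |b k| ≤ 1
  supp : ∀ k, b k ≠ 0 → μ * N ≤ k ∧ (k : ℝ) ≤ (1 - μ) * N
  sup : ∀ x : ℝ, ‖pol N b x‖ ≤ Real.sqrt n
  energy : (1 - ε) * n ≤ ∑ k ∈ Finset.range N, b k ^ 2
  pure : ∀ x₀ : ℝ, ∃ κ₀ : ℝ, μ * N ≤ κ₀ ∧ κ₀ ≤ (1 - μ) * N ∧ ∀ x : ℝ, |x - x₀| ≤ K / N →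
    ‖pol N b x - pol N b x₀ * e1 (κ₀ * (x - x₀))‖ ≤ η' * Real.sqrt n

/-- the input theorem -/
def InputT : Prop := ∀ μ ε η' K : ℝ, 0 < μ → μ < 1 / 4 → 0 < ε → 0 < η' → 0 < K → ∀ N₀ : ℕ,
  ∃ N : ℕ, N₀ ≤ N ∧ ∃ (n : ℕ) (b : ℕ → ℝ), Inp μ ε η' K N n b

/-- the correction theorem: the margin `μ` is chosen first -/
def Correction : Prop := ∀ η δ μ : ℝ, 0 < η → 0 < δ → 0 < μ → μ < 1 / 4 →
  ∃ ε η' K : ℝ, 0 < ε ∧ 0 < η' ∧ 0 < K ∧ ∃ N₁ : ℕ, ∀ N : ℕ, N₁ ≤ N → ∀ (n : ℕ) (b : ℕ → ℝ),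
    Inp μ ε η' K N n b → ∃ t : ℕ → ℝ, (∀ k, |t k| ≤ δ) ∧
      ∀ x : ℝ, |‖pol N (fun k => b k + t k) x‖ - Real.sqrt n| ≤ η * Real.sqrt N

/-- polynomials with coefficients in `[-1, 1]` of nearly constant modulus `√N` -/
theorem exists_frac (hI : InputT) (hC : Correction) : ∀ η : ℝ, 0 < η → ∀ N₀ : ℕ, ∃ N : ℕ,
    N₀ ≤ N ∧ ∃ b : ℕ → ℝ, (∀ k, |b k| ≤ 1) ∧ ∀ x : ℝ,
      |‖∑ k ∈ Finset.range N, (b k : ℂ) * e1 ((k : ℝ) * x)‖ - Real.sqrt N| ≤ η * Real.sqrt N := by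
  intro η hη N₀
  set δ : ℝ := η / 4 with hδ
  set μ : ℝ := min (η / 12) (1 / 8) with hμ
  have hδ0 : 0 < δ := by positivity
  have hμ0 : 0 < μ := by rw [hμ]; exact lt_min (by positivity) (by norm_num)
  have hμ1 : μ < 1 / 4 := lt_of_le_of_lt (min_le_right _ _) (by norm_num)
  have hμ2 : μ ≤ η / 12 := min_le_left _ _
  obtain ⟨ε, η', K, hε, hη', hK, N₁, h1⟩ := hC (η / 4) δ μ (by positivity) hδ0 hμ0 hμ1
  obtain ⟨N, hN, n, b, hb⟩ := hI μ ε η' K hμ0 hμ1 hε hη' hK (max N₀ N₁)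
  obtain ⟨t, ht, hx⟩ := h1 N ((le_max_right _ _).trans hN) n b hb
  refine ⟨N, (le_max_left _ _).trans hN, fun k => (b k + t k) / (1 + δ), fun k => ?_, fun x => ?_⟩
  · rw [abs_div, abs_of_pos (show (0 : ℝ) < 1 + δ by linarith), div_le_one (by linarith)]
    have h2 := hb.abs_le k
    have h3 := ht k
    exact (abs_add_le _ _).trans (by linarith)
  · have h2 : ∑ k ∈ Finset.range N, (((b k + t k) / (1 + δ) : ℝ) : ℂ) * e1 ((k : ℝ) * x) =
        ((1 + δ : ℝ) : ℂ)⁻¹ * pol N (fun k => b k + t k) x := by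
      unfold pol
      rw [Finset.mul_sum]
      refine Finset.sum_congr rfl fun k _ => ?_
      rw [Complex.ofReal_div, div_eq_mul_inv]
      ring
    have h3 : ‖((1 + δ : ℝ) : ℂ)⁻¹‖ = (1 + δ)⁻¹ := by
      rw [norm_inv, Complex.norm_real, Real.norm_of_nonneg (by linarith)]
    simp only
    rw [h2, norm_mul, h3]
    have hs : 0 ≤ Real.sqrt N := Real.sqrt_nonneg _
    have h4 := abs_le.1 (hx x)
    have h5 : Real.sqrt n ≤ Real.sqrt N := Real.sqrt_le_sqrt (by exact_mod_cast hb.le)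
    have h6 : (1 - 3 * μ) * Real.sqrt N ≤ Real.sqrt n := by
      have h7 : 0 ≤ 1 - 3 * μ := by linarith
      refine Real.le_sqrt_of_sq_le ?_
      rw [mul_pow, Real.sq_sqrt (Nat.cast_nonneg _)]
      refine le_trans ?_ hb.ge
      have h8 : (0 : ℝ) ≤ N := Nat.cast_nonneg _
      have h9 : (1 - 3 * μ) ^ 2 ≤ 1 - 3 * μ := by nlinarith
      exact mul_le_mul_of_nonneg_right h9 h8
    set F := ‖pol N (fun k => b k + t k) x‖ with hF
    have hF0 : 0 ≤ F := norm_nonneg _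
    have h10 : (1 + δ)⁻¹ ≤ 1 := inv_le_one_of_one_le₀ (by linarith)
    have h11 : (1 + δ)⁻¹ * (1 + δ) = 1 := inv_mul_cancel₀ (by linarith)
    have h12 : 0 < (1 + δ)⁻¹ := inv_pos.2 (by linarith)
    set c := (1 + δ)⁻¹ with hc
    have h13 : 1 - δ ≤ c := by nlinarith
    have h14 : 1 - δ - 3 * μ ≤ c * (1 - 3 * μ) := by nlinarith [mul_pos hδ0 hμ0]
    have h15 : c * ((1 - 3 * μ) * Real.sqrt N) ≤ c * Real.sqrt n :=
      mul_le_mul_of_nonneg_left h6 h12.le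
    have h16 : (1 - δ - 3 * μ) * Real.sqrt N ≤ c * (1 - 3 * μ) * Real.sqrt N :=
      mul_le_mul_of_nonneg_right h14 hs
    have h17 : 0 ≤ η / 4 * Real.sqrt N := by positivity
    rw [abs_le]
    constructor
    · have h18 : c * (Real.sqrt n - η / 4 * Real.sqrt N) ≤ c * F :=
        mul_le_mul_of_nonneg_left (by linarith [h4.1]) h12.le
      have h19 : c * (η / 4 * Real.sqrt N) ≤ η / 4 * Real.sqrt N := by nlinarith
      have h20 : (η - δ - 3 * μ - η / 4) * Real.sqrt N ≥ 0 := mul_nonneg (by linarith) hs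
      nlinarith
    · have h18 : c * F ≤ c * (Real.sqrt n + η / 4 * Real.sqrt N) :=
        mul_le_mul_of_nonneg_left (by linarith [h4.2]) h12.le
      have h19 : c * (Real.sqrt n + η / 4 * Real.sqrt N) ≤ Real.sqrt n + η / 4 * Real.sqrt N := by
        have h21 : 0 ≤ Real.sqrt n + η / 4 * Real.sqrt N := by positivity
        nlinarith
      have h20 : (η - η / 4) * Real.sqrt N ≥ 0 := mul_nonneg (by linarith) hs
      nlinarith

end Vale.Agent.P110T
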