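import Vale.Agent.Lib.P110F.Defs

/-!
P110T/Band: band limit. The kernel `V(u) = (1/q) D_q(u) D_{N-q}(u)`, `D_m(u) = ∑_{j<m} e1 (j u)`
(helper88).
-/

namespace Vale.Agent.P110T

open MeasureTheory Vale.Agent.P110F
open scoped ComplexConjugate

/-- the coefficients of the kernel -/
noncomputable def vq (N q k : ℕ) : ℝ :=
  (((Finset.range q ×ˢ Finset.range (N - q)).filter (fun p => p.1 + p.2 = k)).card : ℝ) / q

/-- Dirichlet type kernel -/
noncomputable def Dm (m : ℕ) (u : ℝ) : ℂ := ∑ j ∈ Finset.range m, e1 ((j : ℝ) * u)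

/-- the kernel -/
noncomputable def Vk (N q : ℕ) (u : ℝ) : ℂ := (q : ℂ)⁻¹ * (Dm q u * Dm (N - q) u)

theorem vq_nonneg (N q k : ℕ) : 0 ≤ vq N q k := by
  unfold vq
  positivity

theorem vq_le_one {N q : ℕ} (k : ℕ) : vq N q k ≤ 1 := by
  unfold vq
  rcases Nat.eq_zero_or_pos q with h | hq
  · subst h
    simp
  rw [div_le_one (by exact_mod_cast hq)]
  have h1 : ((Finset.range q ×ˢ Finset.range (N - q)).filter (fun p => p.1 + p.2 = k)).card ≤
      (Finset.range q).card := by
    refine Finset.card_le_card_of_injOn (fun p => p.1) ?_ ?_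
    · intro p hp
      have hp' := Finset.mem_filter.1 (Finset.mem_coe.1 hp)
      exact Finset.mem_coe.2 (Finset.mem_product.1 hp'.1).1
    · intro p hp p' hp' h
      have h1 := (Finset.mem_filter.1 (Finset.mem_coe.1 hp)).2
      have h2 := (Finset.mem_filter.1 (Finset.mem_coe.1 hp')).2
      have h3 : p.1 = p'.1 := h
      ext
      · exact h3
      · omega
  rw [Finset.card_range] at h1
  exact_mod_cast h1

theorem vq_one {N q : ℕ} (hq : 0 < q) {k : ℕ} (hk1 : q ≤ k) (hk2 : k + q + 1 ≤ N) :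
    vq N q k = 1 := by
  unfold vq
  have h1 : ((Finset.range q ×ˢ Finset.range (N - q)).filter (fun p => p.1 + p.2 = k)).card =
      q := by
    rw [← Finset.card_range q]
    refine Finset.card_bij (fun p _ => p.1) ?_ ?_ ?_
    · intro p hp
      have h1 := (Finset.mem_product.1 (Finset.mem_filter.1 hp).1).1
      rw [Finset.card_range] at h1
      exact h1
    · intro p hp p' hp' h
      have h1 := (Finset.mem_filter.1 hp).2
      have h2 := (Finset.mem_filter.1 hp').2
      ext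
      · exact h
      · omega
    · intro a ha
      rw [Finset.mem_range] at ha
      refine ⟨(a, k - a), ?_, rfl⟩
      rw [Finset.mem_filter, Finset.mem_product, Finset.mem_range, Finset.mem_range,
        Finset.card_range]
      refine ⟨⟨ha, ?_⟩, ?_⟩
      · change k - a < N - q
        omega
      · change a + (k - a) = k
        omega
  rw [h1, div_self]
  exact_mod_cast hq.ne'

theorem Vk_eq {N q : ℕ} (hq : 0 < q) (u : ℝ) :
    Vk N q u = ∑ k ∈ Finset.range N, (vq N q k : ℂ) * e1 ((k : ℝ) * u) := by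
  unfold Vk Dm vq
  rw [Finset.sum_mul_sum, ← Finset.sum_product', Finset.mul_sum]
  have hmap : ∀ p ∈ Finset.range q ×ˢ Finset.range (N - q), p.1 + p.2 ∈ Finset.range N := by
    intro p hp
    rw [Finset.mem_product, Finset.mem_range, Finset.mem_range] at hp
    rw [Finset.mem_range]
    omega
  rw [← Finset.sum_fiberwise_of_maps_to hmap]
  refine Finset.sum_congr rfl fun k _ => ?_
  have h1 : ∀ p ∈ (Finset.range q ×ˢ Finset.range (N - q)).filter (fun p => p.1 + p.2 = k),
      (q : ℂ)⁻¹ * (e1 ((p.1 : ℝ) * u) * e1 ((p.2 : ℝ) * u)) = (q : ℂ)⁻¹ * e1 ((k : ℝ) * u) := by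
    intro p hp
    have h2 := (Finset.mem_filter.1 hp).2
    rw [← e1_add, ← add_mul, ← Nat.cast_add, h2]
  rw [Finset.sum_congr rfl h1, Finset.sum_const, nsmul_eq_mul]
  push_cast
  ring

theorem continuous_Dm (m : ℕ) : Continuous (Dm m) := by
  unfold Dm
  exact continuous_finsetSum _ fun j _ => continuous_e1.comp (continuous_const.mul continuous_id)

theorem continuous_Vk (N q : ℕ) : Continuous (Vk N q) := by
  unfold Vk
  exact continuous_const.mul ((continuous_Dm q).mul (continuous_Dm (N - q)))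

private theorem Band_e1_periodic (k : ℤ) (x : ℝ) : e1 ((k : ℝ) * (x + 1)) = e1 ((k : ℝ) * x) := by
  rw [mul_add, mul_one, e1_add, e1_int, mul_one]

theorem Dm_periodic (m : ℕ) (u : ℝ) : Dm m (u + 1) = Dm m u := by
  unfold Dm
  refine Finset.sum_congr rfl fun j _ => ?_
  exact_mod_cast Band_e1_periodic (j : ℤ) u

theorem Vk_periodic (N q : ℕ) (u : ℝ) : Vk N q (u + 1) = Vk N q u := by
  unfold Vk
  rw [Dm_periodic, Dm_periodic]

/-- orthogonality over a shifted period -/
private theorem Band_shift {f : ℝ → ℂ} (hf : ∀ x, f (x + 1) = f x) (a : ℝ) :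
    ∫ x in a..(a + 1), f x = ∫ x in (0 : ℝ)..1, f x := by
  have hp : Function.Periodic f 1 := hf
  have := hp.intervalIntegral_add_eq a 0
  rwa [zero_add] at this

private theorem Band_shiftR {f : ℝ → ℝ} (hf : ∀ x, f (x + 1) = f x) (a : ℝ) :
    ∫ x in a..(a + 1), f x = ∫ x in (0 : ℝ)..1, f x := by
  have hp : Function.Periodic f 1 := hf
  have := hp.intervalIntegral_add_eq a 0
  rwa [zero_add] at this

theorem integral_Dm_sq (m : ℕ) : ∫ u in (0 : ℝ)..1, ‖Dm m u‖ ^ 2 = m := by
  have h1 : ((∫ u in (0 : ℝ)..1, ‖Dm m u‖ ^ 2 : ℝ) : ℂ) = (m : ℂ) := by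
    rw [← intervalIntegral.integral_ofReal]
    have h2 : ∀ u : ℝ, ((‖Dm m u‖ ^ 2 : ℝ) : ℂ) =
        ∑ j ∈ Finset.range m, ∑ l ∈ Finset.range m, e1 ((((l : ℤ) - j : ℤ) : ℝ) * u) := by
      intro u
      rw [Complex.ofReal_pow, ← Complex.conj_mul', Dm, map_sum, Finset.sum_mul_sum]
      refine Finset.sum_congr rfl fun j _ => Finset.sum_congr rfl fun l _ => ?_
      rw [← e1_neg, ← e1_add]
      congr 1
      push_cast
      ring
    simp_rw [h2]
    have hc : ∀ z : ℤ, Continuous fun u : ℝ => e1 ((z : ℝ) * u) := fun z =>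
      continuous_e1.comp (continuous_const.mul continuous_id)
    rw [intervalIntegral.integral_finsetSum fun j _ =>
      (continuous_finsetSum _ fun l _ => hc _).intervalIntegrable _ _]
    have h3 : ∀ j ∈ Finset.range m, ∫ u in (0 : ℝ)..1,
        ∑ l ∈ Finset.range m, e1 ((((l : ℤ) - j : ℤ) : ℝ) * u) = 1 := by
      intro j hj
      rw [intervalIntegral.integral_finsetSum fun l _ => (hc _).intervalIntegrable _ _]
      simp_rw [integral_e1_int]
      have h4 : ∀ l ∈ Finset.range m, (if (l : ℤ) - j = 0 then (1 : ℂ) else 0) =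
          if l = j then 1 else 0 := by
        intro l _
        by_cases h : l = j
        · rw [if_pos h, if_pos (by rw [h]; ring)]
        · rw [if_neg h, if_neg (by intro h'; apply h; omega)]
      rw [Finset.sum_congr rfl h4, Finset.sum_ite_eq', if_pos hj]
    rw [Finset.sum_congr rfl h3, Finset.sum_const, Finset.card_range, nsmul_eq_mul, mul_one]
  exact_mod_cast h1

theorem norm_Dm_le (m : ℕ) {u : ℝ} (hu : u ≠ 0) (hu2 : |u| ≤ 1 / 2) : ‖Dm m u‖ ≤ 1 / (2 * |u|) := by
  have h0 : 0 < |u| := abs_pos.2 hu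
  have hgeo : Dm m u * (e1 u - 1) = e1 ((m : ℝ) * u) - 1 := by
    have h1 : ∀ j : ℕ, e1 ((j : ℝ) * u) = e1 u ^ j := by
      intro j
      induction j with
      | zero => simp [e1_zero]
      | succ j ih =>
        rw [pow_succ, ← ih, ← e1_add]
        congr 1
        push_cast
        ring
    unfold Dm
    rw [h1, Finset.sum_congr rfl fun j _ => h1 j, geom_sum_mul]
  have hlow : 4 * |u| ≤ ‖e1 u - 1‖ := by
    have h1 : e1 u = Complex.exp (Complex.I * ((2 * Real.pi * u : ℝ) : ℂ)) := by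
      unfold e1
      congr 1
      push_cast
      ring
    rw [h1, Complex.norm_exp_I_mul_ofReal_sub_one, Real.norm_eq_abs, abs_mul, abs_two]
    have h2 : 2 * Real.pi * u / 2 = Real.pi * u := by ring
    rw [h2]
    have h3 : |Real.sin (Real.pi * u)| = Real.sin (Real.pi * |u|) := by
      rcases abs_cases u with ⟨h, h'⟩ | ⟨h, h'⟩
      · rw [h, abs_of_nonneg]
        refine Real.sin_nonneg_of_nonneg_of_le_pi (by positivity) ?_
        rw [h] at hu2
        nlinarith [Real.pi_pos]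
      · rw [h, mul_neg, Real.sin_neg, abs_of_nonpos]
        have h4 : 0 ≤ Real.sin (Real.pi * (-u)) := by
          refine Real.sin_nonneg_of_nonneg_of_le_pi (by nlinarith [Real.pi_pos]) ?_
          rw [h] at hu2
          nlinarith [Real.pi_pos]
        rw [mul_neg, Real.sin_neg] at h4
        linarith
    rw [h3]
    have h5 : 2 / Real.pi * (Real.pi * |u|) ≤ Real.sin (Real.pi * |u|) :=
      Real.mul_le_sin (by positivity) (by nlinarith [Real.pi_pos])
    have h6 : 2 / Real.pi * (Real.pi * |u|) = 2 * |u| := by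
      field_simp
    linarith
  have hup : ‖e1 ((m : ℝ) * u) - 1‖ ≤ 2 := by
    refine (norm_sub_le _ _).trans ?_
    rw [norm_e1, norm_one]
    norm_num
  rw [le_div_iff₀ (by positivity)]
  have h7 : ‖Dm m u‖ * ‖e1 u - 1‖ ≤ 2 := by
    rw [← norm_mul, hgeo]
    exact hup
  have h8 : ‖Dm m u‖ * (4 * |u|) ≤ 2 :=
    (mul_le_mul_of_nonneg_left hlow (norm_nonneg _)).trans h7
  linarith

theorem norm_Vk_le {N q : ℕ} (hq : 0 < q) {u : ℝ} (hu : u ≠ 0) (hu2 : |u| ≤ 1 / 2) :
    ‖Vk N q u‖ ≤ 1 / (4 * q * u ^ 2) := by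
  have h0 : 0 < |u| := abs_pos.2 hu
  have hq' : (0 : ℝ) < q := by exact_mod_cast hq
  unfold Vk
  rw [norm_mul, norm_mul, norm_inv, Complex.norm_natCast]
  calc (q : ℝ)⁻¹ * (‖Dm q u‖ * ‖Dm (N - q) u‖)
      ≤ (q : ℝ)⁻¹ * (1 / (2 * |u|) * (1 / (2 * |u|))) := by
        gcongr
        · exact norm_Dm_le q hu hu2
        · exact norm_Dm_le (N - q) hu hu2
    _ = 1 / (4 * q * u ^ 2) := by
        rw [← sq_abs u]
        field_simp
        norm_num

theorem integral_norm_Vk_le {N q : ℕ} (hq : 0 < q) (hqN : 2 * q ≤ N) :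
    ∫ u in (0 : ℝ)..1, ‖Vk N q u‖ ≤ Real.sqrt (N / q) := by
  have hq' : (0 : ℝ) < q := by exact_mod_cast hq
  have hP : 0 < N - q := by omega
  have hP' : (0 : ℝ) < ((N - q : ℕ) : ℝ) := by exact_mod_cast hP
  set P : ℝ := ((N - q : ℕ) : ℝ) with hPdef
  set s : ℝ := Real.sqrt (P / q) with hs
  have hs0 : 0 < s := Real.sqrt_pos.2 (by positivity)
  have hs2 : s ^ 2 = P / q := Real.sq_sqrt (by positivity)
  have h1 : ∫ u in (0 : ℝ)..1, ‖Vk N q u‖ ≤
      ∫ u in (0 : ℝ)..1, (q : ℝ)⁻¹ * ((s * ‖Dm q u‖ ^ 2 + ‖Dm (N - q) u‖ ^ 2 / s) / 2) := by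
    refine intervalIntegral.integral_mono_on zero_le_one
      ((continuous_Vk N q).norm.intervalIntegrable _ _) ?_ fun u _ => ?_
    · refine Continuous.intervalIntegrable ?_ _ _
      have c1 := (continuous_Dm q).norm
      have c2 := (continuous_Dm (N - q)).norm
      fun_prop
    · unfold Vk
      rw [norm_mul, norm_mul, norm_inv, Complex.norm_natCast]
      refine mul_le_mul_of_nonneg_left ?_ (by positivity)
      set a := ‖Dm q u‖
      set b := ‖Dm (N - q) u‖
      have h2 : 0 ≤ (s * a - b) ^ 2 / s := by positivity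
      have h3 : (s * a - b) ^ 2 / s = s * a ^ 2 - 2 * (a * b) + b ^ 2 / s := by
        field_simp
        ring
      linarith
  refine h1.trans ?_
  have c1 := (continuous_Dm q).norm
  have c2 := (continuous_Dm (N - q)).norm
  have h4 : ∫ u in (0 : ℝ)..1, (q : ℝ)⁻¹ * ((s * ‖Dm q u‖ ^ 2 + ‖Dm (N - q) u‖ ^ 2 / s) / 2) =
      (q : ℝ)⁻¹ * ((s * q + P / s) / 2) := by
    have g1 : IntervalIntegrable (fun u => s * ‖Dm q u‖ ^ 2) volume 0 1 :=
      (continuous_const.mul (c1.pow 2)).intervalIntegrable _ _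
    have g2 : IntervalIntegrable (fun u => ‖Dm (N - q) u‖ ^ 2 / s) volume 0 1 :=
      ((c2.pow 2).div_const _).intervalIntegrable _ _
    rw [intervalIntegral.integral_const_mul, intervalIntegral.integral_div,
      intervalIntegral.integral_add g1 g2,
      intervalIntegral.integral_const_mul, intervalIntegral.integral_div, integral_Dm_sq,
      integral_Dm_sq]
  rw [h4]
  have h5 : P / s = s * q := by
    rw [div_eq_iff hs0.ne']
    have : s * q * s = s ^ 2 * q := by ring
    rw [this, hs2]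
    field_simp
  rw [h5]
  have h6 : (q : ℝ)⁻¹ * ((s * q + s * q) / 2) = s := by
    field_simp
    ring
  rw [h6, hs]
  refine Real.sqrt_le_sqrt ?_
  gcongr
  rw [hPdef]
  exact_mod_cast Nat.sub_le N q

private theorem Band_integrable {f : ℝ → ℂ} (hf : Measurable f) {C : ℝ} (hC : ∀ x, ‖f x‖ ≤ C)
    (a b : ℝ) : IntervalIntegrable f volume a b := by
  refine IntervalIntegrable.mono_fun (g := f) (f := fun _ : ℝ => C)
    intervalIntegrable_const hf.aestronglyMeasurable ?_
  refine Filter.Eventually.of_forall fun x => ?_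
  exact (hC x).trans (le_abs_self C)

/-- the band limited function as a convolution -/
private theorem Band_conv {N q : ℕ} (hq : 0 < q) {T : ℝ → ℂ} (hT : Measurable T)
    (hper : ∀ x, T (x + 1) = T x) {B : ℝ} (hB : ∀ x, ‖T x‖ ≤ B) (x : ℝ) :
    (∑ k ∈ Finset.range N, (vq N q k : ℂ) * (∫ y in (0:ℝ)..1, T y * e1 (-((k:ℝ) * y))) *
      e1 ((k:ℝ) * x)) = ∫ u in (-(1/2) : ℝ)..(1/2), T (x - u) * Vk N q u := by
  have h1 : ∀ k ∈ Finset.range N, (vq N q k : ℂ) *
      (∫ y in (0:ℝ)..1, T y * e1 (-((k:ℝ) * y))) * e1 ((k:ℝ) * x) =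
      ∫ y in (0:ℝ)..1, T y * ((vq N q k : ℂ) * e1 ((k : ℝ) * (x - y))) := by
    intro k _
    rw [mul_assoc, ← intervalIntegral.integral_mul_const, ← intervalIntegral.integral_const_mul]
    refine intervalIntegral.integral_congr fun y _ => ?_
    change (vq N q k : ℂ) * (T y * e1 (-((k:ℝ) * y)) * e1 ((k:ℝ) * x)) = _
    have h2 : e1 ((k : ℝ) * (x - y)) = e1 (-((k:ℝ) * y)) * e1 ((k:ℝ) * x) := by
      rw [← e1_add]
      congr 1
      ring
    rw [h2]
    ring
  rw [Finset.sum_congr rfl h1, ← intervalIntegral.integral_finsetSum]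
  · have h3 : ∀ y : ℝ, ∑ k ∈ Finset.range N, T y * ((vq N q k : ℂ) * e1 ((k : ℝ) * (x - y))) =
        T y * Vk N q (x - y) := by
      intro y
      rw [← Finset.mul_sum, Vk_eq hq]
    simp_rw [h3]
    have h4 : ∫ u in (-(1/2) : ℝ)..(1/2), T (x - u) * Vk N q u =
        ∫ y in (x - 1/2)..(x - -(1/2)), T y * Vk N q (x - y) := by
      rw [← intervalIntegral.integral_comp_sub_left (fun y => T y * Vk N q (x - y)) x]
      refine intervalIntegral.integral_congr fun u _ => ?_
      rw [sub_sub_cancel]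
    rw [h4]
    have h5 : x - -(1/2 : ℝ) = (x - 1/2) + 1 := by ring
    rw [h5, Band_shift (f := fun y => T y * Vk N q (x - y))]
    intro y
    rw [hper, ← Vk_periodic N q (x - (y + 1))]
    congr 2
    ring
  · intro k _
    refine (Band_integrable hT hB 0 1).mul_continuousOn (Continuous.continuousOn ?_)
    exact continuous_const.mul (continuous_e1.comp (continuous_const.mul
      (continuous_const.sub continuous_id)))

/-- the kernel has mass one at the frequencies in the middle -/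
private theorem Band_mass {N q : ℕ} (hq : 0 < q) (k : ℤ) (hk1 : (q:ℤ) ≤ k)
    (hk2 : k + q + 1 ≤ N) :
    ∫ u in (-(1/2) : ℝ)..(1/2), e1 (-((k : ℝ) * u)) * Vk N q u = 1 := by
  have h0 : ∫ u in (-(1/2) : ℝ)..(1/2), e1 (-((k : ℝ) * u)) * Vk N q u =
      ∫ u in (0:ℝ)..1, e1 (-((k : ℝ) * u)) * Vk N q u := by
    have h1 : (1/2 : ℝ) = -(1/2) + 1 := by norm_num
    have h2 := Band_shift (f := fun u => e1 (-((k : ℝ) * u)) * Vk N q u) (by
      intro u
      change e1 (-((k : ℝ) * (u + 1))) * Vk N q (u + 1) = e1 (-((k : ℝ) * u)) * Vk N q u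
      rw [Vk_periodic]
      congr 1
      have := Band_e1_periodic (-k) u
      push_cast at this
      rw [neg_mul, neg_mul] at this
      exact this) (-(1/2))
    rw [← h1] at h2
    exact h2
  rw [h0]
  have h3 : ∀ u : ℝ, e1 (-((k : ℝ) * u)) * Vk N q u =
      ∑ j ∈ Finset.range N, (vq N q j : ℂ) * e1 ((((j : ℤ) - k : ℤ) : ℝ) * u) := by
    intro u
    rw [Vk_eq hq, Finset.mul_sum]
    refine Finset.sum_congr rfl fun j _ => ?_
    have h4 : e1 ((((j : ℤ) - k : ℤ) : ℝ) * u) = e1 (-((k : ℝ) * u)) * e1 ((j : ℝ) * u) := by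
      rw [← e1_add]
      congr 1
      push_cast
      ring
    rw [h4]
    ring
  simp_rw [h3]
  have hc : ∀ z : ℤ, Continuous fun u : ℝ => e1 ((z : ℝ) * u) := fun z =>
    continuous_e1.comp (continuous_const.mul continuous_id)
  have hi : ∀ j ∈ Finset.range N, IntervalIntegrable
      (fun u : ℝ => (vq N q j : ℂ) * e1 ((((j : ℤ) - k : ℤ) : ℝ) * u)) volume 0 1 := fun j _ =>
    (continuous_const.mul (hc _)).intervalIntegrable _ _
  rw [intervalIntegral.integral_finsetSum hi]
  simp_rw [intervalIntegral.integral_const_mul, integral_e1_int]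
  have hkn : (k.toNat : ℤ) = k := Int.toNat_of_nonneg (by omega)
  have h5 : ∀ j ∈ Finset.range N, (vq N q j : ℂ) * (if (j : ℤ) - k = 0 then (1 : ℂ) else 0) =
      if j = k.toNat then (1 : ℂ) else 0 := by
    intro j _
    by_cases h : j = k.toNat
    · rw [if_pos h, if_pos (by omega), h, vq_one hq (by omega) (by omega)]
      simp
    · rw [if_neg h, if_neg (by intro h'; apply h; omega), mul_zero]
  rw [Finset.sum_congr rfl h5, Finset.sum_ite_eq', if_pos (Finset.mem_range.2 (by omega))]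

/-- the tail of the kernel -/
private theorem Band_tail {N q : ℕ} (hq : 0 < q) {w : ℝ} (hw : 0 < w) (hw2 : w ≤ 1 / 2) :
    ∫ u in (-(1/2) : ℝ)..(1/2), (if |u| ≤ w then (0 : ℝ) else ‖Vk N q u‖) ≤ 1 / (2 * (q * w)) := by
  have hq' : (0 : ℝ) < q := by exact_mod_cast hq
  set G : ℝ → ℝ := fun u => if |u| ≤ w then (0 : ℝ) else ‖Vk N q u‖ with hG
  have hGm : Measurable G := by
    refine Measurable.ite ?_ measurable_const (continuous_Vk N q).norm.measurable
    exact measurableSet_le continuous_abs.measurable measurable_const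
  have hGi : ∀ a b : ℝ, IntervalIntegrable G volume a b := by
    intro a b
    refine IntervalIntegrable.mono_fun (f := fun u => ‖Vk N q u‖)
      ((continuous_Vk N q).norm.intervalIntegrable _ _) hGm.aestronglyMeasurable ?_
    refine Filter.Eventually.of_forall fun u => ?_
    simp only [hG]
    split_ifs with h
    · rw [norm_zero]
      exact norm_nonneg _
    · exact le_refl _
  have hsplit : ∫ u in (-(1/2) : ℝ)..(1/2), G u = (∫ u in (-(1/2) : ℝ)..(-w), G u) +
      (∫ u in (-w)..w, G u) + ∫ u in w..(1/2), G u := by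
    rw [intervalIntegral.integral_add_adjacent_intervals (hGi _ _) (hGi _ _),
      intervalIntegral.integral_add_adjacent_intervals (hGi _ _) (hGi _ _)]
  have hmid : ∫ u in (-w)..w, G u = 0 := by
    rw [show (0 : ℝ) = ∫ u in (-w)..w, (0 : ℝ) by simp]
    refine intervalIntegral.integral_congr fun u hu => ?_
    rw [Set.uIcc_of_le (by linarith)] at hu
    simp only [hG]
    rw [if_pos (abs_le.2 hu)]
  have hbd : ∀ u : ℝ, u ≠ 0 → |u| ≤ 1 / 2 → G u ≤ (4 * q : ℝ)⁻¹ * (u ^ 2)⁻¹ := by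
    intro u hu hu2
    have h1 := norm_Vk_le (N := N) hq hu hu2
    have h2 : 1 / (4 * q * u ^ 2) = (4 * q : ℝ)⁻¹ * (u ^ 2)⁻¹ := by
      rw [one_div, mul_inv]
    rw [h2] at h1
    simp only [hG]
    split_ifs with h
    · positivity
    · exact h1
  have hint : ∀ a b : ℝ, 0 < a → a ≤ b → ∫ u in a..b, (4 * q : ℝ)⁻¹ * (u ^ 2)⁻¹ =
      (4 * q : ℝ)⁻¹ * (a⁻¹ - b⁻¹) := by
    intro a b ha hab
    rw [intervalIntegral.integral_const_mul]
    congr 1
    have h1 : ∀ u ∈ Set.uIcc a b, HasDerivAt (fun u : ℝ => -u⁻¹) ((u ^ 2)⁻¹) u := by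
      intro u hu
      rw [Set.uIcc_of_le hab] at hu
      have hu0 : u ≠ 0 := (lt_of_lt_of_le ha hu.1).ne'
      have := (hasDerivAt_inv hu0).neg
      rwa [neg_neg] at this
    have hci : IntervalIntegrable (fun u : ℝ => (u ^ 2)⁻¹) volume a b := by
      refine ContinuousOn.intervalIntegrable ?_
      refine ContinuousOn.inv₀ (continuous_pow 2).continuousOn ?_
      intro u hu
      rw [Set.uIcc_of_le hab] at hu
      exact pow_ne_zero 2 (lt_of_lt_of_le ha hu.1).ne'
    rw [intervalIntegral.integral_eq_sub_of_hasDerivAt h1 hci]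
    ring
  have hii : ∀ a b : ℝ, 0 < a → a ≤ b →
      IntervalIntegrable (fun u : ℝ => (4 * q : ℝ)⁻¹ * (u ^ 2)⁻¹) volume a b := by
    intro a b ha hab
    refine ContinuousOn.intervalIntegrable ?_
    refine ContinuousOn.mul continuousOn_const (ContinuousOn.inv₀ (continuous_pow 2).continuousOn ?_)
    intro u hu
    rw [Set.uIcc_of_le hab] at hu
    exact pow_ne_zero 2 (lt_of_lt_of_le ha hu.1).ne'
  have hright : ∫ u in w..(1/2), G u ≤ (4 * q : ℝ)⁻¹ * (w⁻¹ - (1/2 : ℝ)⁻¹) := by
    rw [← hint w (1/2) hw hw2]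
    refine intervalIntegral.integral_mono_on hw2 (hGi _ _) (hii _ _ hw hw2) fun u hu => ?_
    have hu0 : 0 < u := lt_of_lt_of_le hw hu.1
    exact hbd u hu0.ne' (by rw [abs_of_pos hu0]; exact hu.2)
  have hleft : ∫ u in (-(1/2) : ℝ)..(-w), G u ≤ (4 * q : ℝ)⁻¹ * (w⁻¹ - (1/2 : ℝ)⁻¹) := by
    have h1 : ∫ u in (-(1/2) : ℝ)..(-w), G u = ∫ u in w..(1/2), G (-u) := by
      rw [intervalIntegral.integral_comp_neg]
    rw [h1, ← hint w (1/2) hw hw2]
    refine intervalIntegral.integral_mono_on hw2 ?_ (hii _ _ hw hw2) fun u hu => ?_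
    · have := (hGi (-w) (-(1/2))).comp_sub_left 0
      simpa using this
    · have hu0 : 0 < u := lt_of_lt_of_le hw hu.1
      have h2 := hbd (-u) (neg_ne_zero.2 hu0.ne') (by rw [abs_neg, abs_of_pos hu0]; exact hu.2)
      rwa [neg_sq] at h2
  rw [hsplit, hmid, add_zero]
  have h9 : (1 : ℝ) / (2 * (q * w)) = (4 * q : ℝ)⁻¹ * (w⁻¹) + (4 * q : ℝ)⁻¹ * (w⁻¹) := by
    field_simp
    norm_num
  rw [h9]
  have h10 : (4 * q : ℝ)⁻¹ * (w⁻¹ - (1/2 : ℝ)⁻¹) ≤ (4 * q : ℝ)⁻¹ * (w⁻¹) := by
    refine mul_le_mul_of_nonneg_left ?_ (by positivity)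
    norm_num
  linarith

/-- **Band limit**: the multiplier `vq N q` moves a bounded, locally pure function little. -/
theorem band_limit {N q : ℕ} (hq : 0 < q) (hqN : 2 * q ≤ N) {T : ℝ → ℂ} (hT : Measurable T)
    (hper : ∀ x, T (x + 1) = T x) {B : ℝ} (hB : ∀ x, ‖T x‖ ≤ B) {x w ε : ℝ} (hw : 0 < w)
    (hw2 : w ≤ 1 / 2) (k : ℤ) (hk1 : (q:ℤ) ≤ k) (hk2 : k + q + 1 ≤ N) (a : ℂ) (ha : ‖a‖ ≤ B)
    (hloc : ∀ u, |u| ≤ w → ‖T (x - u) - a * e1 (-(k * u))‖ ≤ ε) :
    ‖(∑ k ∈ Finset.range N, (vq N q k : ℂ) * (∫ y in (0:ℝ)..1, T y * e1 (-((k:ℝ) * y))) *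
      e1 ((k:ℝ) * x)) - T x‖ ≤ ε * (1 + Real.sqrt (N / q)) + B / (q * w) := by
  have hq' : (0 : ℝ) < q := by exact_mod_cast hq
  have hε : 0 ≤ ε := (norm_nonneg _).trans (hloc 0 (by rw [abs_zero]; exact hw.le))
  have hB0 : 0 ≤ B := (norm_nonneg _).trans ha
  rw [Band_conv hq hT hper hB x]
  have hTm : Measurable fun u : ℝ => T (x - u) := hT.comp (measurable_const.sub measurable_id)
  have hI1 : IntervalIntegrable (fun u : ℝ => T (x - u) * Vk N q u) volume (-(1/2)) (1/2) :=
    (Band_integrable hTm (fun u => hB _) _ _).mul_continuousOn (continuous_Vk N q).continuousOn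
  have hce : Continuous fun u : ℝ => e1 (-((k : ℝ) * u)) :=
    continuous_e1.comp (continuous_const.mul continuous_id).neg
  have hI2 : IntervalIntegrable (fun u : ℝ => a * (e1 (-((k : ℝ) * u)) * Vk N q u)) volume
      (-(1/2)) (1/2) :=
    (continuous_const.mul (hce.mul (continuous_Vk N q))).intervalIntegrable _ _
  have hmain : (∫ u in (-(1/2) : ℝ)..(1/2), T (x - u) * Vk N q u) - a =
      ∫ u in (-(1/2) : ℝ)..(1/2), (T (x - u) - a * e1 (-((k : ℝ) * u))) * Vk N q u := by
    have h1 : a = ∫ u in (-(1/2) : ℝ)..(1/2), a * (e1 (-((k : ℝ) * u)) * Vk N q u) := by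
      rw [intervalIntegral.integral_const_mul, Band_mass hq k hk1 hk2, mul_one]
    conv_lhs => rw [h1]
    rw [← intervalIntegral.integral_sub hI1 hI2]
    refine intervalIntegral.integral_congr fun u _ => ?_
    ring
  have hGm : Measurable (fun u : ℝ => if |u| ≤ w then (0 : ℝ) else ‖Vk N q u‖) := by
    refine Measurable.ite ?_ measurable_const (continuous_Vk N q).norm.measurable
    exact measurableSet_le continuous_abs.measurable measurable_const
  have hGi : IntervalIntegrable (fun u : ℝ => if |u| ≤ w then (0 : ℝ) else ‖Vk N q u‖) volume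
      (-(1/2)) (1/2) := by
    refine IntervalIntegrable.mono_fun (f := fun u => ‖Vk N q u‖)
      ((continuous_Vk N q).norm.intervalIntegrable _ _) hGm.aestronglyMeasurable ?_
    refine Filter.Eventually.of_forall fun u => ?_
    change ‖if |u| ≤ w then (0 : ℝ) else ‖Vk N q u‖‖ ≤ ‖‖Vk N q u‖‖
    split_ifs with h
    · rw [norm_zero]
      exact norm_nonneg _
    · exact le_refl _
  have hVi : IntervalIntegrable (fun u : ℝ => ‖Vk N q u‖) volume (-(1/2)) (1/2) :=
    (continuous_Vk N q).norm.intervalIntegrable _ _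
  have hbound : ‖(∫ u in (-(1/2) : ℝ)..(1/2), T (x - u) * Vk N q u) - a‖ ≤
      ε * Real.sqrt (N / q) + B / (q * w) := by
    rw [hmain]
    have h2 : ‖∫ u in (-(1/2) : ℝ)..(1/2), (T (x - u) - a * e1 (-((k : ℝ) * u))) * Vk N q u‖ ≤
        ∫ u in (-(1/2) : ℝ)..(1/2),
          (ε * ‖Vk N q u‖ + (2 * B) * (if |u| ≤ w then (0 : ℝ) else ‖Vk N q u‖)) := by
      refine intervalIntegral.norm_integral_le_of_norm_le (by norm_num) ?_
        ((hVi.const_mul ε).add (hGi.const_mul (2 * B)))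
      refine Filter.Eventually.of_forall fun u _ => ?_
      rw [norm_mul]
      split_ifs with h
      · rw [mul_zero, add_zero]
        exact mul_le_mul_of_nonneg_right (hloc u h) (norm_nonneg _)
      · have h3 : ‖T (x - u) - a * e1 (-((k : ℝ) * u))‖ ≤ 2 * B := by
          refine (norm_sub_le _ _).trans ?_
          rw [norm_mul, norm_e1, mul_one]
          linarith [hB (x - u)]
        have h4 : 0 ≤ ε * ‖Vk N q u‖ := by positivity
        have h5 := mul_le_mul_of_nonneg_right h3 (norm_nonneg (Vk N q u))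
        linarith
    refine h2.trans ?_
    rw [intervalIntegral.integral_add (hVi.const_mul ε) (hGi.const_mul (2 * B)),
      intervalIntegral.integral_const_mul, intervalIntegral.integral_const_mul]
    have h6 : ∫ u in (-(1/2) : ℝ)..(1/2), ‖Vk N q u‖ ≤ Real.sqrt (N / q) := by
      have h7 : (1/2 : ℝ) = -(1/2) + 1 := by norm_num
      have h8 := Band_shiftR (f := fun u => ‖Vk N q u‖)
        (fun u => by rw [Vk_periodic]) (-(1/2))
      rw [← h7] at h8
      rw [h8]
      exact integral_norm_Vk_le hq hqN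
    have h9 := Band_tail (N := N) hq hw hw2
    have h10 : (2 * B) * (1 / (2 * (q * w))) = B / (q * w) := by
      field_simp
    have h11 := mul_le_mul_of_nonneg_left h6 hε
    have h12 := mul_le_mul_of_nonneg_left h9 (by positivity : 0 ≤ 2 * B)
    rw [h10] at h12
    exact add_le_add h11 h12
  have hTa : ‖a - T x‖ ≤ ε := by
    have h1 := hloc 0 (by rw [abs_zero]; exact hw.le)
    rw [sub_zero, mul_zero, neg_zero, e1_zero, mul_one, norm_sub_rev] at h1
    exact h1
  have h3 : (∫ u in (-(1/2) : ℝ)..(1/2), T (x - u) * Vk N q u) - T x =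
      ((∫ u in (-(1/2) : ℝ)..(1/2), T (x - u) * Vk N q u) - a) + (a - T x) := by ring
  rw [h3]
  refine (norm_add_le _ _).trans ?_
  have := add_le_add hbound hTa
  linarith

end Vale.Agent.P110T
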