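import Mathlib

/-!
# P110T: the block function

`cB A s s' r t` is a unimodular path from `A + i s √(1-A²)` (at `t = 0`) to `A + i s' √(1-A²)` (at
`t = 1`); the mean over `r` (weights `(1+A)/2`, `(1-A)/2`) has real part `A` and imaginary part
linear in the signs `s, s'`.
-/

namespace Vale.Agent.P110T

open scoped ComplexConjugate

/-- the bump -/
noncomputable def hB (t : ℝ) : ℝ := Real.sin (Real.pi * t) ^ 2

/-- the square root of the block function -/
noncomputable def qB (A : ℝ) (r : Bool) (t : ℝ) : ℝ :=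
  if r then Real.sqrt ((1 - A) * (1 + A + (1 - A) * hB t))
  else Real.sqrt ((1 + A) * (1 - A + (1 + A) * hB t))

/-- the real amplitude of the block function -/
noncomputable def aB (A : ℝ) (r : Bool) : ℝ := if r then 1 - A else -(1 + A)

/-- real part of the block function -/
noncomputable def reB (A s s' : ℝ) (r : Bool) (t : ℝ) : ℝ :=
  A + ((s - s') / 2) ^ 2 * aB A r * hB t

/-- imaginary part of the block function -/
noncomputable def imB (A s s' : ℝ) (r : Bool) (t : ℝ) : ℝ :=
  (s + s') / 2 * Real.sqrt (1 - A ^ 2) + (s - s') / 2 * (Real.cos (Real.pi * t) * qB A r t)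

/-- the block function -/
noncomputable def cB (A s s' : ℝ) (r : Bool) (t : ℝ) : ℂ :=
  (reB A s s' r t : ℂ) + (imB A s s' r t : ℂ) * Complex.I

theorem hB_nonneg (t : ℝ) : 0 ≤ hB t := sq_nonneg _

theorem hB_le_one (t : ℝ) : hB t ≤ 1 := Real.sin_sq_le_one _

theorem hB_zero : hB 0 = 0 := by simp [hB]

theorem hB_one : hB 1 = 0 := by simp [hB]

theorem cos_sq_hB (t : ℝ) : Real.cos (Real.pi * t) ^ 2 = 1 - hB t := by
  unfold hB
  rw [Real.cos_sq']

theorem qB_sq {A : ℝ} (h0 : 0 ≤ A) (h1 : A ≤ 1) (r : Bool) (t : ℝ) :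
    qB A r t ^ 2 = if r then (1 - A) * (1 + A + (1 - A) * hB t)
      else (1 + A) * (1 - A + (1 + A) * hB t) := by
  have hh := hB_nonneg t
  unfold qB
  cases r
  · simp only [Bool.false_eq_true, if_false]
    refine Real.sq_sqrt (mul_nonneg (by linarith) ?_)
    have := mul_nonneg (show (0 : ℝ) ≤ 1 + A by linarith) hh
    linarith
  · simp only [if_true]
    refine Real.sq_sqrt (mul_nonneg (by linarith) ?_)
    have := mul_nonneg (show (0 : ℝ) ≤ 1 - A by linarith) hh
    linarith

theorem norm_cB {A s s' : ℝ} (h0 : 0 ≤ A) (h1 : A ≤ 1) (hs : s = 1 ∨ s = -1)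
    (hs' : s' = 1 ∨ s' = -1) (r : Bool) (t : ℝ) : ‖cB A s s' r t‖ = 1 := by
  have hA : 0 ≤ 1 - A ^ 2 := by nlinarith
  have hq := qB_sq h0 h1 r t
  have hc := cos_sq_hB t
  have hsA := Real.sq_sqrt hA
  have key : reB A s s' r t ^ 2 + imB A s s' r t ^ 2 = 1 := by
    unfold reB imB
    by_cases hss : s = s'
    · subst hss
      have h2 : s ^ 2 = 1 := by rcases hs with h | h <;> rw [h] <;> norm_num
      have h3 : (A + ((s - s) / 2) ^ 2 * aB A r * hB t) ^ 2 +
          ((s + s) / 2 * Real.sqrt (1 - A ^ 2) +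
            (s - s) / 2 * (Real.cos (Real.pi * t) * qB A r t)) ^ 2 =
          A ^ 2 + s ^ 2 * Real.sqrt (1 - A ^ 2) ^ 2 := by ring
      rw [h3, h2, hsA]
      ring
    · have h2 : s' = -s := by
        rcases hs with h | h
        · rcases hs' with h' | h'
          · exact absurd (h.trans h'.symm) hss
          · rw [h, h']
        · rcases hs' with h' | h'
          · rw [h, h', neg_neg]
          · exact absurd (h.trans h'.symm) hss
      subst h2
      have h2 : s ^ 2 = 1 := by rcases hs with h | h <;> rw [h] <;> norm_num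
      have h3 : (A + ((s - -s) / 2) ^ 2 * aB A r * hB t) ^ 2 +
          ((s + -s) / 2 * Real.sqrt (1 - A ^ 2) +
            (s - -s) / 2 * (Real.cos (Real.pi * t) * qB A r t)) ^ 2 =
          (A + s ^ 2 * aB A r * hB t) ^ 2 +
            s ^ 2 * (Real.cos (Real.pi * t) ^ 2 * qB A r t ^ 2) := by ring
      rw [h3, h2, hc, hq]
      cases r
      · simp only [aB, Bool.false_eq_true, if_false]
        ring
      · simp only [aB, if_true]
        ring
  have h4 : ‖cB A s s' r t‖ ^ 2 = 1 := by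
    rw [← key, ← Complex.normSq_eq_norm_sq]
    unfold cB
    rw [Complex.normSq_add_mul_I]
  exact (pow_eq_one_iff_of_nonneg (norm_nonneg _) two_ne_zero).1 h4

theorem qB_end {A : ℝ} (r : Bool) {t : ℝ} (ht : hB t = 0) :
    qB A r t = Real.sqrt (1 - A ^ 2) := by
  unfold qB
  rw [ht]
  cases r
  · simp only [Bool.false_eq_true, if_false]
    congr 1
    ring
  · simp only [if_true]
    congr 1
    ring

theorem cB_zero (A s s' : ℝ) (r : Bool) :
    cB A s s' r 0 = (A : ℂ) + ((s * Real.sqrt (1 - A ^ 2) : ℝ) : ℂ) * Complex.I := by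
  unfold cB reB imB
  rw [qB_end r hB_zero, hB_zero, mul_zero, mul_zero, Real.cos_zero]
  push_cast
  ring

theorem cB_one (A s s' : ℝ) (r : Bool) :
    cB A s s' r 1 = (A : ℂ) + ((s' * Real.sqrt (1 - A ^ 2) : ℝ) : ℂ) * Complex.I := by
  unfold cB reB imB
  rw [qB_end r hB_one, hB_one, mul_one, Real.cos_pi]
  push_cast
  ring

/-- the averaged square root -/
noncomputable def WB (A t : ℝ) : ℝ := (1 + A) / 2 * qB A true t + (1 - A) / 2 * qB A false t

/-- the mean over `r` is linear in the signs -/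
theorem mean_cB (A s s' t : ℝ) :
    (((1 + A) / 2 : ℝ) : ℂ) * cB A s s' true t + (((1 - A) / 2 : ℝ) : ℂ) * cB A s s' false t =
      (A : ℂ) + (((s + s') / 2 * Real.sqrt (1 - A ^ 2) +
        (s - s') / 2 * (Real.cos (Real.pi * t) * WB A t) : ℝ) : ℂ) * Complex.I := by
  unfold cB reB imB WB aB
  simp only [Bool.false_eq_true, if_false, if_true]
  push_cast
  ring

/-- reversal with both signs changed is conjugation -/
theorem cB_rev (A s s' : ℝ) (r : Bool) (t : ℝ) :
    cB A (-s') (-s) r (1 - t) = conj (cB A s s' r t) := by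
  have h1 : hB (1 - t) = hB t := by
    unfold hB
    rw [mul_sub, mul_one, Real.sin_pi_sub]
  have h2 : qB A r (1 - t) = qB A r t := by
    unfold qB
    rw [h1]
  have h3 : Real.cos (Real.pi * (1 - t)) = -Real.cos (Real.pi * t) := by
    rw [mul_sub, mul_one, Real.cos_pi_sub]
  unfold cB reB imB
  rw [h1, h2, h3, map_add, map_mul, Complex.conj_I, Complex.conj_ofReal, Complex.conj_ofReal]
  push_cast
  ring

/-- the flip symmetry -/
theorem cB_flip (A s : ℝ) (r : Bool) (t : ℝ) :
    cB A s (-s) r (1 - t) = conj (cB A s (-s) r t) := by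
  have h := cB_rev A s (-s) r t
  rwa [neg_neg] at h

theorem continuous_hB : Continuous hB := by
  unfold hB
  fun_prop

theorem continuous_qB (A : ℝ) (r : Bool) : Continuous (qB A r) := by
  unfold qB
  cases r
  · simp only [Bool.false_eq_true, if_false]
    exact Real.continuous_sqrt.comp (by have := continuous_hB; fun_prop)
  · simp only [if_true]
    exact Real.continuous_sqrt.comp (by have := continuous_hB; fun_prop)

theorem continuous_cB (A s s' : ℝ) (r : Bool) : Continuous (cB A s s' r) := by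
  have h1 := continuous_hB
  have h2 := continuous_qB A r
  unfold cB reB imB
  fun_prop

/-- Lipschitz constant of the bump -/
theorem abs_hB_sub_le (t u : ℝ) : |hB t - hB u| ≤ 2 * Real.pi * |t - u| := by
  unfold hB
  have h1 : Real.sin (Real.pi * t) ^ 2 - Real.sin (Real.pi * u) ^ 2 =
      (Real.sin (Real.pi * t) + Real.sin (Real.pi * u)) *
        (Real.sin (Real.pi * t) - Real.sin (Real.pi * u)) := by ring
  rw [h1, abs_mul]
  have h2 : |Real.sin (Real.pi * t) + Real.sin (Real.pi * u)| ≤ 2 :=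
    (abs_add_le _ _).trans (by
      have := Real.abs_sin_le_one (Real.pi * t)
      have := Real.abs_sin_le_one (Real.pi * u)
      linarith)
  have h3 : |Real.sin (Real.pi * t) - Real.sin (Real.pi * u)| ≤ Real.pi * |t - u| := by
    have h4 := Real.abs_sin_sub_sin_le (Real.pi * t) (Real.pi * u)
    rwa [← mul_sub, abs_mul, abs_of_pos Real.pi_pos] at h4
  calc _ ≤ 2 * (Real.pi * |t - u|) := mul_le_mul h2 h3 (abs_nonneg _) (by norm_num)
    _ = _ := by ring

theorem sqrt_lip {η x y : ℝ} (hη : 0 < η) (hx : η ≤ x) (hy : 0 ≤ y) :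
    |Real.sqrt x - Real.sqrt y| ≤ |x - y| / Real.sqrt η := by
  have hx0 : 0 ≤ x := by linarith
  have h1 : (Real.sqrt x - Real.sqrt y) * (Real.sqrt x + Real.sqrt y) = x - y := by
    have h2 := Real.mul_self_sqrt hx0
    have h3 := Real.mul_self_sqrt hy
    ring_nf
    nlinarith
  have h4 : Real.sqrt η ≤ Real.sqrt x + Real.sqrt y :=
    (Real.sqrt_le_sqrt hx).trans (by linarith [Real.sqrt_nonneg y])
  have h5 : 0 < Real.sqrt η := Real.sqrt_pos.2 hη
  rw [le_div_iff₀ h5, ← h1, abs_mul]
  exact mul_le_mul_of_nonneg_left (h4.trans (le_abs_self _)) (abs_nonneg _)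

theorem qB_lip {A η : ℝ} (hη : 0 < η) (hη1 : η ≤ 1) (h0 : 0 ≤ A) (h1 : A ≤ 1 - η) (r : Bool)
    (t u : ℝ) : |qB A r t - qB A r u| ≤ 8 * Real.pi / Real.sqrt η * |t - u| := by
  have ht := hB_nonneg t
  have hu := hB_nonneg u
  have hl := abs_hB_sub_le t u
  have h5 : 0 < Real.sqrt η := Real.sqrt_pos.2 hη
  unfold qB
  cases r
  · simp only [Bool.false_eq_true, if_false]
    have e1 : η ≤ (1 + A) * (1 - A + (1 + A) * hB t) := by
      have : 0 ≤ A * (1 - A) := mul_nonneg h0 (by linarith)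
      have := mul_nonneg (mul_nonneg (show (0 : ℝ) ≤ 1 + A by linarith)
        (show (0 : ℝ) ≤ 1 + A by linarith)) ht
      nlinarith
    have e2 : 0 ≤ (1 + A) * (1 - A + (1 + A) * hB u) :=
      mul_nonneg (by linarith) (by
        have := mul_nonneg (show (0 : ℝ) ≤ 1 + A by linarith) hu
        linarith)
    refine (sqrt_lip hη e1 e2).trans ?_
    have e3 : (1 + A) * (1 - A + (1 + A) * hB t) - (1 + A) * (1 - A + (1 + A) * hB u) =
        (1 + A) ^ 2 * (hB t - hB u) := by ring
    rw [e3, abs_mul, abs_of_nonneg (sq_nonneg _), div_mul_eq_mul_div]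
    refine div_le_div_of_nonneg_right ?_ h5.le
    have e4 : (1 + A) ^ 2 ≤ 4 := by nlinarith
    calc (1 + A) ^ 2 * |hB t - hB u| ≤ 4 * (2 * Real.pi * |t - u|) :=
          mul_le_mul e4 hl (abs_nonneg _) (by norm_num)
      _ = _ := by ring
  · simp only [if_true]
    have e1 : η ≤ (1 - A) * (1 + A + (1 - A) * hB t) := by
      have : 0 ≤ A * (1 - A) := mul_nonneg h0 (by linarith)
      have := mul_nonneg (mul_nonneg (show (0 : ℝ) ≤ 1 - A by linarith)
        (show (0 : ℝ) ≤ 1 - A by linarith)) ht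
      nlinarith
    have e2 : 0 ≤ (1 - A) * (1 + A + (1 - A) * hB u) :=
      mul_nonneg (by linarith) (by
        have := mul_nonneg (show (0 : ℝ) ≤ 1 - A by linarith) hu
        linarith)
    refine (sqrt_lip hη e1 e2).trans ?_
    have e3 : (1 - A) * (1 + A + (1 - A) * hB t) - (1 - A) * (1 + A + (1 - A) * hB u) =
        (1 - A) ^ 2 * (hB t - hB u) := by ring
    rw [e3, abs_mul, abs_of_nonneg (sq_nonneg _), div_mul_eq_mul_div]
    refine div_le_div_of_nonneg_right ?_ h5.le
    have e4 : (1 - A) ^ 2 ≤ 4 := by nlinarith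
    calc (1 - A) ^ 2 * |hB t - hB u| ≤ 4 * (2 * Real.pi * |t - u|) :=
          mul_le_mul e4 hl (abs_nonneg _) (by norm_num)
      _ = _ := by ring

theorem abs_qB_le {A : ℝ} (h0 : 0 ≤ A) (h1 : A ≤ 1) (r : Bool) (t : ℝ) : |qB A r t| ≤ 2 := by
  have ht := hB_nonneg t
  have ht1 := hB_le_one t
  refine abs_le_of_sq_le_sq ?_ (by norm_num)
  rw [qB_sq h0 h1 r t]
  split_ifs
  · have := mul_nonneg (show (0 : ℝ) ≤ 1 - A by linarith) (show (0 : ℝ) ≤ 1 - hB t by linarith)
    nlinarith
  · have := mul_nonneg (show (0 : ℝ) ≤ 1 + A by linarith) (show (0 : ℝ) ≤ 1 - hB t by linarith)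
    nlinarith

/-- the block function is Lipschitz with constant `32 π / √η` for `A ≤ 1 - η` -/
theorem cB_lip {A η s s' : ℝ} (hη : 0 < η) (hη1 : η ≤ 1) (h0 : 0 ≤ A) (h1 : A ≤ 1 - η)
    (hs : s = 1 ∨ s = -1) (hs' : s' = 1 ∨ s' = -1) (r : Bool) (t u : ℝ) :
    ‖cB A s s' r t - cB A s s' r u‖ ≤ 32 * Real.pi / Real.sqrt η * |t - u| := by
  have h5 : 0 < Real.sqrt η := Real.sqrt_pos.2 hη
  have h6 : Real.sqrt η ≤ 1 := Real.sqrt_le_one.2 hη1
  have hd : |(s - s') / 2| ≤ 1 := by
    rcases hs with h | h <;> rcases hs' with h' | h' <;> rw [h, h'] <;> norm_num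
  have hd2 : |((s - s') / 2) ^ 2| ≤ 1 := by
    rw [abs_pow]
    exact pow_le_one₀ (abs_nonneg _) hd
  have ha : |aB A r| ≤ 2 := by
    unfold aB
    split_ifs
    · rw [abs_le]; constructor <;> linarith
    · rw [abs_neg, abs_le]; constructor <;> linarith
  have hpi := Real.pi_pos
  have hre : |reB A s s' r t - reB A s s' r u| ≤ 4 * Real.pi * |t - u| := by
    unfold reB
    have e1 : A + ((s - s') / 2) ^ 2 * aB A r * hB t - (A + ((s - s') / 2) ^ 2 * aB A r * hB u) =
        ((s - s') / 2) ^ 2 * aB A r * (hB t - hB u) := by ring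
    rw [e1, abs_mul, abs_mul]
    calc |((s - s') / 2) ^ 2| * |aB A r| * |hB t - hB u| ≤ 1 * 2 * (2 * Real.pi * |t - u|) :=
          mul_le_mul (mul_le_mul hd2 ha (abs_nonneg _) zero_le_one) (abs_hB_sub_le t u)
            (abs_nonneg _) (by norm_num)
      _ = _ := by ring
  have hcos : |Real.cos (Real.pi * t) - Real.cos (Real.pi * u)| ≤ Real.pi * |t - u| := by
    have h4 := Real.abs_cos_sub_cos_le (Real.pi * t) (Real.pi * u)
    rwa [← mul_sub, abs_mul, abs_of_pos Real.pi_pos] at h4
  have him : |imB A s s' r t - imB A s s' r u| ≤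
      2 * Real.pi * |t - u| + 8 * Real.pi / Real.sqrt η * |t - u| := by
    unfold imB
    have e1 : (s + s') / 2 * Real.sqrt (1 - A ^ 2) +
          (s - s') / 2 * (Real.cos (Real.pi * t) * qB A r t) -
        ((s + s') / 2 * Real.sqrt (1 - A ^ 2) +
          (s - s') / 2 * (Real.cos (Real.pi * u) * qB A r u)) =
        (s - s') / 2 * ((Real.cos (Real.pi * t) - Real.cos (Real.pi * u)) * qB A r t +
          Real.cos (Real.pi * u) * (qB A r t - qB A r u)) := by ring
    rw [e1, abs_mul]
    have e2 : |(Real.cos (Real.pi * t) - Real.cos (Real.pi * u)) * qB A r t +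
        Real.cos (Real.pi * u) * (qB A r t - qB A r u)| ≤
        Real.pi * |t - u| * 2 + 1 * (8 * Real.pi / Real.sqrt η * |t - u|) := by
      refine (abs_add_le _ _).trans (add_le_add ?_ ?_)
      · rw [abs_mul]
        exact mul_le_mul hcos (abs_qB_le h0 (by linarith) r t) (abs_nonneg _) (by positivity)
      · rw [abs_mul]
        exact mul_le_mul (Real.abs_cos_le_one _) (qB_lip hη hη1 h0 h1 r t u) (abs_nonneg _)
          zero_le_one
    calc |(s - s') / 2| * _ ≤ 1 * _ := mul_le_mul hd e2 (abs_nonneg _) zero_le_one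
      _ = _ := by ring
  have h7 : cB A s s' r t - cB A s s' r u =
      ((reB A s s' r t - reB A s s' r u : ℝ) : ℂ) +
        ((imB A s s' r t - imB A s s' r u : ℝ) : ℂ) * Complex.I := by
    unfold cB
    push_cast
    ring
  rw [h7]
  refine (norm_add_le _ _).trans ?_
  rw [norm_mul, Complex.norm_I, mul_one, Complex.norm_real, Complex.norm_real, Real.norm_eq_abs,
    Real.norm_eq_abs]
  have h8 : Real.pi * |t - u| ≤ Real.pi * |t - u| / Real.sqrt η := by
    rw [le_div_iff₀ h5]
    have : 0 ≤ Real.pi * |t - u| := by positivity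
    nlinarith
  have h9 : 32 * Real.pi / Real.sqrt η * |t - u| = 32 * (Real.pi * |t - u| / Real.sqrt η) := by
    ring
  have h10 : 8 * Real.pi / Real.sqrt η * |t - u| = 8 * (Real.pi * |t - u| / Real.sqrt η) := by
    ring
  rw [h9]
  rw [h10] at him
  have h11 : 0 ≤ Real.pi * |t - u| / Real.sqrt η := by positivity
  linarith

end Vale.Agent.P110T
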