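import Vale.Agent.Lib.P110T.TLoc
import Vale.Agent.Lib.P110T.Blk

/-!
# P110T: the hypotheses `COk` for the real block function `cB`
-/

namespace Vale.Agent.P110T

open MeasureTheory Vale.Agent.P110F
open scoped ComplexConjugate

theorem cok_cB {d : TD} {θ : ℝ} (hθ : 0 < θ) (hθ1 : θ ≤ 1) (hom : ∀ i, ‖d.om i‖ = 1)
    (hA0 : ∀ i, 0 ≤ d.A i) (hA1 : ∀ i, d.A i ≤ 1) (hs : ∀ i, d.s i = 1 ∨ d.s i = -1)
    (hbad : ∀ i, d.bad i ↔ d.A i ≤ 1 - θ) : COk cB d (32 * Real.pi / Real.sqrt θ) θ where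
  L_nonneg := by positivity
  om_norm := hom
  A_nonneg := hA0
  A_le := hA1
  s_le i := by
    rcases hs i with h | h <;> rw [h] <;> simp
  c_norm i _ t _ _ := norm_cB (hA0 i) (hA1 i) (hs i) (hs (i + 1)) (d.r i) t
  c_zero i _ := by
    rw [cB_zero, mul_comm]
  c_one i _ := by
    rw [cB_one, mul_comm]
  c_lip i hb t t' _ _ _ _ := cB_lip hθ hθ1 (hA0 i) ((hbad i).1 hb) (hs i) (hs (i + 1)) (d.r i) t t'
  good i hb := by
    have h1 : ¬ d.A i ≤ 1 - θ := fun h => hb ((hbad i).2 h)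
    linarith

end Vale.Agent.P110T
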