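import Vale.Agent.Lib.P110T.CarrierA

/-!
P110T: the carrier lemma. A locally pure function on a half circle has a carrier: integer
frequencies and unimodular phases at the block centres, both slowly varying.
-/

namespace Vale.Agent.P110T

open scoped ComplexConjugate
open Vale.Agent.P110F

lemma unit_sub {u v : ℂ} (hu : 0 < ‖u‖) (hv : 0 < ‖v‖) :
    ‖u / ‖u‖ - v / ‖v‖‖ ≤ 2 * ‖u - v‖ / ‖u‖ := by
  have hu' : (‖u‖ : ℂ) ≠ 0 := by exact_mod_cast hu.ne'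
  have hv' : (‖v‖ : ℂ) ≠ 0 := by exact_mod_cast hv.ne'
  have h1 : u / ‖u‖ - v / ‖v‖ = (u - v) / ‖u‖ + v * ((‖v‖ - ‖u‖ : ℝ) : ℂ) / (‖u‖ * ‖v‖) := by
    push_cast
    field_simp
    ring
  rw [h1]
  refine (norm_add_le _ _).trans ?_
  have h2 : ‖(u - v) / (‖u‖ : ℂ)‖ = ‖u - v‖ / ‖u‖ := by
    rw [norm_div, Complex.norm_real, norm_norm]
  have h3 : ‖v * ((‖v‖ - ‖u‖ : ℝ) : ℂ) / ((‖u‖ : ℂ) * ‖v‖)‖ ≤ ‖u - v‖ / ‖u‖ := by
    rw [norm_div, norm_mul, norm_mul, Complex.norm_real, Complex.norm_real, Complex.norm_real,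
      norm_norm, norm_norm, Real.norm_eq_abs]
    have h4 : |‖v‖ - ‖u‖| ≤ ‖u - v‖ := by
      rw [norm_sub_rev]; exact abs_norm_sub_norm_le v u
    rw [div_le_div_iff₀ (by positivity) hu]
    have := mul_le_mul_of_nonneg_left h4 (show 0 ≤ ‖v‖ * ‖u‖ by positivity)
    nlinarith
  rw [h2]
  have h5 : 2 * ‖u - v‖ / ‖u‖ = ‖u - v‖ / ‖u‖ + ‖u - v‖ / ‖u‖ := by ring
  rw [h5]
  linarith

lemma e1_half : e1 (1 / 2) = -1 := by
  unfold e1
  rw [← Complex.exp_pi_mul_I]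
  congr 1
  push_cast
  ring

lemma freq_close {u : ℂ} {α β R c : ℝ} (hR : 0 < R) (hc : c < 2 * ‖u‖)
    (h : ∀ t : ℝ, |t| ≤ R → ‖u * e1 (α * t) - u * e1 (β * t)‖ ≤ c) :
    |α - β| < 1 / (2 * R) := by
  by_contra hcon
  push Not at hcon
  have hpos : 0 < |α - β| := lt_of_lt_of_le (by positivity) hcon
  have hne : α - β ≠ 0 := abs_pos.1 hpos
  have ht : |1 / (2 * (α - β))| ≤ R := by
    rw [abs_div, abs_one, abs_mul, abs_two, div_le_iff₀ (by positivity)]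
    rw [div_le_iff₀ (by positivity)] at hcon
    linarith
  have h1 := h _ ht
  have h2 : α * (1 / (2 * (α - β))) = 1 / 2 + β * (1 / (2 * (α - β))) := by
    field_simp
    ring
  rw [h2, e1_add, e1_half] at h1
  have h3 : u * (-1 * e1 (β * (1 / (2 * (α - β))))) - u * e1 (β * (1 / (2 * (α - β)))) =
      (-2 : ℂ) * (u * e1 (β * (1 / (2 * (α - β))))) := by ring
  rw [h3, norm_mul, norm_mul, norm_e1, norm_neg, Complex.norm_ofNat] at h1
  linarith

lemma pure_floor {g : ℝ → ℂ} {q : ℝ → ℝ} {w η' : ℝ} (hg1 : ∀ x, ‖g x‖ ≤ 1)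
    (hq3 : ∀ x₀ x : ℝ, |x - x₀| ≤ w → ‖g x - g x₀ * e1 (q x₀ * (x - x₀))‖ ≤ η') :
    ∀ x₀ x : ℝ, |x - x₀| ≤ w →
      ‖g x - g x₀ * e1 ((⌊q x₀⌋ : ℤ) * (x - x₀))‖ ≤ η' + 2 * Real.pi * |x - x₀| := by
  intro u x hx
  have hpi := Real.pi_pos
  have h1 := hq3 u x hx
  have hKq : |q u - (⌊q u⌋ : ℤ)| ≤ 1 := by
    have h1 := Int.floor_le (q u)
    have h2 := Int.lt_floor_add_one (q u)
    rw [abs_le]; constructor <;> linarith
  have h2 : g x - g u * e1 ((⌊q u⌋ : ℤ) * (x - u)) =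
      (g x - g u * e1 (q u * (x - u))) +
      g u * (e1 (q u * (x - u)) - e1 ((⌊q u⌋ : ℤ) * (x - u))) := by ring
  rw [h2]
  refine (norm_add_le _ _).trans (add_le_add h1 ?_)
  rw [norm_mul]
  have h3 : ‖e1 (q u * (x - u)) - e1 ((⌊q u⌋ : ℤ) * (x - u))‖ ≤ 2 * Real.pi * |x - u| := by
    refine (carrier_lip _ _).trans ?_
    rw [← sub_mul, abs_mul]
    have := mul_le_mul_of_nonneg_right hKq (abs_nonneg (x - u))
    rw [one_mul] at this
    exact mul_le_mul_of_nonneg_left this (by positivity)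
  calc ‖g u‖ * ‖e1 (q u * (x - u)) - e1 ((⌊q u⌋ : ℤ) * (x - u))‖
      ≤ 1 * (2 * Real.pi * |x - u|) := mul_le_mul (hg1 _) h3 (norm_nonneg _) zero_le_one
    _ = _ := one_mul _

lemma short_freq {g : ℝ → ℂ} {q : ℝ → ℝ} {N K η' η₁ : ℝ} (hN : 0 < N) (hK : 0 < K)
    (hη₁ : 0 < η₁) (hη' : η' ≤ η₁ / 4)
    (hq : ∀ x₀ x : ℝ, |x - x₀| ≤ K / N → ‖g x - g x₀ * e1 (q x₀ * (x - x₀))‖ ≤ η')
    (u v : ℝ) (huv : |v - u| ≤ K / (2 * N)) (hv : η₁ / 2 ≤ ‖g v‖) : |q u - q v| < N / K := by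
  have hKN2 : K / (2 * N) = (K / N) / 2 := by field_simp
  have hKN0 : 0 < K / N := by positivity
  have hfc2 : 1 / (2 * (K / (2 * N))) = N / K := by field_simp
  rw [← hfc2]
  refine freq_close (u := g v) (c := 3 * η') (by positivity) (by linarith) ?_
  intro t ht
  have ht' : |t| ≤ K / N := by linarith
  have e1' := hq u (v + t) (by
    have : v + t - u = (v - u) + t := by ring
    rw [this]
    refine (abs_add_le _ _).trans ?_
    linarith)
  have e2' := hq v (v + t) (by rw [add_sub_cancel_left]; exact ht')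
  have e3' := hq u v (by linarith)
  rw [add_sub_cancel_left] at e2'
  have hsplit : g v * e1 (q u * t) - g v * e1 (q v * t) =
      (g v - g u * e1 (q u * (v - u))) * e1 (q u * t) -
      (g (v + t) - g u * e1 (q u * (v + t - u))) + (g (v + t) - g v * e1 (q v * t)) := by
    have : e1 (q u * (v + t - u)) = e1 (q u * (v - u)) * e1 (q u * t) := by
      rw [← e1_add]; congr 1; ring
    rw [this]; ring
  rw [hsplit]
  refine (norm_add_le _ _).trans ?_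
  refine (add_le_add (norm_sub_le _ _) le_rfl).trans ?_
  rw [norm_mul, norm_e1, mul_one]
  linarith

lemma short_phase {τ η' η₁ : ℝ} (hτ : 0 < τ) (hη₁ : 0 < η₁) (hη' : η' ≤ τ * η₁ / 8)
    {gu gv e : ℂ} (he : ‖e‖ = 1) (hA : ‖gv - gu * e‖ ≤ 2 * η') (hgu : η₁ / 2 ≤ ‖gu‖)
    (hgv : η₁ / 2 ≤ ‖gv‖) : ‖gv / ‖gv‖ - gu / ‖gu‖ * e‖ ≤ τ := by
  have hu0 : 0 < ‖gv‖ := by linarith
  have hv0 : 0 < ‖gu‖ := by linarith
  have hvn : ‖gu * e‖ = ‖gu‖ := by rw [norm_mul, he, mul_one]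
  have h1 := unit_sub hu0 (v := gu * e) (by rw [hvn]; exact hv0)
  rw [hvn] at h1
  have h2 : gu / ‖gu‖ * e = gu * e / ‖gu‖ := by ring
  rw [h2]
  refine h1.trans ?_
  rw [div_le_iff₀ hu0]
  have : τ * (η₁ / 2) ≤ τ * ‖gv‖ := mul_le_mul_of_nonneg_left hgv hτ.le
  linarith

lemma long_case {τ κ a K N M J : ℝ} (hτ : 0 < τ) (hκ : 0 < κ) (hK : 0 < K)
    (hKa : 4 * κ * (|1 - 2 * a| + 1) / τ ≤ K) (hKp : 8 * κ / τ ≤ K) (hN1 : 1 ≤ N)
    (hNτ : 2 ≤ τ * N) (hM : 0 < M) (hJ : 0 < J) (hNM : N ≤ 2 * M * κ)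
    (hlong : K / (2 * N) < J / (2 * M)) :
    ((1 - a) * N - (a * N - 1)) + J ≤ τ * N * J ∧ Real.pi ≤ τ * J := by
  have hpi4 := Real.pi_le_four
  have hN0 : 0 < N := by linarith
  have hJK : K / (2 * κ) < J := by
    rw [div_lt_div_iff₀ (by positivity) (by positivity)] at hlong
    rw [div_lt_iff₀ (by positivity)]
    have h1 : K * (2 * M) < J * (2 * κ) * (2 * M) := by
      refine hlong.trans_le ?_
      have : J * (2 * N) ≤ J * (2 * (2 * M * κ)) :=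
        mul_le_mul_of_nonneg_left (by linarith) hJ.le
      linarith
    exact lt_of_mul_lt_mul_right h1 (by positivity)
  have hK1 : 2 * (|1 - 2 * a| + 1) ≤ τ * J := by
    have h1 : 4 * κ * (|1 - 2 * a| + 1) / τ / (2 * κ) ≤ K / (2 * κ) :=
      div_le_div_of_nonneg_right hKa (by positivity)
    have h2 : 4 * κ * (|1 - 2 * a| + 1) / τ / (2 * κ) = 2 * (|1 - 2 * a| + 1) / τ := by
      field_simp
      ring
    have h3 : 2 * (|1 - 2 * a| + 1) / τ < J := by linarith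
    rw [div_lt_iff₀ hτ] at h3
    linarith
  have hK2 : 4 ≤ τ * J := by
    have h1 : 8 * κ / τ / (2 * κ) ≤ K / (2 * κ) :=
      div_le_div_of_nonneg_right hKp (by positivity)
    have h2 : 8 * κ / τ / (2 * κ) = 4 / τ := by
      field_simp
      ring
    have h3 : 4 / τ < J := by linarith
    rw [div_lt_iff₀ hτ] at h3
    linarith
  refine ⟨?_, by linarith⟩
  have hab : 1 - 2 * a ≤ |1 - 2 * a| := le_abs_self _
  have h1 : (1 - 2 * a) * N + 1 ≤ (|1 - 2 * a| + 1) * N := by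
    have := mul_le_mul_of_nonneg_right hab hN0.le
    linarith
  have h2 : (|1 - 2 * a| + 1) * N ≤ τ * J / 2 * N :=
    mul_le_mul_of_nonneg_right (by linarith) hN0.le
  have h3 : 1 * J ≤ τ * N / 2 * J := mul_le_mul_of_nonneg_right (by linarith) hJ.le
  have h4 : τ * J / 2 * N + τ * N / 2 * J = τ * N * J := by ring
  linarith

/-- The alternative for two consecutive good nodes. -/
lemma gap_alt {τ κ a η₁ η' K : ℝ} {N M : ℕ} (hτ : 0 < τ) (hκ : 0 < κ) (hη₁0 : 0 < η₁)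
    (hη'0 : 0 < η') (hη'2 : η' ≤ η₁ / 4) (hη'3 : η' ≤ τ * η₁ / 8) (hK0 : 0 < K)
    (hKτ : 2 / τ ≤ K) (hKa : 4 * κ * (|1 - 2 * a| + 1) / τ ≤ K) (hKp : 8 * κ / τ ≤ K)
    (hN1 : (1 : ℝ) ≤ N) (hNK : K < N) (hNτ' : 2 ≤ τ * N) (hNη : 4 * K / η' ≤ N) (hM : 0 < M)
    (hNM : (N : ℝ) ≤ 2 * M * κ) {g : ℝ → ℂ} {q : ℝ → ℝ}
    (hq3 : ∀ x₀ x : ℝ, |x - x₀| ≤ K / N → ‖g x - g x₀ * e1 (q x₀ * (x - x₀))‖ ≤ η')
    (hpure2 : ∀ x₀ x : ℝ, |x - x₀| ≤ K / N →
      ‖g x - g x₀ * e1 ((⌊q x₀⌋ : ℤ) * (x - x₀))‖ ≤ η' + 2 * Real.pi * |x - x₀|)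
    (hslow : ∀ x₀ x : ℝ, |x - x₀| ≤ K / N → |‖g x‖ - ‖g x₀‖| ≤ η')
    (i J : ℕ) (hJ : 0 < J) (hiJ : i + J ≤ M)
    (hSi : i = 0 ∨ i = M ∨ η₁ ≤ ‖g ((i : ℝ) / (2 * M))‖)
    (hSj : i + J = 0 ∨ i + J = M ∨ η₁ ≤ ‖g (((i + J : ℕ) : ℝ) / (2 * M))‖) :
    (|((⌊q (((i + J : ℕ) : ℝ) / (2 * M))⌋ : ℤ) : ℝ) - (⌊q ((i : ℝ) / (2 * M))⌋ : ℤ)| ≤ τ * N ∧
      ‖(if g (((i + J : ℕ) : ℝ) / (2 * M)) = 0 then 1 else
        g (((i + J : ℕ) : ℝ) / (2 * M)) / ‖g (((i + J : ℕ) : ℝ) / (2 * M))‖) -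
        (if g ((i : ℝ) / (2 * M)) = 0 then 1 else
          g ((i : ℝ) / (2 * M)) / ‖g ((i : ℝ) / (2 * M))‖) *
        e1 ((⌊q ((i : ℝ) / (2 * M))⌋ : ℤ) * (1 / (2 * M)) * J)‖ ≤ τ) ∨
      (((1 - a) * N - (a * N - 1)) + J ≤ τ * N * J ∧ Real.pi ≤ τ * J) := by
  have hpi := Real.pi_pos
  have hpi4 := Real.pi_le_four
  have hN0 : (0 : ℝ) < N := by linarith
  have hM0 : (0 : ℝ) < M := by exact_mod_cast hM
  have hJ0 : (0 : ℝ) < J := by exact_mod_cast hJ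
  by_cases hshort : (J : ℝ) / (2 * M) ≤ K / (2 * N)
  · left
    obtain ⟨u, hu⟩ : ∃ u : ℝ, u = (i : ℝ) / (2 * M) := ⟨_, rfl⟩
    obtain ⟨v, hv⟩ : ∃ v : ℝ, v = ((i + J : ℕ) : ℝ) / (2 * M) := ⟨_, rfl⟩
    rw [← hu] at hSi
    rw [← hv] at hSj
    rw [← hu, ← hv]
    have hyd : v - u = (J : ℝ) / (2 * M) := by
      rw [hu, hv]; push_cast; ring
    have hyd0 : 0 ≤ (J : ℝ) / (2 * M) := by positivity
    have hKN2 : K / (2 * N) = (K / N) / 2 := by field_simp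
    have hKN0 : 0 < K / (N : ℝ) := by positivity
    have habs : |v - u| ≤ K / (2 * N) := by
      rw [hyd, abs_of_nonneg hyd0]; exact hshort
    have habs' : |v - u| ≤ K / N := by linarith
    have hsl := hslow _ _ habs'
    have hact : η₁ ≤ ‖g u‖ ∨ η₁ ≤ ‖g v‖ := by
      rcases hSi with h | h | h
      · rcases hSj with h' | h' | h'
        · omega
        · exfalso
          subst h
          have hJM : J = M := by omega
          rw [hJM] at hshort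
          have : (M : ℝ) / (2 * M) = 1 / 2 := by field_simp
          rw [this, div_le_div_iff₀ (by norm_num) (by positivity)] at hshort
          linarith
        · exact Or.inr h'
      · omega
      · exact Or.inl h
    rw [abs_le] at hsl
    have hgi : η₁ / 2 ≤ ‖g u‖ := by
      rcases hact with h | h <;> linarith
    have hgj : η₁ / 2 ≤ ‖g v‖ := by
      rcases hact with h | h <;> linarith
    constructor
    · have hfc := short_freq hN0 hK0 hη₁0 hη'2 hq3 u v habs hgj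
      have hNK2 : (N : ℝ) / K ≤ τ * N / 2 := by
        rw [div_le_div_iff₀ hK0 (by norm_num)]
        rw [div_le_iff₀ hτ] at hKτ
        have := mul_le_mul_of_nonneg_left hKτ hN0.le
        linarith
      have hb : |((⌊q v⌋ : ℤ) : ℝ) - (⌊q u⌋ : ℤ)| ≤ |q u - q v| + 1 := by
        have h1 := Int.floor_le (q u)
        have h2 := Int.lt_floor_add_one (q u)
        have h3 := Int.floor_le (q v)
        have h4 := Int.lt_floor_add_one (q v)
        have h5 := neg_abs_le (q u - q v)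
        have h6 := le_abs_self (q u - q v)
        rw [abs_le]; constructor <;> linarith
      linarith
    · have hA : ‖g v - g u * e1 ((⌊q u⌋ : ℤ) * (v - u))‖ ≤ 2 * η' := by
        refine (hpure2 u _ habs').trans ?_
        have h1 : 2 * Real.pi * |v - u| ≤ 2 * Real.pi * (K / (2 * N)) :=
          mul_le_mul_of_nonneg_left habs (by positivity)
        have h2 : 2 * Real.pi * (K / (2 * N)) = Real.pi * K / N := by field_simp
        have h3 : Real.pi * K / N ≤ η' := by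
          rw [div_le_iff₀ hN0]
          rw [div_le_iff₀ hη'0] at hNη
          have := mul_le_mul_of_nonneg_right hpi4 hK0.le
          linarith
        linarith
      have hune : g v ≠ 0 := norm_pos_iff.1 (by linarith)
      have hvne : g u ≠ 0 := norm_pos_iff.1 (by linarith)
      rw [if_neg hune, if_neg hvne]
      have : ((⌊q u⌋ : ℤ) : ℝ) * (1 / (2 * M)) * J = (⌊q u⌋ : ℤ) * (v - u) := by
        rw [hyd]; ring
      rw [this]
      exact short_phase hτ hη₁0 hη'3 (norm_e1 _) hA hgi hgj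
  · right
    push Not at hshort
    exact long_case hτ hκ hK0 hKa hKp hN1 hNτ' hM0 hJ0 hNM hshort

theorem carrier {τ κ a : ℝ} (hτ : 0 < τ) (hκ : 0 < κ) :
    ∃ η' K : ℝ, 0 < η' ∧ 0 < K ∧ ∃ N₁ : ℕ, ∀ N : ℕ, N₁ ≤ N → ∀ M : ℕ, 0 < M →
    (N : ℝ) ≤ 2 * M * κ → ∀ g : ℝ → ℂ, (∀ x, ‖g x‖ ≤ 1) → (g 0).im = 0 → (g (1 / 2)).im = 0 →
    (∀ x₀ : ℝ, ∃ κ₀ : ℝ, a * N ≤ κ₀ ∧ κ₀ ≤ (1 - a) * N ∧ ∀ x : ℝ, |x - x₀| ≤ K / N →
      ‖g x - g x₀ * e1 (κ₀ * (x - x₀))‖ ≤ η') →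
    ∃ (k : ℕ → ℤ) (ω : ℕ → ℂ),
      (∀ i ≤ M, a * N - 1 ≤ (k i : ℝ) ∧ (k i : ℝ) ≤ (1 - a) * N) ∧
      (∀ i ≤ M, ‖ω i‖ = 1) ∧ (ω 0).im = 0 ∧ (ω M).im = 0 ∧
      (∀ i ≤ M, ∀ x : ℝ, |x - i / (2 * M)| ≤ 1 / (2 * M) →
        ‖g x - ‖g (i / (2 * M))‖ * ω i * e1 (k i * (x - i / (2 * M)))‖ ≤ τ) ∧
      (∀ i < M, |‖g ((i + 1) / (2 * M))‖ - ‖g (i / (2 * M))‖| ≤ τ) ∧
      (∀ i < M, |(k (i + 1) : ℝ) - k i| ≤ τ * N) ∧
      (∀ i < M, ‖ω (i + 1) - ω i * e1 (k i / (2 * M))‖ ≤ τ) := by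
  classical
  have hpi := Real.pi_pos
  have hpi4 := Real.pi_le_four
  set η₁ : ℝ := τ / 4 with hη₁
  have hη₁0 : 0 < η₁ := by positivity
  set η' : ℝ := min (τ / 4) (min (η₁ / 4) (τ * η₁ / 8)) with hη'
  have hη'0 : 0 < η' := by positivity
  have hη'1 : η' ≤ τ / 4 := min_le_left _ _
  have hη'2 : η' ≤ η₁ / 4 := (min_le_right _ _).trans (min_le_left _ _)
  have hη'3 : η' ≤ τ * η₁ / 8 := (min_le_right _ _).trans (min_le_right _ _)
  set K : ℝ := κ + 2 / τ + 4 * κ * (|1 - 2 * a| + 1) / τ + 8 * κ / τ with hK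
  have hK0 : 0 < K := by positivity
  have hKκ : κ ≤ K := by
    have h1 : 0 ≤ 2 / τ := by positivity
    have h2 : 0 ≤ 4 * κ * (|1 - 2 * a| + 1) / τ := by positivity
    have h3 : 0 ≤ 8 * κ / τ := by positivity
    rw [hK]; linarith
  have hKτ : 2 / τ ≤ K := by
    have h2 : 0 ≤ 4 * κ * (|1 - 2 * a| + 1) / τ := by positivity
    have h3 : 0 ≤ 8 * κ / τ := by positivity
    rw [hK]; linarith
  have hKa : 4 * κ * (|1 - 2 * a| + 1) / τ ≤ K := by
    have h1 : 0 ≤ 2 / τ := by positivity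
    have h3 : 0 ≤ 8 * κ / τ := by positivity
    rw [hK]; linarith
  have hKp : 8 * κ / τ ≤ K := by
    have h1 : 0 ≤ 2 / τ := by positivity
    have h2 : 0 ≤ 4 * κ * (|1 - 2 * a| + 1) / τ := by positivity
    rw [hK]; linarith
  obtain ⟨N₁, hN₁⟩ := exists_nat_gt (1 + K + 2 / τ + 4 * K / η' + 32 * κ / τ)
  refine ⟨η', K, hη'0, hK0, N₁, ?_⟩
  intro N hN M hM hNM g hg1 hg0 hgh hpure
  have hN' : 1 + K + 2 / τ + 4 * K / η' + 32 * κ / τ < (N : ℝ) :=
    hN₁.trans_le (by exact_mod_cast hN)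
  have p1 : 0 < 2 / τ := by positivity
  have p2 : 0 < 4 * K / η' := by positivity
  have p3 : 0 < 32 * κ / τ := by positivity
  have hN0 : (0 : ℝ) < N := by linarith
  have hNK : K < N := by linarith
  have hNτ : 2 / τ ≤ N := by linarith
  have hNη : 4 * K / η' ≤ N := by linarith
  have hNκ : 32 * κ / τ ≤ N := by linarith
  have hNτ' : 2 ≤ τ * N := by
    rw [div_le_iff₀ hτ] at hNτ; linarith
  have hM0 : (0 : ℝ) < M := by exact_mod_cast hM
  choose q hq1 hq2 hq3 using hpure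
  set y : ℕ → ℝ := fun i => (i : ℝ) / (2 * M) with hy
  set S : ℕ → Prop := fun i => i = 0 ∨ i = M ∨ η₁ ≤ ‖g (y i)‖ with hS
  set Kf : ℕ → ℤ := fun i => ⌊q (y i)⌋ with hKf
  set W : ℕ → ℂ := fun i => if g (y i) = 0 then 1 else g (y i) / ‖g (y i)‖ with hW
  have hW1 : ∀ i, ‖W i‖ = 1 := by
    intro i
    by_cases h : g (y i) = 0
    · simp [hW, h]
    · have : ‖g (y i)‖ ≠ 0 := norm_ne_zero_iff.2 h
      simp only [hW, h, if_false]
      rw [norm_div, Complex.norm_real, norm_norm, div_self this]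
  have hWg : ∀ i, g (y i) = ‖g (y i)‖ * W i := by
    intro i
    by_cases h : g (y i) = 0
    · simp [h]
    · have : (‖g (y i)‖ : ℂ) ≠ 0 := by exact_mod_cast norm_ne_zero_iff.2 h
      simp only [hW, h, if_false]
      field_simp
  have hWim : ∀ i, (g (y i)).im = 0 → (W i).im = 0 := by
    intro i hi
    by_cases h : g (y i) = 0
    · simp [hW, h]
    · simp only [hW, h, if_false]
      rw [Complex.div_ofReal_im, hi, zero_div]
  have hpure2 := pure_floor hg1 hq3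
  have hslow : ∀ x₀ x, |x - x₀| ≤ K / N → |‖g x‖ - ‖g x₀‖| ≤ η' := by
    intro x₀ x hx
    have h1 := hq3 x₀ x hx
    have h2 : ‖g x₀ * e1 (q x₀ * (x - x₀))‖ = ‖g x₀‖ := by rw [norm_mul, norm_e1, mul_one]
    rw [← h2]
    exact (abs_norm_sub_norm_le _ _).trans h1
  have hδK : 1 / (2 * (M : ℝ)) ≤ K / N := by
    rw [div_le_div_iff₀ (by positivity) hN0]
    nlinarith
  have hgap : ∀ i J : ℕ, 0 < J → i + J ≤ M → S i → S (i + J) →
      (∀ l, 0 < l → l < J → ¬ S (i + l)) →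
      (|(Kf (i + J) : ℝ) - Kf i| ≤ τ * N ∧
        ‖W (i + J) - W i * e1 (Kf i * (1 / (2 * M)) * J)‖ ≤ τ) ∨
      (((1 - a) * N - (a * N - 1)) + J ≤ τ * N * J ∧ Real.pi ≤ τ * J) := by
    intro i J hJ hiJ hSi hSj _
    exact gap_alt hτ hκ hη₁0 hη'0 hη'2 hη'3 hK0 hKτ hKa hKp (by linarith) hNK hNτ' hNη hM hNM hq3
      hpure2 hslow i J hJ hiJ hSi hSj
  have hSM : S M := Or.inr (Or.inl rfl)
  have hS0 : S 0 := Or.inl rfl
  obtain ⟨k, ω, b1, b2, b3, b4⟩ := path_fill (M := M) S hS0 (D := τ * N) (τ := τ)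
    (lo := a * N - 1) (hi := (1 - a) * N) (δ := 1 / (2 * M)) (by positivity) hτ.le Kf W
    (fun i _ => by
      have h1 := Int.floor_le (q (y i))
      have h2 := Int.lt_floor_add_one (q (y i))
      have h3 := hq1 (y i)
      have h4 := hq2 (y i)
      simp only [hKf]
      constructor <;> linarith) (fun i _ => hW1 i) hgap M hSM le_rfl
  refine ⟨k, ω, b1, b2, ?_, ?_, ?_, ?_, ?_, ?_⟩
  · rw [(b3 0 (Nat.zero_le _) hS0).2]
    apply hWim
    simpa [hy] using hg0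
  · rw [(b3 M le_rfl hSM).2]
    apply hWim
    have : y M = 1 / 2 := by simp only [hy]; field_simp
    rw [this]; exact hgh
  · intro i hi x hx
    have hxK : |x - y i| ≤ K / N := hx.trans hδK
    by_cases h : S i
    · obtain ⟨h1, h2⟩ := b3 i hi h
      rw [h1, h2]
      have h3 := hpure2 (y i) x hxK
      have h4 : ((‖g ((i : ℝ) / (2 * M))‖ : ℝ) : ℂ) * W i = g (y i) := (hWg i).symm
      rw [h4]
      refine h3.trans ?_
      have h5 : 2 * Real.pi * |x - y i| ≤ 2 * Real.pi * (1 / (2 * M)) :=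
        mul_le_mul_of_nonneg_left hx (by positivity)
      have h6 : 2 * Real.pi * (1 / (2 * (M : ℝ))) = Real.pi / M := by field_simp
      have h7 : Real.pi / M ≤ τ / 4 := by
        rw [div_le_div_iff₀ hM0 (by norm_num)]
        rw [div_le_iff₀ hτ] at hNκ
        have h8 : 32 * κ ≤ 2 * M * κ * τ :=
          hNκ.trans (mul_le_mul_of_nonneg_right hNM hτ.le)
        have h9 : 16 ≤ M * τ := by
          by_contra hcon
          push Not at hcon
          nlinarith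
        linarith
      linarith
    · have h1 : ‖g (y i)‖ < η₁ := by
        by_contra hcon
        push Not at hcon
        exact h (Or.inr (Or.inr hcon))
      have h2 := hslow (y i) x hxK
      rw [abs_le] at h2
      refine (norm_sub_le _ _).trans ?_
      rw [norm_mul, norm_mul, norm_e1, b2 i hi, Complex.norm_real, norm_norm, mul_one, mul_one]
      have h3 : ‖g ((i : ℝ) / (2 * M))‖ < η₁ := h1
      linarith
  · intro i _
    have h1 : ((i : ℝ) + 1) / (2 * M) - i / (2 * M) = 1 / (2 * M) := by ring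
    have h2 := hslow ((i : ℝ) / (2 * M)) (((i : ℝ) + 1) / (2 * M)) (by
      rw [h1, abs_of_nonneg (by positivity)]; exact hδK)
    linarith
  · intro i hi
    exact (b4 i hi).1
  · intro i hi
    have h1 := (b4 i hi).2
    have h2 : (k i : ℝ) * (1 / (2 * M)) = k i / (2 * M) := by ring
    rw [h2] at h1
    exact h1

end Vale.Agent.P110T
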