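import Vale.Agent.Lib.P110F.Defs

/-!
P110T: the discrete part of the carrier lemma: interpolation of frequencies and phases
between consecutive good nodes.
-/

namespace Vale.Agent.P110T

open scoped ComplexConjugate
open Vale.Agent.P110F

lemma carrier_lip (a b : ℝ) : ‖e1 a - e1 b‖ ≤ 2 * Real.pi * |a - b| := by
  have h1 : e1 a - e1 b = e1 b * (e1 (a - b) - 1) := by
    rw [mul_sub, ← e1_add, mul_one]
    congr 2
    ring
  have h2 : e1 (a - b) = Complex.exp (Complex.I * ((2 * Real.pi * (a - b) : ℝ) : ℂ)) := by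
    unfold e1
    congr 1
    push_cast
    ring
  rw [h1, norm_mul, norm_e1, one_mul, h2]
  refine (Real.norm_exp_I_mul_ofReal_sub_one_le).trans ?_
  rw [Real.norm_eq_abs, abs_mul, abs_of_pos Real.two_pi_pos]

lemma exists_phase {z : ℂ} (hz : ‖z‖ = 1) : ∃ θ : ℝ, |θ| ≤ 1 / 2 ∧ e1 θ = z := by
  have hpi := Real.pi_pos
  refine ⟨Complex.arg z / (2 * Real.pi), ?_, ?_⟩
  · rw [abs_div, abs_of_pos Real.two_pi_pos, div_le_iff₀ Real.two_pi_pos]
    have := Complex.abs_arg_le_pi z
    linarith
  · have h := Complex.norm_mul_exp_arg_mul_I z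
    rw [hz, Complex.ofReal_one, one_mul] at h
    have h2 : e1 (Complex.arg z / (2 * Real.pi)) = Complex.exp (Complex.arg z * Complex.I) := by
      unfold e1
      congr 1
      push_cast
      have : (Real.pi : ℂ) ≠ 0 := by exact_mod_cast hpi.ne'
      field_simp
    rw [h2, h]

lemma conj_mul_self_one {z : ℂ} (hz : ‖z‖ = 1) : z * conj z = 1 := by
  rw [Complex.mul_conj, Complex.normSq_eq_norm_sq, hz]
  simp

/-- One gap between two consecutive good nodes. -/
lemma gap_fill {D τ lo hi δ : ℝ} (hD : 0 ≤ D) (hτ : 0 ≤ τ) (J : ℕ) (hJ : 0 < J) (Ki Kj : ℤ)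
    (Wi Wj : ℂ) (hWi : ‖Wi‖ = 1) (hWj : ‖Wj‖ = 1) (hKi : lo ≤ (Ki : ℝ) ∧ (Ki : ℝ) ≤ hi)
    (hKj : lo ≤ (Kj : ℝ) ∧ (Kj : ℝ) ≤ hi)
    (h : (|(Kj : ℝ) - Ki| ≤ D ∧ ‖Wj - Wi * e1 (Ki * δ * J)‖ ≤ τ) ∨
      ((hi - lo) + J ≤ D * J ∧ Real.pi ≤ τ * J)) :
    ∃ (k : ℕ → ℤ) (ω : ℕ → ℂ), k 0 = Ki ∧ k J = Kj ∧ ω 0 = Wi ∧ ω J = Wj ∧
      (∀ l ≤ J, lo ≤ (k l : ℝ) ∧ (k l : ℝ) ≤ hi) ∧ (∀ l ≤ J, ‖ω l‖ = 1) ∧
      ∀ l < J, |(k (l + 1) : ℝ) - k l| ≤ D ∧ ‖ω (l + 1) - ω l * e1 (k l * δ)‖ ≤ τ := by
  have hJ0 : (0 : ℝ) < J := by exact_mod_cast hJ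
  rcases h with ⟨h1, h2⟩ | ⟨h1, h2⟩
  · refine ⟨fun l => if l < J then Ki else Kj,
      fun l => if l < J then Wi * e1 (Ki * δ * l) else Wj, ?_, ?_, ?_, ?_, ?_, ?_, ?_⟩
    · simp [hJ]
    · simp
    · simp [hJ, e1_zero]
    · simp
    · intro l _
      by_cases hl : l < J
      · simp only [hl, if_true]; exact hKi
      · simp only [hl, if_false]; exact hKj
    · intro l _
      by_cases hl : l < J
      · simp only [hl, if_true]; rw [norm_mul, hWi, norm_e1, one_mul]
      · simp only [hl, if_false]; exact hWj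
    · intro l hl
      have hstep : Wi * e1 (Ki * δ * l) * e1 (Ki * δ) = Wi * e1 (Ki * δ * ((l : ℝ) + 1)) := by
        rw [mul_assoc, ← e1_add]; congr 2; ring
      by_cases hl1 : l + 1 < J
      · simp only [hl, hl1, if_true]
        refine ⟨by simpa using hD, ?_⟩
        rw [hstep, Nat.cast_add, Nat.cast_one, sub_self, norm_zero]
        exact hτ
      · have hlJ : ((l : ℝ) + 1) = J := by
          have : l + 1 = J := by omega
          exact_mod_cast this
        simp only [hl, hl1, if_true, if_false]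
        refine ⟨h1, ?_⟩
        rw [hstep, hlJ]
        exact h2
  · set x : ℕ → ℝ := fun l => (Ki : ℝ) + l * ((Kj : ℝ) - Ki) / J with hx
    set k : ℕ → ℤ := fun l => ⌊x l⌋ with hk
    set P : ℕ → ℝ := fun l => ∑ m ∈ Finset.range l, (k m : ℝ) * δ with hP
    have hz : ‖conj (Wi * e1 (P J)) * Wj‖ = 1 := by
      rw [norm_mul, RCLike.norm_conj, norm_mul, hWi, norm_e1, hWj]; norm_num
    obtain ⟨θ, hθ, hθe⟩ := exists_phase hz
    have hx0 : x 0 = Ki := by simp [hx]
    have hxJ : x J = Kj := by
      simp only [hx]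
      field_simp
      ring
    refine ⟨k, fun l => Wi * e1 (P l + l * θ / J), ?_, ?_, ?_, ?_, ?_, ?_, ?_⟩
    · simp only [hk, hx0]; exact Int.floor_intCast Ki
    · simp only [hk, hxJ]; exact Int.floor_intCast Kj
    · simp [hP, e1_zero]
    · have : (J : ℝ) * θ / J = θ := by field_simp
      simp only [this]
      rw [e1_add, hθe, ← mul_assoc, ← mul_assoc, conj_mul_self_one, one_mul]
      rw [norm_mul, hWi, norm_e1, one_mul]
    · intro l hl
      have hlJ : (l : ℝ) / J ≤ 1 := by
        rw [div_le_one hJ0]; exact_mod_cast hl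
      have hl0 : 0 ≤ (l : ℝ) / J := by positivity
      have hxl : x l = (1 - (l : ℝ) / J) * Ki + ((l : ℝ) / J) * Kj := by
        simp only [hx]; field_simp; ring
      constructor
      · have h3 : ((min Ki Kj : ℤ) : ℝ) ≤ x l := by
          have e1' : ((min Ki Kj : ℤ) : ℝ) ≤ Ki := by exact_mod_cast min_le_left Ki Kj
          have e2' : ((min Ki Kj : ℤ) : ℝ) ≤ Kj := by exact_mod_cast min_le_right Ki Kj
          rw [hxl]
          nlinarith
        have h4 : min Ki Kj ≤ k l := Int.le_floor.2 h3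
        have h5 : lo ≤ ((min Ki Kj : ℤ) : ℝ) := by
          rcases min_choice Ki Kj with h | h
          · rw [h]; exact hKi.1
          · rw [h]; exact hKj.1
        exact h5.trans (by exact_mod_cast h4)
      · refine (Int.floor_le (x l)).trans ?_
        rw [hxl]
        nlinarith [hKi.2, hKj.2]
    · intro l _
      rw [norm_mul, hWi, norm_e1, one_mul]
    · intro l hl
      constructor
      · have hd : x (l + 1) - x l = ((Kj : ℝ) - Ki) / J := by
          simp only [hx]; push_cast; ring
        have hKK : |(Kj : ℝ) - Ki| ≤ hi - lo := by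
          rw [abs_le]; constructor <;> linarith [hKi.1, hKi.2, hKj.1, hKj.2]
        have hd2 : |x (l + 1) - x l| ≤ (hi - lo) / J := by
          rw [hd, abs_div, abs_of_pos hJ0]
          exact div_le_div_of_nonneg_right hKK hJ0.le
        have hf1 := Int.floor_le (x (l + 1))
        have hf2 := Int.lt_floor_add_one (x (l + 1))
        have hf3 := Int.floor_le (x l)
        have hf4 := Int.lt_floor_add_one (x l)
        have hD2 : (hi - lo) / J + 1 ≤ D := by
          rw [div_add_one hJ0.ne', div_le_iff₀ hJ0]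
          exact h1
        rw [abs_le] at hd2 ⊢
        simp only [hk]
        constructor <;> linarith
      · have hPl : P (l + 1) = P l + (k l : ℝ) * δ := by
          simp only [hP, Finset.sum_range_succ]
        have hrw : Wi * e1 (P (l + 1) + ((l + 1 : ℕ) : ℝ) * θ / J) -
            Wi * e1 (P l + (l : ℝ) * θ / J) * e1 ((k l : ℝ) * δ) =
            Wi * (e1 (P (l + 1) + ((l + 1 : ℕ) : ℝ) * θ / J) -
              e1 (P l + (l : ℝ) * θ / J + (k l : ℝ) * δ)) := by
          rw [e1_add (P l + (l : ℝ) * θ / J)]; ring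
        show ‖Wi * e1 (P (l + 1) + ((l + 1 : ℕ) : ℝ) * θ / J) -
            Wi * e1 (P l + (l : ℝ) * θ / J) * e1 ((k l : ℝ) * δ)‖ ≤ τ
        rw [hrw, norm_mul, hWi, one_mul]
        refine (carrier_lip _ _).trans ?_
        have : P (l + 1) + ((l + 1 : ℕ) : ℝ) * θ / J - (P l + (l : ℝ) * θ / J + (k l : ℝ) * δ) =
            θ / J := by
          rw [hPl]; push_cast; ring
        rw [this, abs_div, abs_of_pos hJ0]
        have h6 : 2 * Real.pi * (|θ| / J) ≤ Real.pi / J := by
          rw [← mul_div_assoc]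
          refine div_le_div_of_nonneg_right ?_ hJ0.le
          nlinarith [Real.pi_pos]
        refine h6.trans ?_
        rw [div_le_iff₀ hJ0]
        exact h2

/-- Interpolation along the whole path. -/
lemma path_fill {M : ℕ} (S : ℕ → Prop) (h0 : S 0) {D τ lo hi δ : ℝ} (hD : 0 ≤ D) (hτ : 0 ≤ τ)
    (K : ℕ → ℤ) (W : ℕ → ℂ) (hK : ∀ i, S i → lo ≤ (K i : ℝ) ∧ (K i : ℝ) ≤ hi)
    (hW : ∀ i, S i → ‖W i‖ = 1)
    (hgap : ∀ i J : ℕ, 0 < J → i + J ≤ M → S i → S (i + J) →
      (∀ l, 0 < l → l < J → ¬ S (i + l)) →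
      (|(K (i + J) : ℝ) - K i| ≤ D ∧ ‖W (i + J) - W i * e1 (K i * δ * J)‖ ≤ τ) ∨
      ((hi - lo) + J ≤ D * J ∧ Real.pi ≤ τ * J)) :
    ∀ m, S m → m ≤ M → ∃ (k : ℕ → ℤ) (ω : ℕ → ℂ),
      (∀ l ≤ m, lo ≤ (k l : ℝ) ∧ (k l : ℝ) ≤ hi) ∧ (∀ l ≤ m, ‖ω l‖ = 1) ∧
      (∀ l ≤ m, S l → k l = K l ∧ ω l = W l) ∧
      ∀ l < m, |(k (l + 1) : ℝ) - k l| ≤ D ∧ ‖ω (l + 1) - ω l * e1 (k l * δ)‖ ≤ τ := by
  classical
  intro m
  induction m using Nat.strong_induction_on with
  | _ m ih =>
    intro hm hmM
    rcases Nat.eq_zero_or_pos m with h | hpos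
    · subst h
      refine ⟨K, W, ?_, ?_, ?_, ?_⟩
      · intro l hl
        have : l = 0 := by omega
        subst this; exact hK 0 h0
      · intro l hl
        have : l = 0 := by omega
        subst this; exact hW 0 h0
      · intro l _ _; exact ⟨rfl, rfl⟩
      · intro l hl; omega
    · set i := Nat.findGreatest S (m - 1) with hi'
      have hSi : S i := Nat.findGreatest_spec (P := S) (Nat.zero_le (m - 1)) h0
      have him : i < m := by
        have := Nat.findGreatest_le (P := S) (m - 1)
        omega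
      have hbet : ∀ l, 0 < l → l < m - i → ¬ S (i + l) := by
        intro l hl0 hl
        exact Nat.findGreatest_is_greatest (P := S) (n := m - 1) (k := i + l) (by omega)
          (by omega)
      have hiJ : i + (m - i) = m := by omega
      have hSJ : S (i + (m - i)) := by rw [hiJ]; exact hm
      have hg := hgap i (m - i) (by omega) (by omega) hSi hSJ hbet
      obtain ⟨k₁, ω₁, a1, a2, a3, a4⟩ := ih i him hSi (by omega)
      obtain ⟨k₂, ω₂, b1, b2, b3, b4, b5, b6, b7⟩ := gap_fill hD hτ (m - i) (by omega) (K i)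
        (K (i + (m - i))) (W i) (W (i + (m - i))) (hW i hSi) (hW _ hSJ) (hK i hSi) (hK _ hSJ) hg
      have ek : ∀ l, i ≤ l → (if l ≤ i then k₁ l else k₂ (l - i)) = k₂ (l - i) := by
        intro l hl
        by_cases h : l ≤ i
        · have : l = i := by omega
          subst this
          simp only [h, if_true, Nat.sub_self]
          rw [b1]; exact (a3 _ le_rfl hSi).1
        · simp only [h, if_false]
      have eω : ∀ l, i ≤ l → (if l ≤ i then ω₁ l else ω₂ (l - i)) = ω₂ (l - i) := by
        intro l hl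
        by_cases h : l ≤ i
        · have : l = i := by omega
          subst this
          simp only [h, if_true, Nat.sub_self]
          rw [b3]; exact (a3 _ le_rfl hSi).2
        · simp only [h, if_false]
      refine ⟨fun l => if l ≤ i then k₁ l else k₂ (l - i),
        fun l => if l ≤ i then ω₁ l else ω₂ (l - i), ?_, ?_, ?_, ?_⟩
      · intro l hl
        by_cases h : l ≤ i
        · simp only [h, if_true]; exact a1 l h
        · simp only [h, if_false]; exact b5 _ (by omega)
      · intro l hl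
        by_cases h : l ≤ i
        · simp only [h, if_true]; exact a2 l h
        · simp only [h, if_false]; exact b6 _ (by omega)
      · intro l hl hSl
        by_cases h : l ≤ i
        · simp only [h, if_true]; exact a3 l h hSl
        · have hlm : l = m := by
            by_contra hne
            exact hbet (l - i) (by omega) (by omega) (by
              have : i + (l - i) = l := by omega
              rw [this]; exact hSl)
          simp only [h, if_false]
          rw [hlm, b2, b4, hiJ]
          exact ⟨rfl, rfl⟩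
      · intro l hl
        by_cases h : l + 1 ≤ i
        · have h' : l ≤ i := by omega
          simp only [h, h', if_true]
          exact a4 l (by omega)
        · have h' : i ≤ l := by omega
          have e1' := ek l h'
          have e2' := ek (l + 1) (by omega)
          have e3' := eω l h'
          have e4' := eω (l + 1) (by omega)
          simp only [e1', e2', e3', e4']
          have : l + 1 - i = (l - i) + 1 := by omega
          rw [this]
          exact b7 (l - i) (by omega)

end Vale.Agent.P110T
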