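import Vale.Agent.Lib.P110T.COkB

/-!
# P110T: closeness to the carriers on all blocks
-/

namespace Vale.Agent.P110T

open MeasureTheory Vale.Agent.P110F
open scoped ComplexConjugate

variable {M : ℕ} {c : ℝ → ℝ → ℝ → Bool → ℝ → ℂ} {d : TD} {L ηj : ℝ}

/-- reflection of the carrier -/
theorem car_neg (hom : ∀ i, d.om (-i) = conj (d.om i)) (hk : ∀ i, d.kk (-i) = d.kk i) (i : ℤ)
    (x : ℝ) : car M d (-i) x = conj (car M d i (-x)) := by
  unfold car
  rw [hom, hk, map_mul, ← e1_neg]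
  congr 2
  push_cast
  ring

/-- translation of the carrier -/
theorem car_add (hM : 0 < M) (hom : ∀ i, d.om (i + 2 * M) = d.om i)
    (hk : ∀ i, d.kk (i + 2 * M) = d.kk i) (i : ℤ) (x : ℝ) :
    car M d (i + 2 * M) x = car M d i (x - 1) := by
  have hM' : (M : ℝ) ≠ 0 := by exact_mod_cast hM.ne'
  unfold car
  rw [hom, hk]
  congr 2
  push_cast
  field_simp
  ring

/-- transfer of the closeness to all blocks -/
theorem close_all (hM : 0 < M) (hA : ∀ i, d.A (-i) = d.A i) (hA' : ∀ i, d.A (i + 2 * M) = d.A i)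
    (hom : ∀ i, d.om (-i) = conj (d.om i)) (hom' : ∀ i, d.om (i + 2 * M) = d.om i)
    (hk : ∀ i, d.kk (-i) = d.kk i) (hk' : ∀ i, d.kk (i + 2 * M) = d.kk i)
    {g : ℝ → ℂ} (hgp : ∀ x, g (x + 1) = g x) (hgs : ∀ x, g (-x) = conj (g x)) {τ : ℝ}
    (h0 : ∀ i : ℕ, i ≤ M → ∀ x : ℝ, |x - (i : ℝ) / (2 * M)| ≤ 1 / (2 * M) →
      ‖g x - d.A i * car M d i x‖ ≤ τ) (i : ℤ) (x : ℝ)
    (hx : |x - (i : ℝ) / (2 * M)| ≤ 1 / (2 * M)) : ‖g x - d.A i * car M d i x‖ ≤ τ := by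
  have hM' : (M : ℝ) ≠ 0 := by exact_mod_cast hM.ne'
  -- reflection
  have hrefl : ∀ j : ℤ, (∀ x : ℝ, |x - (j : ℝ) / (2 * M)| ≤ 1 / (2 * M) →
      ‖g x - d.A j * car M d j x‖ ≤ τ) → ∀ x : ℝ, |x - ((-j : ℤ) : ℝ) / (2 * M)| ≤ 1 / (2 * M) →
      ‖g x - d.A (-j) * car M d (-j) x‖ ≤ τ := by
    intro j hj y hy
    have h1 := hj (-y) (by
      rw [← abs_neg]
      refine le_trans (le_of_eq ?_) hy
      congr 1
      push_cast
      ring)
    rw [hA, car_neg hom hk]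
    have h2 : g y = conj (g (-y)) := by
      rw [hgs, Complex.conj_conj]
    have h3 : g y - (d.A j : ℂ) * conj (car M d j (-y)) =
        conj (g (-y) - (d.A j : ℂ) * car M d j (-y)) := by
      rw [map_sub, map_mul, Complex.conj_ofReal, ← h2]
    rw [h3, RCLike.norm_conj]
    exact h1
  -- translation
  have htrans : ∀ j : ℤ, (∀ x : ℝ, |x - (j : ℝ) / (2 * M)| ≤ 1 / (2 * M) →
      ‖g x - d.A j * car M d j x‖ ≤ τ) → ∀ x : ℝ,
      |x - ((j + 2 * M : ℤ) : ℝ) / (2 * M)| ≤ 1 / (2 * M) →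
      ‖g x - d.A (j + 2 * M) * car M d (j + 2 * M) x‖ ≤ τ := by
    intro j hj y hy
    have h1 := hj (y - 1) (by
      refine le_trans (le_of_eq ?_) hy
      congr 1
      push_cast
      field_simp
      ring)
    rw [hA', car_add hM hom' hk']
    have h2 : g y = g (y - 1) := by
      rw [← hgp (y - 1), sub_add_cancel]
    rw [h2]
    exact h1
  have htrans' : ∀ j : ℤ, (∀ x : ℝ, |x - ((j + 2 * M : ℤ) : ℝ) / (2 * M)| ≤ 1 / (2 * M) →
      ‖g x - d.A (j + 2 * M) * car M d (j + 2 * M) x‖ ≤ τ) → ∀ x : ℝ,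
      |x - (j : ℝ) / (2 * M)| ≤ 1 / (2 * M) → ‖g x - d.A j * car M d j x‖ ≤ τ := by
    intro j hj y hy
    have h1 := hj (y + 1) (by
      refine le_trans (le_of_eq ?_) hy
      congr 1
      push_cast
      field_simp
      ring)
    rw [hA', car_add hM hom' hk', add_sub_cancel_right, hgp] at h1
    exact h1
  -- multiples of the period
  have hmul : ∀ (n : ℕ) (j : ℤ), (∀ x : ℝ, |x - (j : ℝ) / (2 * M)| ≤ 1 / (2 * M) →
      ‖g x - d.A j * car M d j x‖ ≤ τ) →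
      (∀ x : ℝ, |x - ((j + n * (2 * M) : ℤ) : ℝ) / (2 * M)| ≤ 1 / (2 * M) →
        ‖g x - d.A (j + n * (2 * M)) * car M d (j + n * (2 * M)) x‖ ≤ τ) ∧
      (∀ x : ℝ, |x - ((j - n * (2 * M) : ℤ) : ℝ) / (2 * M)| ≤ 1 / (2 * M) →
        ‖g x - d.A (j - n * (2 * M)) * car M d (j - n * (2 * M)) x‖ ≤ τ) := by
    intro n j hj
    induction n with
    | zero =>
      constructor
      · have e : j + ((0 : ℕ) : ℤ) * (2 * M) = j := by push_cast; ring
        rw [e]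
        exact hj
      · have e : j - ((0 : ℕ) : ℤ) * (2 * M) = j := by push_cast; ring
        rw [e]
        exact hj
    | succ n ih =>
      constructor
      · have e : j + ((n + 1 : ℕ) : ℤ) * (2 * M) = j + n * (2 * M) + 2 * M := by push_cast; ring
        rw [e]
        exact htrans _ ih.1
      · have e : j - (n : ℤ) * (2 * M) = j - ((n + 1 : ℕ) : ℤ) * (2 * M) + 2 * M := by
          push_cast; ring
        refine htrans' _ ?_
        rw [← e]
        exact ih.2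
  -- the base blocks `0 ≤ j < 2M`
  have hM2 : (0 : ℤ) < 2 * M := by exact_mod_cast (by omega : 0 < 2 * M)
  have hbase : ∀ j : ℤ, 0 ≤ j → j < 2 * M → ∀ x : ℝ, |x - (j : ℝ) / (2 * M)| ≤ 1 / (2 * M) →
      ‖g x - d.A j * car M d j x‖ ≤ τ := by
    intro j hj0 hj1
    by_cases hjM : j ≤ M
    · obtain ⟨m, rfl⟩ := Int.eq_ofNat_of_zero_le hj0
      have hm : m ≤ M := by exact_mod_cast hjM
      intro y hy
      exact h0 m hm y (by rwa [Int.cast_natCast] at hy)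
    · rw [not_le] at hjM
      obtain ⟨m, hm⟩ := Int.eq_ofNat_of_zero_le (show 0 ≤ 2 * (M : ℤ) - j by omega)
      have hmM : m ≤ M := by omega
      have h1 : ∀ y : ℝ, |y - ((m : ℤ) : ℝ) / (2 * M)| ≤ 1 / (2 * M) →
          ‖g y - d.A m * car M d m y‖ ≤ τ := fun y hy =>
        h0 m hmM y (by rwa [Int.cast_natCast] at hy)
      have h2 := htrans _ (hrefl _ h1)
      have e : -(m : ℤ) + 2 * M = j := by omega
      rw [e] at h2
      exact h2
  -- general block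
  have hmod0 := Int.emod_nonneg i hM2.ne'
  have hmod1 := Int.emod_lt_of_pos i hM2
  have hdiv := Int.emod_add_mul_ediv i (2 * M)
  have hb := hbase _ hmod0 hmod1
  rcases Int.eq_nat_or_neg (i / (2 * M)) with ⟨n, hn | hn⟩
  · have e : i % (2 * M) + n * (2 * M) = i := by
      rw [← hn]
      linarith [hdiv]
    have h3 := (hmul n _ hb).1
    rw [e] at h3
    exact h3 x hx
  · have e : i % (2 * M) - n * (2 * M) = i := by
      have h4 : (n : ℤ) = -(i / (2 * M)) := by omega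
      rw [h4]
      linarith [hdiv]
    have h3 := (hmul n _ hb).2
    rw [e] at h3
    exact h3 x hx

/-- a point is close to the centre of its block -/
theorem abs_sub_bi_le (hM : 0 < M) (x : ℝ) : |x - (bi M x : ℝ) / (2 * M)| ≤ 1 / (2 * M) := by
  have hM' : (0 : ℝ) < M := by exact_mod_cast hM
  obtain ⟨h0, h1⟩ := bt_mem (M := M) x
  have h2 : x - (bi M x : ℝ) / (2 * M) =
      (2 * (M : ℝ) * x + 1 / 2 - bi M x - 1 / 2) / (2 * M) := by
    field_simp
    ring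
  rw [h2, abs_div, abs_of_pos (by positivity : (0 : ℝ) < 2 * M)]
  apply div_le_div_of_nonneg_right _ (by positivity)
  rw [abs_le]
  constructor <;> linarith

/-- the modulus after correction, everywhere -/
theorem modulus_all (hM : 0 < M) (h : COk c d L ηj) (hη : 0 ≤ ηj)
    (hA : ∀ i, d.A (-i) = d.A i) (hA' : ∀ i, d.A (i + 2 * M) = d.A i)
    (hom : ∀ i, d.om (-i) = conj (d.om i)) (hom' : ∀ i, d.om (i + 2 * M) = d.om i)
    (hk : ∀ i, d.kk (-i) = d.kk i) (hk' : ∀ i, d.kk (i + 2 * M) = d.kk i)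
    {g : ℝ → ℂ} (hg : ∀ x, ‖g x‖ ≤ 1) (hgp : ∀ x, g (x + 1) = g x)
    (hgs : ∀ x, g (-x) = conj (g x)) {τ : ℝ}
    (h0 : ∀ i : ℕ, i ≤ M → ∀ x : ℝ, |x - (i : ℝ) / (2 * M)| ≤ 1 / (2 * M) →
      ‖g x - d.A i * car M d i x‖ ≤ τ) (x : ℝ) :
    |‖g x + FF M c d x‖ - 1| ≤ τ + ηj :=
  modulus h hη hg x (close_all hM hA hA' hom hom' hk hk' hgp hgs h0 _ x (abs_sub_bi_le hM x))

end Vale.Agent.P110T
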