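import Mathlib
import Vale.Agent.Lib.P110F.Defs

/-!
# P110T: the correction `T` and its local structure

`M` blocks per half circle; block `i` is centred at `i / (2 M)`; node `i` is its left end.
-/

namespace Vale.Agent.P110T

open MeasureTheory Vale.Agent.P110F
open scoped ComplexConjugate

/-- index of the block containing `x` -/
noncomputable def bi (M : ℕ) (x : ℝ) : ℤ := ⌊2 * (M : ℝ) * x + 1 / 2⌋

/-- the data: amplitudes, phases, carriers, signs at the nodes, short or long, bad blocks -/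
structure TD where
  A : ℤ → ℝ
  om : ℤ → ℂ
  kk : ℤ → ℤ
  s : ℤ → ℝ
  r : ℤ → Bool
  bad : ℤ → Prop

open Classical in
/-- the correction on block `i` -/
noncomputable def GG (M : ℕ) (c : ℝ → ℝ → ℝ → Bool → ℝ → ℂ) (d : TD) (i : ℤ) (x : ℝ) : ℂ :=
  if d.bad i then d.om i * e1 ((d.kk i : ℝ) * (x - (i : ℝ) / (2 * M))) *
    (c (d.A i) (d.s i) (d.s (i + 1)) (d.r i) (2 * (M : ℝ) * x + 1 / 2 - i) - d.A i) else 0

/-- the correction -/
noncomputable def FF (M : ℕ) (c : ℝ → ℝ → ℝ → Bool → ℝ → ℂ) (d : TD) (x : ℝ) : ℂ :=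
  GG M c d (bi M x) x

variable {M : ℕ} {c : ℝ → ℝ → ℝ → Bool → ℝ → ℂ} {d : TD}

theorem bt_mem (x : ℝ) : 0 ≤ 2 * (M : ℝ) * x + 1 / 2 - (bi M x : ℝ) ∧
    2 * (M : ℝ) * x + 1 / 2 - (bi M x : ℝ) < 1 := by
  unfold bi
  have h1 := Int.floor_le (2 * (M : ℝ) * x + 1 / 2)
  have h2 := Int.lt_floor_add_one (2 * (M : ℝ) * x + 1 / 2)
  constructor <;> linarith

theorem bi_add_one (x : ℝ) : bi M (x + 1) = bi M x + 2 * M := by
  unfold bi
  rw [show 2 * (M : ℝ) * (x + 1) + 1 / 2 = 2 * (M : ℝ) * x + 1 / 2 + ((2 * M : ℤ) : ℝ) by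
    push_cast; ring, Int.floor_add_intCast]

/-- the correction is periodic -/
theorem FF_add_one (hM : 0 < M) (hA : ∀ i, d.A (i + 2 * M) = d.A i)
    (hom : ∀ i, d.om (i + 2 * M) = d.om i) (hk : ∀ i, d.kk (i + 2 * M) = d.kk i)
    (hs : ∀ i, d.s (i + 2 * M) = d.s i) (hr : ∀ i, d.r (i + 2 * M) = d.r i)
    (hb : ∀ i, d.bad (i + 2 * M) ↔ d.bad i) (x : ℝ) : FF M c d (x + 1) = FF M c d x := by
  have hM' : (M : ℝ) ≠ 0 := by exact_mod_cast hM.ne'
  unfold FF
  rw [bi_add_one]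
  generalize bi M x = i
  unfold GG
  have hs1 : d.s (i + 2 * M + 1) = d.s (i + 1) := by
    rw [show i + 2 * (M : ℤ) + 1 = (i + 1) + 2 * M by ring, hs]
  have e1x : x + 1 - ((i + 2 * (M : ℤ) : ℤ) : ℝ) / (2 * M) = x - (i : ℝ) / (2 * M) := by
    push_cast
    field_simp
    ring
  have e2x : 2 * (M : ℝ) * (x + 1) + 1 / 2 - ((i + 2 * (M : ℤ) : ℤ) : ℝ) =
      2 * (M : ℝ) * x + 1 / 2 - i := by
    push_cast
    ring
  rw [hA, hom, hk, hs, hs1, hr, e1x, e2x]
  by_cases h : d.bad i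
  · rw [if_pos h, if_pos ((hb i).2 h)]
  · rw [if_neg h, if_neg (fun h' => h ((hb i).1 h'))]

theorem measurable_FF (hc : ∀ i, d.bad i → Measurable fun t =>
    c (d.A i) (d.s i) (d.s (i + 1)) (d.r i) t) : Measurable (FF M c d) := by
  have h1 : Measurable fun p : ℤ × ℝ => GG M c d p.1 p.2 := by
    refine measurable_from_prod_countable_right fun i => ?_
    change Measurable fun x => GG M c d i x
    unfold GG
    by_cases h : d.bad i
    · simp only [if_pos h]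
      refine (measurable_const.mul (continuous_e1.measurable.comp ?_)).mul
        (((hc i h).comp ?_).sub measurable_const)
      · exact measurable_const.mul (measurable_id.sub measurable_const)
      · exact ((measurable_const.mul measurable_id).add measurable_const).sub measurable_const
    · simp only [if_neg h]
      exact measurable_const
  have h2 : Measurable (bi M) := by
    unfold bi
    exact Int.measurable_floor.comp ((measurable_const.mul measurable_id).add measurable_const)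
  exact h1.comp (h2.prodMk measurable_id)

/-- hypotheses on the block function for the data -/
structure COk (c : ℝ → ℝ → ℝ → Bool → ℝ → ℂ) (d : TD) (L ηj : ℝ) : Prop where
  L_nonneg : 0 ≤ L
  om_norm : ∀ i, ‖d.om i‖ = 1
  A_nonneg : ∀ i, 0 ≤ d.A i
  A_le : ∀ i, d.A i ≤ 1
  s_le : ∀ i, |d.s i| ≤ 1
  c_norm : ∀ i, d.bad i → ∀ t, 0 ≤ t → t ≤ 1 →
    ‖c (d.A i) (d.s i) (d.s (i + 1)) (d.r i) t‖ = 1
  c_zero : ∀ i, d.bad i → c (d.A i) (d.s i) (d.s (i + 1)) (d.r i) 0 =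
    d.A i + Complex.I * (d.s i * Real.sqrt (1 - d.A i ^ 2) : ℝ)
  c_one : ∀ i, d.bad i → c (d.A i) (d.s i) (d.s (i + 1)) (d.r i) 1 =
    d.A i + Complex.I * (d.s (i + 1) * Real.sqrt (1 - d.A i ^ 2) : ℝ)
  c_lip : ∀ i, d.bad i → ∀ t t', 0 ≤ t → t ≤ 1 → 0 ≤ t' → t' ≤ 1 →
    ‖c (d.A i) (d.s i) (d.s (i + 1)) (d.r i) t - c (d.A i) (d.s i) (d.s (i + 1)) (d.r i) t'‖ ≤
      L * |t - t'|
  good : ∀ i, ¬ d.bad i → 1 - ηj ≤ d.A i

variable {L ηj : ℝ}

theorem norm_FF_le (h : COk c d L ηj) (x : ℝ) : ‖FF M c d x‖ ≤ 2 := by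
  unfold FF GG
  split_ifs with hb
  · rw [norm_mul, norm_mul, h.om_norm, norm_e1, one_mul, one_mul]
    refine (norm_sub_le _ _).trans ?_
    rw [h.c_norm _ hb _ (bt_mem x).1 (bt_mem x).2.le, Complex.norm_real, Real.norm_eq_abs,
      abs_of_nonneg (h.A_nonneg _)]
    linarith [h.A_le (bi M x)]
  · rw [norm_zero]
    norm_num

theorem bi_neg {x : ℝ} (hx : Int.fract (2 * (M : ℝ) * x + 1 / 2) ≠ 0) :
    bi M (-x) = - bi M x := by
  unfold bi
  rw [Int.floor_eq_iff]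
  have h1 := Int.floor_le (2 * (M : ℝ) * x + 1 / 2)
  have h2 := Int.lt_floor_add_one (2 * (M : ℝ) * x + 1 / 2)
  have h3 : (⌊2 * (M : ℝ) * x + 1 / 2⌋ : ℝ) ≠ 2 * (M : ℝ) * x + 1 / 2 := by
    intro h
    apply hx
    rw [Int.fract, h, sub_self]
  have h4 := lt_of_le_of_ne h1 h3
  push_cast
  constructor <;> linarith

/-- the correction has real Fourier coefficients -/
theorem FF_neg (hM : 0 < M) (hA : ∀ i, d.A (-i) = d.A i)
    (hom : ∀ i, d.om (-i) = conj (d.om i)) (hk : ∀ i, d.kk (-i) = d.kk i)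
    (hs : ∀ i, d.s (1 - i) = - d.s i) (hr : ∀ i, d.r (-i) = d.r i)
    (hb : ∀ i, d.bad (-i) ↔ d.bad i)
    (hc : ∀ i, d.bad i → ∀ t, 0 ≤ t → t ≤ 1 → c (d.A i) (-d.s (i + 1)) (-d.s i) (d.r i) (1 - t) =
      conj (c (d.A i) (d.s i) (d.s (i + 1)) (d.r i) t))
    {x : ℝ} (hx : Int.fract (2 * (M : ℝ) * x + 1 / 2) ≠ 0) :
    FF M c d (-x) = conj (FF M c d x) := by
  unfold FF
  rw [bi_neg hx]
  have hmem := bt_mem (M := M) x
  generalize bi M x = i at hmem ⊢
  unfold GG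
  by_cases h : d.bad i
  · rw [if_pos h, if_pos ((hb i).2 h), hA, hom, hk, hr]
    have h1 : d.s (-i) = - d.s (i + 1) := by
      rw [show -i = 1 - (i + 1) by ring, hs]
    have h2 : d.s (-i + 1) = - d.s i := by
      rw [show -i + 1 = 1 - i by ring, hs]
    have h3 : 2 * (M : ℝ) * (-x) + 1 / 2 - ((-i : ℤ) : ℝ) =
        1 - (2 * (M : ℝ) * x + 1 / 2 - i) := by
      push_cast
      ring
    have h4 : (d.kk i : ℝ) * (-x - ((-i : ℤ) : ℝ) / (2 * M)) =
        -((d.kk i : ℝ) * (x - (i : ℝ) / (2 * M))) := by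
      push_cast
      ring
    rw [h1, h2, h3, h4, hc i h _ hmem.1 hmem.2.le, e1_neg, map_mul, map_mul, map_sub,
      Complex.conj_ofReal]
  · rw [if_neg h, if_neg (fun h' => h ((hb i).1 h')), map_zero]

end Vale.Agent.P110T
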