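import Mathlib
import Vale.Agent.Lib.P110T.TF
import Vale.Agent.Lib.P110T.Blk

/-!
P110T: folding. Data on the blocks `0, ..., M` of the half circle are extended to all blocks.
-/

namespace Vale.Agent.P110T

open MeasureTheory Vale.Agent.P110F
open scoped ComplexConjugate

/-- residue modulo `2 M` -/
def rs (M : ℕ) (i : ℤ) : ℕ := (i % (2 * M : ℤ)).toNat

/-- folded index -/
def fo (M : ℕ) (i : ℤ) : ℕ := if rs M i ≤ M then rs M i else 2 * M - rs M i

/-- the extended data -/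
noncomputable def mkTD (M : ℕ) (A : ℕ → ℝ) (om : ℕ → ℂ) (kk : ℕ → ℤ) (bad : ℕ → Prop)
    (s : ℕ → ℝ) (r : ℕ → Bool) : TD where
  A i := A (fo M i)
  om i := if rs M i ≤ M then om (rs M i) else conj (om (2 * M - rs M i))
  kk i := kk (fo M i)
  s i := if rs M i = 0 then - s 1 else if rs M i ≤ M then s (rs M i) else - s (2 * M + 1 - rs M i)
  r i := r (fo M i)
  bad i := bad (fo M i)

theorem rs_eq {M : ℕ} {i q : ℤ} {m : ℕ} (hm : m < 2 * M) (h : i = q * (2 * M) + m) :
    rs M i = m := by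
  unfold rs
  have h1 : i % (2 * M : ℤ) = m := by
    rw [h, add_comm, Int.add_mul_emod_self_right]
    exact Int.emod_eq_of_lt (by positivity) (by exact_mod_cast hm)
  rw [h1]
  simp

theorem rs_spec {M : ℕ} (hM : 0 < M) (i : ℤ) : ∃ q : ℤ, i = q * (2 * M) + rs M i ∧
    rs M i < 2 * M := by
  have h0 : (0 : ℤ) < 2 * M := by exact_mod_cast (by omega : 0 < 2 * M)
  have h1 := Int.emod_nonneg i h0.ne'
  have h2 := Int.emod_lt_of_pos i h0
  have h3 : ((rs M i : ℕ) : ℤ) = i % (2 * M : ℤ) := by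
    unfold rs
    exact Int.toNat_of_nonneg h1
  refine ⟨i / (2 * M), ?_, ?_⟩
  · rw [h3]
    have := Int.mul_ediv_add_emod i (2 * M)
    linarith [mul_comm (2 * (M : ℤ)) (i / (2 * M))]
  · have : ((rs M i : ℕ) : ℤ) < 2 * M := by rw [h3]; exact h2
    exact_mod_cast this

theorem rs_add {M : ℕ} (hM : 0 < M) (i : ℤ) : rs M (i + 2 * M) = rs M i := by
  obtain ⟨q, hq, hm⟩ := rs_spec hM i
  exact rs_eq (q := q + 1) hm (by linarith)

theorem rs_neg {M : ℕ} (hM : 0 < M) (i : ℤ) :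
    rs M (-i) = if rs M i = 0 then 0 else 2 * M - rs M i := by
  obtain ⟨q, hq, hm⟩ := rs_spec hM i
  split_ifs with h
  · exact rs_eq (q := -q) (by omega) (by rw [h] at hq; push_cast at hq ⊢; linarith)
  · refine rs_eq (q := -q - 1) (by omega) ?_
    rw [Nat.cast_sub hm.le]
    push_cast
    linarith

theorem rs_one_sub {M : ℕ} (hM : 0 < M) (i : ℤ) :
    rs M (1 - i) = if rs M i = 0 then 1 else if rs M i = 1 then 0 else 2 * M + 1 - rs M i := by
  obtain ⟨q, hq, hm⟩ := rs_spec hM i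
  split_ifs with h h'
  · exact rs_eq (q := -q) (by omega) (by rw [h] at hq; push_cast at hq ⊢; linarith)
  · exact rs_eq (q := -q) (by omega) (by rw [h'] at hq; push_cast at hq ⊢; linarith)
  · refine rs_eq (q := -q - 1) (by omega) ?_
    rw [Nat.cast_sub (by omega)]
    push_cast
    linarith

theorem rs_succ {M : ℕ} (hM : 0 < M) (i : ℤ) :
    rs M (i + 1) = if rs M i + 1 = 2 * M then 0 else rs M i + 1 := by
  obtain ⟨q, hq, hm⟩ := rs_spec hM i
  split_ifs with h
  · have h' : ((rs M i : ℕ) : ℤ) + 1 = 2 * M := by exact_mod_cast h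
    exact rs_eq (q := q + 1) (by omega) (by push_cast; linarith)
  · exact rs_eq (q := q) (by omega) (by push_cast; linarith)

theorem fo_le {M : ℕ} (hM : 0 < M) (i : ℤ) : fo M i ≤ M := by
  obtain ⟨q, hq, hm⟩ := rs_spec hM i
  unfold fo
  split_ifs <;> omega

theorem fo_add {M : ℕ} (hM : 0 < M) (i : ℤ) : fo M (i + 2 * M) = fo M i := by
  unfold fo
  rw [rs_add hM]

theorem fo_neg {M : ℕ} (hM : 0 < M) (i : ℤ) : fo M (-i) = fo M i := by
  obtain ⟨q, hq, hm⟩ := rs_spec hM i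
  unfold fo
  rw [rs_neg hM]
  by_cases h : rs M i = 0
  · simp [h]
  · simp only [h, if_false]
    split_ifs <;> omega

/-- neighbours fold to neighbours -/
theorem fo_nb {M : ℕ} (hM : 0 < M) (i : ℤ) : ∃ j < M,
    (rs M i = j ∧ rs M (i + 1) = j + 1) ∨
    (rs M i = 2 * M - (j + 1) ∧ M ≤ rs M i ∧ rs M (i + 1) = if j = 0 then 0 else 2 * M - j) := by
  obtain ⟨q, hq, hm⟩ := rs_spec hM i
  rw [rs_succ hM]
  by_cases h : rs M i < M
  · exact ⟨rs M i, h, Or.inl ⟨rfl, if_neg (by omega)⟩⟩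
  · refine ⟨2 * M - (rs M i + 1), by omega, Or.inr ⟨by omega, by omega, ?_⟩⟩
    split_ifs <;> omega

section

variable {M : ℕ} {A : ℕ → ℝ} {om : ℕ → ℂ} {kk : ℕ → ℤ} {bad : ℕ → Prop} {s : ℕ → ℝ}
  {r : ℕ → Bool}

theorem fo_nat {i : ℕ} (hM : 0 < M) (hi : i ≤ M) : fo M (i : ℤ) = i := by
  have : rs M (i : ℤ) = i := rs_eq (q := 0) (by omega) (by simp)
  unfold fo
  rw [this, if_pos hi]

theorem rs_nat {i : ℕ} (hi : i < 2 * M) : rs M (i : ℤ) = i := rs_eq (q := 0) hi (by simp)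

theorem mkTD_A_add (hM : 0 < M) (i : ℤ) : (mkTD M A om kk bad s r).A (i + 2 * M) =
    (mkTD M A om kk bad s r).A i := by
  simp only [mkTD, fo_add hM]

theorem mkTD_om_add (hM : 0 < M) (i : ℤ) : (mkTD M A om kk bad s r).om (i + 2 * M) =
    (mkTD M A om kk bad s r).om i := by
  simp only [mkTD, rs_add hM]

theorem mkTD_kk_add (hM : 0 < M) (i : ℤ) : (mkTD M A om kk bad s r).kk (i + 2 * M) =
    (mkTD M A om kk bad s r).kk i := by
  simp only [mkTD, fo_add hM]

theorem mkTD_s_add (hM : 0 < M) (i : ℤ) : (mkTD M A om kk bad s r).s (i + 2 * M) =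
    (mkTD M A om kk bad s r).s i := by
  simp only [mkTD, rs_add hM]

theorem mkTD_r_add (hM : 0 < M) (i : ℤ) : (mkTD M A om kk bad s r).r (i + 2 * M) =
    (mkTD M A om kk bad s r).r i := by
  simp only [mkTD, fo_add hM]

theorem mkTD_bad_add (hM : 0 < M) (i : ℤ) : (mkTD M A om kk bad s r).bad (i + 2 * M) ↔
    (mkTD M A om kk bad s r).bad i := by
  simp only [mkTD, fo_add hM]

theorem mkTD_A_neg (hM : 0 < M) (i : ℤ) : (mkTD M A om kk bad s r).A (-i) =
    (mkTD M A om kk bad s r).A i := by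
  simp only [mkTD, fo_neg hM]

theorem mkTD_kk_neg (hM : 0 < M) (i : ℤ) : (mkTD M A om kk bad s r).kk (-i) =
    (mkTD M A om kk bad s r).kk i := by
  simp only [mkTD, fo_neg hM]

theorem mkTD_r_neg (hM : 0 < M) (i : ℤ) : (mkTD M A om kk bad s r).r (-i) =
    (mkTD M A om kk bad s r).r i := by
  simp only [mkTD, fo_neg hM]

theorem mkTD_bad_neg (hM : 0 < M) (i : ℤ) : (mkTD M A om kk bad s r).bad (-i) ↔
    (mkTD M A om kk bad s r).bad i := by
  simp only [mkTD, fo_neg hM]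

theorem conj_of_im {z : ℂ} (h : z.im = 0) : conj z = z := by
  apply Complex.ext
  · simp
  · simp [h]

theorem mkTD_om_neg (hM : 0 < M) (h0 : (om 0).im = 0) (hMr : (om M).im = 0) (i : ℤ) :
    (mkTD M A om kk bad s r).om (-i) = conj ((mkTD M A om kk bad s r).om i) := by
  obtain ⟨q, hq, hm⟩ := rs_spec hM i
  simp only [mkTD, rs_neg hM]
  by_cases h : rs M i = 0
  · simp [h, conj_of_im h0]
  · simp only [h, if_false]
    by_cases h1 : rs M i < M
    · rw [if_neg (by omega), if_pos h1.le, show 2 * M - (2 * M - rs M i) = rs M i by omega]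
    · by_cases h2 : rs M i = M
      · rw [h2, if_pos (by omega), if_pos le_rfl, show 2 * M - M = M by omega, conj_of_im hMr]
      · rw [if_pos (by omega), if_neg (by omega), Complex.conj_conj]

theorem mkTD_s_one_sub (hM : 0 < M) (i : ℤ) : (mkTD M A om kk bad s r).s (1 - i) =
    - (mkTD M A om kk bad s r).s i := by
  obtain ⟨q, hq, hm⟩ := rs_spec hM i
  simp only [mkTD, rs_one_sub hM]
  by_cases h : rs M i = 0
  · simp [h, show 1 ≤ M by omega]
  · by_cases h1 : rs M i = 1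
    · simp [h1, show 1 ≤ M by omega]
    · simp only [h, h1, if_false]
      by_cases h2 : rs M i ≤ M
      · rw [if_neg (by omega), if_neg (by omega), if_pos h2,
          show 2 * M + 1 - (2 * M + 1 - rs M i) = rs M i by omega]
      · rw [if_neg (by omega), if_pos (by omega), if_neg h2, neg_neg]

theorem mkTD_om_norm (hM : 0 < M) (h : ∀ i ≤ M, ‖om i‖ = 1) (i : ℤ) :
    ‖(mkTD M A om kk bad s r).om i‖ = 1 := by
  obtain ⟨q, hq, hm⟩ := rs_spec hM i
  simp only [mkTD]
  split_ifs with h1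
  · exact h _ h1
  · rw [Complex.norm_conj]
    exact h _ (by omega)

theorem mkTD_s_one (hM : 0 < M) (h : ∀ i, s i = 1 ∨ s i = -1) (i : ℤ) :
    (mkTD M A om kk bad s r).s i = 1 ∨ (mkTD M A om kk bad s r).s i = -1 := by
  simp only [mkTD]
  split_ifs
  · rcases h 1 with h | h <;> simp [h]
  · exact h _
  · rcases h (2 * M + 1 - rs M i) with h | h <;> simp [h]

/-- a property of all folded data -/
theorem mkTD_all (hM : 0 < M) {P : ℝ → ℤ → Bool → Prop → Prop}
    (h : ∀ i ≤ M, P (A i) (kk i) (r i) (bad i)) (i : ℤ) :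
    P ((mkTD M A om kk bad s r).A i) ((mkTD M A om kk bad s r).kk i)
      ((mkTD M A om kk bad s r).r i) ((mkTD M A om kk bad s r).bad i) :=
  h _ (fo_le hM i)

theorem fo_nb' (hM : 0 < M) (i : ℤ) : ∃ j < M, (fo M i = j ∧ fo M (i + 1) = j + 1) ∨
    (fo M i = j + 1 ∧ fo M (i + 1) = j) := by
  obtain ⟨j, hj, h | h⟩ := fo_nb hM i
  · refine ⟨j, hj, Or.inl ?_⟩
    unfold fo
    rw [h.1, h.2]
    constructor <;> rw [if_pos (by omega)]
  · refine ⟨j, hj, Or.inr ?_⟩
    unfold fo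
    rw [h.2.2, h.1]
    constructor
    · split_ifs <;> omega
    · by_cases hj0 : j = 0
      · simp [hj0]
      · simp only [hj0, if_false]
        split_ifs <;> omega

theorem mkTD_A_succ (hM : 0 < M) {e : ℝ} (h : ∀ i < M, |A (i + 1) - A i| ≤ e) (i : ℤ) :
    |(mkTD M A om kk bad s r).A (i + 1) - (mkTD M A om kk bad s r).A i| ≤ e := by
  simp only [mkTD]
  obtain ⟨j, hj, h' | h'⟩ := fo_nb' hM i
  · rw [h'.1, h'.2]
    exact h j hj
  · rw [h'.1, h'.2, abs_sub_comm]
    exact h j hj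

theorem mkTD_kk_succ (hM : 0 < M) {D : ℝ} (h : ∀ i < M, |(kk (i + 1) : ℝ) - kk i| ≤ D) (i : ℤ) :
    |((mkTD M A om kk bad s r).kk (i + 1) : ℝ) - (mkTD M A om kk bad s r).kk i| ≤ D := by
  simp only [mkTD]
  obtain ⟨j, hj, h' | h'⟩ := fo_nb' hM i
  · rw [h'.1, h'.2]
    exact h j hj
  · rw [h'.1, h'.2, abs_sub_comm]
    exact h j hj

theorem norm_e1_sub_e1 (x y : ℝ) : ‖e1 x - e1 y‖ ≤ 2 * Real.pi * |x - y| := by
  have h1 : e1 x - e1 y = e1 y * (e1 (x - y) - 1) := by
    rw [mul_sub, ← e1_add, mul_one]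
    congr 2
    ring
  rw [h1, norm_mul, norm_e1, one_mul]
  unfold e1
  have h2 : (2 * Real.pi * Complex.I * ((x - y : ℝ) : ℂ) : ℂ) =
      Complex.I * ((2 * Real.pi * (x - y) : ℝ) : ℂ) := by
    push_cast
    ring
  rw [h2]
  refine (Real.norm_exp_I_mul_ofReal_sub_one_le).trans ?_
  rw [Real.norm_eq_abs, abs_mul, abs_of_pos (by positivity : (0 : ℝ) < 2 * Real.pi)]

theorem mkTD_om_succ (hM : 0 < M) (h0 : (om 0).im = 0) (hMr : (om M).im = 0)
    (hn : ∀ i ≤ M, ‖om i‖ = 1) {e D : ℝ}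
    (hD : ∀ i < M, |(kk (i + 1) : ℝ) - kk i| ≤ D)
    (h : ∀ i < M, ‖om (i + 1) - om i * e1 ((kk i : ℝ) / (2 * M))‖ ≤ e) (i : ℤ) :
    ‖(mkTD M A om kk bad s r).om (i + 1) - (mkTD M A om kk bad s r).om i *
      e1 (((mkTD M A om kk bad s r).kk i : ℝ) / (2 * M))‖ ≤ e + Real.pi * D / M := by
  have hM' : (0 : ℝ) < M := by exact_mod_cast hM
  have hD0 : 0 ≤ D := (abs_nonneg _).trans (hD 0 hM)
  have hpi : 0 ≤ Real.pi * D / M := by positivity
  obtain ⟨j, hj, h' | h'⟩ := fo_nb hM i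
  · have h1 : fo M i = j := by
      unfold fo
      rw [h'.1, if_pos (by omega)]
    simp only [mkTD]
    rw [h'.1, h'.2, if_pos (by omega), if_pos (by omega), h1]
    linarith [h j hj]
  · have h1 : fo M i = j + 1 := by
      unfold fo
      rw [h'.1]
      split_ifs <;> omega
    have h2 : (mkTD M A om kk bad s r).om i = conj (om (j + 1)) := by
      simp only [mkTD]
      by_cases hh : rs M i ≤ M
      · have h3 : rs M i = M := le_antisymm hh h'.2.1
        have h4 : j + 1 = M := by omega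
        rw [if_pos hh, h3, h4, conj_of_im hMr]
      · rw [if_neg hh, show 2 * M - rs M i = j + 1 by omega]
    have h3 : (mkTD M A om kk bad s r).om (i + 1) = conj (om j) := by
      simp only [mkTD]
      rw [h'.2.2]
      by_cases hj0 : j = 0
      · simp [hj0, conj_of_im h0]
      · simp only [hj0, if_false]
        rw [if_neg (by omega), show 2 * M - (2 * M - j) = j by omega]
    have h4 : (mkTD M A om kk bad s r).kk i = kk (j + 1) := by
      simp only [mkTD]
      rw [h1]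
    rw [h2, h3, h4]
    have h5 : conj (om j) - conj (om (j + 1)) * e1 ((kk (j + 1) : ℝ) / (2 * M)) =
        conj (-((om (j + 1) - om j * e1 ((kk j : ℝ) / (2 * M))) + om j *
          (e1 ((kk j : ℝ) / (2 * M)) - e1 ((kk (j + 1) : ℝ) / (2 * M)))) *
          e1 (-((kk (j + 1) : ℝ) / (2 * M)))) := by
      have h6 : e1 ((kk (j + 1) : ℝ) / (2 * M)) * e1 (-((kk (j + 1) : ℝ) / (2 * M))) = 1 := by
        rw [← e1_add, add_neg_cancel, e1_zero]
      have h7 : conj (e1 (-((kk (j + 1) : ℝ) / (2 * M)))) = e1 ((kk (j + 1) : ℝ) / (2 * M)) := by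
        rw [← e1_neg, neg_neg]
      have h8 : -((om (j + 1) - om j * e1 ((kk j : ℝ) / (2 * M))) + om j *
          (e1 ((kk j : ℝ) / (2 * M)) - e1 ((kk (j + 1) : ℝ) / (2 * M)))) *
          e1 (-((kk (j + 1) : ℝ) / (2 * M))) = om j *
          (e1 ((kk (j + 1) : ℝ) / (2 * M)) * e1 (-((kk (j + 1) : ℝ) / (2 * M)))) - om (j + 1) *
            e1 (-((kk (j + 1) : ℝ) / (2 * M))) := by ring
      rw [h8, h6, mul_one, map_sub, map_mul, h7]
    rw [h5, Complex.norm_conj, norm_mul, norm_e1, mul_one, norm_neg]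
    refine (norm_add_le _ _).trans ?_
    rw [norm_mul, hn j hj.le, one_mul]
    refine add_le_add (h j hj) ((norm_e1_sub_e1 _ _).trans ?_)
    rw [← sub_div, abs_div, abs_of_pos (by positivity : (0 : ℝ) < 2 * M), abs_sub_comm]
    have := hD j hj
    calc 2 * Real.pi * (|(kk (j + 1) : ℝ) - kk j| / (2 * M)) ≤ 2 * Real.pi * (D / (2 * M)) := by
          gcongr
      _ = Real.pi * D / M := by field_simp

end

end Vale.Agent.P110T
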