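import Mathlib
import Vale.Agent.Lib.P110T.Ext

/-!
P110T: the Fourier coefficients of the correction, as sums over the blocks.
-/

namespace Vale.Agent.P110T

open MeasureTheory Vale.Agent.P110F
open scoped ComplexConjugate

/-- left end of block `i` -/
noncomputable def nd (M : ℕ) (i : ℤ) : ℝ := ((i : ℝ) - 1 / 2) / (2 * M)

/-- the integral over one block, for an arbitrary amplitude function -/
noncomputable def KK (M : ℕ) (ω : ℂ) (κ : ℤ) (f : ℝ → ℂ) (i : ℤ) (k : ℤ) : ℂ :=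
  ∫ x in nd M i..nd M (i + 1), ω * e1 ((κ : ℝ) * (x - (i : ℝ) / (2 * M))) *
    f (2 * (M : ℝ) * x + 1 / 2 - i) * e1 (-((k : ℝ) * x))

/-- left sign -/
noncomputable def sl (s : ℕ → ℝ) (i : ℕ) : ℝ := if i = 0 then - s 1 else s i

/-- right sign -/
noncomputable def sr (M : ℕ) (s : ℕ → ℝ) (i : ℕ) : ℝ := if i = M then - s M else s (i + 1)

/-- multiplicity of a block -/
noncomputable def wgt (M i : ℕ) : ℝ := if i = 0 ∨ i = M then 1 else 2

/-- contribution of block `i` to the coefficient `k` -/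
noncomputable def Fk (M : ℕ) (A : ℕ → ℝ) (om : ℕ → ℂ) (kk : ℕ → ℤ) (k : ℤ) (i : ℕ) (s : ℕ → ℝ)
    (r : Bool) : ℝ :=
  wgt M i * (KK M (om i) (kk i) (fun t => cB (A i) (sl s i) (sr M s i) r t - A i) i k).re

theorem nd_succ_sub {M : ℕ} (hM : 0 < M) (i : ℤ) : nd M (i + 1) - nd M i = 1 / (2 * M) := by
  have hM' : (M : ℝ) ≠ 0 := by exact_mod_cast hM.ne'
  unfold nd
  push_cast
  field_simp
  ring

theorem nd_le {M : ℕ} (hM : 0 < M) (i : ℤ) : nd M i ≤ nd M (i + 1) := by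
  have := nd_succ_sub hM i
  have h2 : (0 : ℝ) ≤ 1 / (2 * M) := by positivity
  linarith

theorem bi_of_mem {M : ℕ} (hM : 0 < M) {i : ℤ} {x : ℝ} (h1 : nd M i ≤ x) (h2 : x < nd M (i + 1)) :
    bi M x = i := by
  have hM' : (0 : ℝ) < M := by exact_mod_cast hM
  unfold bi
  unfold nd at h1 h2
  rw [div_le_iff₀ (by positivity)] at h1
  rw [lt_div_iff₀ (by positivity)] at h2
  push_cast at h2
  rw [Int.floor_eq_iff]
  constructor <;> nlinarith

theorem t_mem {M : ℕ} (hM : 0 < M) {i : ℤ} {x : ℝ} (h1 : nd M i ≤ x) (h2 : x ≤ nd M (i + 1)) :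
    0 ≤ 2 * (M : ℝ) * x + 1 / 2 - i ∧ 2 * (M : ℝ) * x + 1 / 2 - i ≤ 1 := by
  have hM' : (0 : ℝ) < M := by exact_mod_cast hM
  unfold nd at h1 h2
  rw [div_le_iff₀ (by positivity)] at h1
  rw [le_div_iff₀ (by positivity)] at h2
  push_cast at h2
  constructor <;> nlinarith

theorem continuous_kk {M : ℕ} {ω : ℂ} {κ : ℤ} {f : ℝ → ℂ} (hf : Continuous f) (i k : ℤ) :
    Continuous fun x : ℝ => ω * e1 ((κ : ℝ) * (x - (i : ℝ) / (2 * M))) *
    f (2 * (M : ℝ) * x + 1 / 2 - i) * e1 (-((k : ℝ) * x)) := by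
  have := continuous_e1
  fun_prop

theorem norm_KK_le {M : ℕ} (hM : 0 < M) {ω : ℂ} (hω : ‖ω‖ = 1) {κ : ℤ} {f : ℝ → ℂ} {B : ℝ}
    (hf : ∀ t, 0 ≤ t → t ≤ 1 → ‖f t‖ ≤ B) (i k : ℤ) : ‖KK M ω κ f i k‖ ≤ B / (2 * M) := by
  unfold KK
  have h1 : ∀ x ∈ Set.uIoc (nd M i) (nd M (i + 1)),
      ‖ω * e1 ((κ : ℝ) * (x - (i : ℝ) / (2 * M))) *
        f (2 * (M : ℝ) * x + 1 / 2 - i) * e1 (-((k : ℝ) * x))‖ ≤ B := by
    intro x hx
    rw [Set.uIoc_of_le (nd_le hM i)] at hx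
    rw [norm_mul, norm_mul, norm_mul, hω, norm_e1, norm_e1, one_mul, one_mul, mul_one]
    obtain ⟨h2, h3⟩ := t_mem hM hx.1.le hx.2
    exact hf _ h2 h3
  refine (intervalIntegral.norm_integral_le_of_norm_le_const h1).trans ?_
  rw [nd_succ_sub hM, abs_of_nonneg (by positivity)]
  apply le_of_eq
  ring

theorem KK_add {M : ℕ} {ω : ℂ} {κ : ℤ} {f g : ℝ → ℂ} (hf : Continuous f) (hg : Continuous g)
    (a b : ℂ) (i k : ℤ) : KK M ω κ (fun t => a * f t + b * g t) i k =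
      a * KK M ω κ f i k + b * KK M ω κ g i k := by
  unfold KK
  rw [← intervalIntegral.integral_const_mul, ← intervalIntegral.integral_const_mul,
    ← intervalIntegral.integral_add]
  · congr 1
    ext x
    ring
  · exact ((continuous_kk hf i k).const_mul a).intervalIntegrable _ _
  · exact ((continuous_kk hg i k).const_mul b).intervalIntegrable _ _

/-- amplitude of the left sign -/
noncomputable def uu (A t : ℝ) : ℂ :=
  (((Real.sqrt (1 - A ^ 2) + Real.cos (Real.pi * t) * WB A t) / 2 : ℝ) : ℂ) * Complex.I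

/-- amplitude of the right sign -/
noncomputable def vv (A t : ℝ) : ℂ :=
  (((Real.sqrt (1 - A ^ 2) - Real.cos (Real.pi * t) * WB A t) / 2 : ℝ) : ℂ) * Complex.I

theorem continuous_WB (A : ℝ) : Continuous (WB A) := by
  have h1 := continuous_qB A true
  have h2 := continuous_qB A false
  unfold WB
  fun_prop

theorem continuous_uu (A : ℝ) : Continuous (uu A) := by
  have := continuous_WB A
  unfold uu
  fun_prop

theorem continuous_vv (A : ℝ) : Continuous (vv A) := by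
  have := continuous_WB A
  unfold vv
  fun_prop

theorem abs_WB_le {A : ℝ} (h0 : 0 ≤ A) (h1 : A ≤ 1) (t : ℝ) : |WB A t| ≤ 2 := by
  unfold WB
  have h2 := abs_qB_le h0 h1 true t
  have h3 := abs_qB_le h0 h1 false t
  refine (abs_add_le _ _).trans ?_
  rw [abs_mul, abs_mul, abs_of_nonneg (by linarith : (0 : ℝ) ≤ (1 + A) / 2),
    abs_of_nonneg (by linarith : (0 : ℝ) ≤ (1 - A) / 2)]
  nlinarith

theorem abs_cos_WB_le {A : ℝ} (h0 : 0 ≤ A) (h1 : A ≤ 1) (t : ℝ) :
    |Real.cos (Real.pi * t) * WB A t| ≤ 2 := by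
  rw [abs_mul]
  have h2 := abs_WB_le h0 h1 t
  have h3 := Real.abs_cos_le_one (Real.pi * t)
  nlinarith [abs_nonneg (WB A t), abs_nonneg (Real.cos (Real.pi * t))]

theorem sqrt_le_one' {A : ℝ} : Real.sqrt (1 - A ^ 2) ≤ 1 := by
  rw [Real.sqrt_le_one]
  nlinarith [sq_nonneg A]

theorem norm_uu_le {A : ℝ} (h0 : 0 ≤ A) (h1 : A ≤ 1) (t : ℝ) : ‖uu A t‖ ≤ 3 / 2 := by
  unfold uu
  rw [norm_mul, Complex.norm_I, mul_one, Complex.norm_real, Real.norm_eq_abs]
  have h2 := abs_le.1 (abs_cos_WB_le h0 h1 t)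
  have h3 := Real.sqrt_nonneg (1 - A ^ 2)
  have h4 := sqrt_le_one' (A := A)
  rw [abs_le]
  constructor <;> linarith

theorem norm_vv_le {A : ℝ} (h0 : 0 ≤ A) (h1 : A ≤ 1) (t : ℝ) : ‖vv A t‖ ≤ 3 / 2 := by
  unfold vv
  rw [norm_mul, Complex.norm_I, mul_one, Complex.norm_real, Real.norm_eq_abs]
  have h2 := abs_le.1 (abs_cos_WB_le h0 h1 t)
  have h3 := Real.sqrt_nonneg (1 - A ^ 2)
  have h4 := sqrt_le_one' (A := A)
  rw [abs_le]
  constructor <;> linarith

/-- the mean over the two options -/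
theorem mean_KK {M : ℕ} {ω : ℂ} {κ : ℤ} (A s s' : ℝ) (i k : ℤ) :
    (((1 + A) / 2 : ℝ) : ℂ) * KK M ω κ (fun t => cB A s s' true t - A) i k +
      (((1 - A) / 2 : ℝ) : ℂ) * KK M ω κ (fun t => cB A s s' false t - A) i k =
      (s : ℂ) * KK M ω κ (uu A) i k + (s' : ℂ) * KK M ω κ (vv A) i k := by
  rw [← KK_add (f := fun t => cB A s s' true t - A) (g := fun t => cB A s s' false t - A)
    ((continuous_cB A s s' true).sub continuous_const)
    ((continuous_cB A s s' false).sub continuous_const), ← KK_add (continuous_uu A)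
    (continuous_vv A)]
  congr 1
  ext t
  have h := mean_cB A s s' t
  have h2 : (((1 + A) / 2 : ℝ) : ℂ) * (cB A s s' true t - A) +
      (((1 - A) / 2 : ℝ) : ℂ) * (cB A s s' false t - A) =
      ((((1 + A) / 2 : ℝ) : ℂ) * cB A s s' true t + (((1 - A) / 2 : ℝ) : ℂ) *
        cB A s s' false t) - A := by
    push_cast
    ring
  rw [h2, h]
  unfold uu vv
  push_cast
  ring

/-- coefficient of the left sign variable -/
noncomputable def al (M : ℕ) (A : ℕ → ℝ) (om : ℕ → ℂ) (kk : ℕ → ℤ) (k : ℤ) (i : ℕ) : ℝ :=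
  if i = 0 then 0 else if i = M then
    wgt M i * ((KK M (om i) (kk i) (uu (A i)) i k).re - (KK M (om i) (kk i) (vv (A i)) i k).re)
  else wgt M i * (KK M (om i) (kk i) (uu (A i)) i k).re

/-- coefficient of the right sign variable -/
noncomputable def be (M : ℕ) (A : ℕ → ℝ) (om : ℕ → ℂ) (kk : ℕ → ℤ) (k : ℤ) (i : ℕ) : ℝ :=
  if i = 0 then
    wgt M i * ((KK M (om i) (kk i) (vv (A i)) i k).re - (KK M (om i) (kk i) (uu (A i)) i k).re)
  else if i = M then 0
  else wgt M i * (KK M (om i) (kk i) (vv (A i)) i k).re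

section

variable {M : ℕ} {A : ℕ → ℝ} {om : ℕ → ℂ} {kk : ℕ → ℤ}

/-- the mean of the contribution of a block is linear in the signs -/
theorem mean_Fk (hM : 0 < M) (k : ℤ) (i : ℕ) (s : ℕ → ℝ) :
    (1 + A i) / 2 * Fk M A om kk k i s true + (1 - (1 + A i) / 2) * Fk M A om kk k i s false =
      al M A om kk k i * s i + be M A om kk k i * s (i + 1) := by
  have h := congrArg Complex.re (mean_KK (M := M) (ω := om i) (κ := kk i) (A i) (sl s i)
    (sr M s i) i k)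
  simp only [Complex.add_re, Complex.re_ofReal_mul] at h
  have h1 : (1 + A i) / 2 * Fk M A om kk k i s true +
      (1 - (1 + A i) / 2) * Fk M A om kk k i s false = wgt M i *
      (sl s i * (KK M (om i) (kk i) (uu (A i)) i k).re +
        sr M s i * (KK M (om i) (kk i) (vv (A i)) i k).re) := by
    rw [← h]
    unfold Fk
    ring
  rw [h1]
  unfold al be sl sr
  by_cases h0 : i = 0
  · have h2 : i ≠ M := by omega
    rw [if_pos h0, if_neg h2, if_pos h0, if_pos h0, h0]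
    ring
  · by_cases h2 : i = M
    · rw [if_neg h0, if_pos h2, if_neg h0, if_pos h2, if_neg h0, if_pos h2, h2]
      ring
    · rw [if_neg h0, if_neg h2, if_neg h0, if_neg h2, if_neg h0, if_neg h2]
      ring

theorem wgt_nonneg (M i : ℕ) : 0 ≤ wgt M i := by
  unfold wgt
  split_ifs <;> norm_num

theorem wgt_le (M i : ℕ) : wgt M i ≤ 2 := by
  unfold wgt
  split_ifs <;> norm_num

theorem abs_wgt_mul_le (hM : 0 < M) {z B : ℝ} (i : ℕ) (h : |z| ≤ B / (2 * M)) (hB : B ≤ 3) :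
    |wgt M i * z| ≤ 4 / M := by
  have hM' : (0 : ℝ) < M := by exact_mod_cast hM
  rw [abs_mul, abs_of_nonneg (wgt_nonneg M i)]
  have h1 : wgt M i * |z| ≤ 2 * (B / (2 * M)) :=
    mul_le_mul (wgt_le M i) h (abs_nonneg _) (by norm_num)
  refine h1.trans ?_
  rw [mul_div_assoc', div_le_div_iff₀ (by positivity) hM']
  nlinarith

theorem abs_Fk_le (hM : 0 < M) (hA : ∀ i ≤ M, 0 ≤ A i ∧ A i ≤ 1) (hom : ∀ i ≤ M, ‖om i‖ = 1)
    {s : ℕ → ℝ} (hs : ∀ i, s i = 1 ∨ s i = -1) (k : ℤ) {i : ℕ} (hi : i ≤ M) (r : Bool) :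
    |Fk M A om kk k i s r| ≤ 4 / M := by
  unfold Fk
  refine abs_wgt_mul_le hM (B := 2) i ((Complex.abs_re_le_norm _).trans
    (norm_KK_le hM (hom i hi) ?_ _ _)) (by norm_num)
  intro t _ _
  refine (norm_sub_le _ _).trans ?_
  have h1 : sl s i = 1 ∨ sl s i = -1 := by
    unfold sl
    split_ifs
    · rcases hs 1 with h | h <;> simp [h]
    · exact hs i
  have h2 : sr M s i = 1 ∨ sr M s i = -1 := by
    unfold sr
    split_ifs
    · rcases hs M with h | h <;> simp [h]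
    · exact hs _
  rw [norm_cB (hA i hi).1 (hA i hi).2 h1 h2, Complex.norm_real, Real.norm_eq_abs,
    abs_of_nonneg (hA i hi).1]
  linarith [(hA i hi).2]

theorem abs_al_be_le (hM : 0 < M) (hA : ∀ i ≤ M, 0 ≤ A i ∧ A i ≤ 1) (hom : ∀ i ≤ M, ‖om i‖ = 1)
    (k : ℤ) {i : ℕ} (hi : i ≤ M) :
    |al M A om kk k i| ≤ 4 / M ∧ |be M A om kk k i| ≤ 4 / M := by
  have hM' : (0 : ℝ) < M := by exact_mod_cast hM
  have h1 : |(KK M (om i) (kk i) (uu (A i)) i k).re| ≤ 3 / 2 / (2 * M) :=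
    (Complex.abs_re_le_norm _).trans (norm_KK_le hM (hom i hi)
      (fun t _ _ => norm_uu_le (hA i hi).1 (hA i hi).2 t) _ _)
  have h2 : |(KK M (om i) (kk i) (vv (A i)) i k).re| ≤ 3 / 2 / (2 * M) :=
    (Complex.abs_re_le_norm _).trans (norm_KK_le hM (hom i hi)
      (fun t _ _ => norm_vv_le (hA i hi).1 (hA i hi).2 t) _ _)
  have h3 : (0 : ℝ) ≤ 4 / M := by positivity
  have h4 : (3 : ℝ) / (2 * M) = 3 / 2 / (2 * M) + 3 / 2 / (2 * M) := by ring
  unfold al be
  constructor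
  · split_ifs with h h'
    · rwa [abs_zero]
    · refine abs_wgt_mul_le hM (B := 3) i ?_ (by norm_num)
      rw [h4]
      exact (abs_sub _ _).trans (add_le_add h1 h2)
    · exact abs_wgt_mul_le hM i h1 (by norm_num)
  · split_ifs with h h'
    · refine abs_wgt_mul_le hM (B := 3) i ?_ (by norm_num)
      rw [h4]
      exact (abs_sub _ _).trans (add_le_add h2 h1)
    · rwa [abs_zero]
    · exact abs_wgt_mul_le hM i h2 (by norm_num)

end

end Vale.Agent.P110T
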