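import Mathlib
import Vale.Agent.Lib.P110T.Coef

/-!
P110T: the Fourier coefficients of the correction, as real sums over the blocks `0, ..., M`.
-/

namespace Vale.Agent.P110T

open MeasureTheory Vale.Agent.P110F
open scoped ComplexConjugate

/-- the integral over one block -/
noncomputable def Jz (M : ℕ) (d : TD) (k : ℤ) (j : ℤ) : ℂ :=
  ∫ x in nd M j..nd M (j + 1), FF M cB d x * e1 (-((k : ℝ) * x))

variable {M : ℕ} {d : TD}

theorem continuous_GG (j : ℤ) : Continuous (GG M cB d j) := by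
  unfold GG
  have h1 := continuous_e1
  have h2 := continuous_cB (d.A j) (d.s j) (d.s (j + 1)) (d.r j)
  by_cases h : d.bad j
  · simp only [if_pos h]
    fun_prop
  · simp only [if_neg h]
    exact continuous_const

theorem FF_ae (hM : 0 < M) (j : ℤ) : ∀ᵐ x ∂(volume : Measure ℝ),
    x ∈ Set.uIoc (nd M j) (nd M (j + 1)) → (nd M j < x ∧ x < nd M (j + 1)) ∧
      FF M cB d x = GG M cB d j x := by
  have h1 : ∀ᵐ x ∂(volume : Measure ℝ), x ≠ nd M (j + 1) := by
    rw [ae_iff]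
    simp
  filter_upwards [h1] with x hx hx2
  rw [Set.uIoc_of_le (nd_le hM j)] at hx2
  have h3 : x < nd M (j + 1) := lt_of_le_of_ne hx2.2 hx
  refine ⟨⟨hx2.1, h3⟩, ?_⟩
  unfold FF
  rw [bi_of_mem hM hx2.1.le h3]

theorem FF_int (hM : 0 < M) (k j : ℤ) : IntervalIntegrable
    (fun x => FF M cB d x * e1 (-((k : ℝ) * x))) volume (nd M j) (nd M (j + 1)) := by
  have h1 : IntervalIntegrable (fun x => GG M cB d j x * e1 (-((k : ℝ) * x))) volume (nd M j)
      (nd M (j + 1)) := by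
    apply Continuous.intervalIntegrable
    have := continuous_GG (M := M) (d := d) j
    have := continuous_e1
    fun_prop
  refine h1.congr_ae ?_
  rw [Filter.EventuallyEq, ae_restrict_iff' measurableSet_uIoc]
  filter_upwards [FF_ae (d := d) hM j] with x hx hx2
  rw [(hx hx2).2]

theorem Jz_eq (hM : 0 < M) (k j : ℤ) : Jz M d k j =
    ∫ x in nd M j..nd M (j + 1), GG M cB d j x * e1 (-((k : ℝ) * x)) := by
  unfold Jz
  apply intervalIntegral.integral_congr_ae
  filter_upwards [FF_ae (d := d) hM j] with x hx hx2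
  rw [(hx hx2).2]

theorem nd_add (hM : 0 < M) (j : ℤ) : nd M (j + 2 * M) = nd M j + 1 := by
  have hM' : (M : ℝ) ≠ 0 := by exact_mod_cast hM.ne'
  unfold nd
  push_cast
  field_simp
  ring

theorem nd_neg (j : ℤ) : nd M (-j) = - nd M (j + 1) := by
  unfold nd
  push_cast
  rw [← neg_div]
  congr 1
  ring

/-- periodic data -/
structure Per (M : ℕ) (d : TD) : Prop where
  A : ∀ i, d.A (i + 2 * M) = d.A i
  om : ∀ i, d.om (i + 2 * M) = d.om i
  kk : ∀ i, d.kk (i + 2 * M) = d.kk i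
  s : ∀ i, d.s (i + 2 * M) = d.s i
  r : ∀ i, d.r (i + 2 * M) = d.r i
  bad : ∀ i, d.bad (i + 2 * M) ↔ d.bad i

/-- symmetric data -/
structure Sym (d : TD) : Prop where
  A : ∀ i, d.A (-i) = d.A i
  om : ∀ i, d.om (-i) = conj (d.om i)
  kk : ∀ i, d.kk (-i) = d.kk i
  s : ∀ i, d.s (1 - i) = - d.s i
  r : ∀ i, d.r (-i) = d.r i
  bad : ∀ i, d.bad (-i) ↔ d.bad i

theorem FF_per (hM : 0 < M) (h : Per M d) (x : ℝ) : FF M cB d (x + 1) = FF M cB d x :=
  FF_add_one hM h.A h.om h.kk h.s h.r h.bad x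

theorem FF_sym (hM : 0 < M) (h : Sym d) {x : ℝ} (hx : Int.fract (2 * (M : ℝ) * x + 1 / 2) ≠ 0) :
    FF M cB d (-x) = conj (FF M cB d x) :=
  FF_neg hM h.A h.om h.kk h.s h.r h.bad (fun _ _ _ _ _ => cB_rev _ _ _ _ _) hx

theorem ek_add (k : ℤ) (x : ℝ) : e1 (-((k : ℝ) * (x + 1))) = e1 (-((k : ℝ) * x)) := by
  rw [show -((k : ℝ) * (x + 1)) = -((k : ℝ) * x) + ((-k : ℤ) : ℝ) by push_cast; ring, e1_add,
    e1_int, mul_one]

theorem Jz_add (hM : 0 < M) (h : Per M d) (k j : ℤ) : Jz M d k (j + 2 * M) = Jz M d k j := by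
  unfold Jz
  rw [show j + 2 * (M : ℤ) + 1 = (j + 1) + 2 * M by ring, nd_add hM, nd_add hM,
    ← intervalIntegral.integral_comp_add_right]
  congr 1
  ext x
  rw [FF_per hM h, ek_add]

theorem conj_intervalIntegral (f : ℝ → ℂ) (a b : ℝ) :
    conj (∫ x in a..b, f x) = ∫ x in a..b, conj (f x) := by
  rw [intervalIntegral.intervalIntegral_eq_integral_uIoc,
    intervalIntegral.intervalIntegral_eq_integral_uIoc, integral_conj]
  split_ifs <;> simp

theorem Jz_neg (hM : 0 < M) (h : Sym d) (k j : ℤ) : Jz M d k (-j) = conj (Jz M d k j) := by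
  unfold Jz
  rw [conj_intervalIntegral, show -j + 1 = -(j - 1) by ring, nd_neg, nd_neg,
    show j - 1 + 1 = j by ring, ← intervalIntegral.integral_comp_neg]
  apply intervalIntegral.integral_congr_ae
  filter_upwards [FF_ae (d := d) hM j] with x hx hx2
  obtain ⟨⟨h1, h2⟩, h3⟩ := hx hx2
  have hfr : Int.fract (2 * (M : ℝ) * x + 1 / 2) ≠ 0 := by
    have hb := bi_of_mem hM h1.le h2
    unfold bi at hb
    rw [Int.fract, hb]
    have hM' : (0 : ℝ) < M := by exact_mod_cast hM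
    unfold nd at h1
    rw [div_lt_iff₀ (by positivity)] at h1
    nlinarith
  rw [FF_sym hM h hfr, map_mul, mul_neg, ← e1_neg]

theorem sum_Jz (hM : 0 < M) (hp : Per M d) (hs : Sym d) (k : ℤ) :
    ∑ j ∈ Finset.range (2 * M), Jz M d k (j : ℤ) =
      ((∑ i ∈ Finset.range (M + 1), wgt M i * (Jz M d k (i : ℤ)).re : ℝ) : ℂ) := by
  have hreal : ∀ z : ℂ, z = conj z → z = ((z.re : ℝ) : ℂ) := fun z hz =>
    (Complex.conj_eq_iff_re.1 hz.symm).symm
  have h0 : Jz M d k 0 = (((Jz M d k 0).re : ℝ) : ℂ) := by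
    apply hreal
    have := Jz_neg hM hs k 0
    rwa [neg_zero] at this
  have hMr : Jz M d k (M : ℤ) = (((Jz M d k (M : ℤ)).re : ℝ) : ℂ) := by
    apply hreal
    rw [← Jz_neg hM hs, ← Jz_add hM hp k (-(M : ℤ))]
    congr 1
    ring
  obtain ⟨n, rfl⟩ : ∃ n, M = n + 1 := ⟨M - 1, by omega⟩
  have h1 : ∀ j ∈ Finset.range n, Jz (n + 1) d k ((n + 2 + (n - 1 - j) : ℕ) : ℤ) =
      conj (Jz (n + 1) d k ((j + 1 : ℕ) : ℤ)) := by
    intro j hj
    rw [Finset.mem_range] at hj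
    rw [← Jz_neg hM hs, ← Jz_add hM hp k (-((j + 1 : ℕ) : ℤ))]
    congr 1
    omega
  have h2 : ∑ j ∈ Finset.range n, Jz (n + 1) d k ((n + 2 + j : ℕ) : ℤ) =
      ∑ j ∈ Finset.range n, conj (Jz (n + 1) d k ((j + 1 : ℕ) : ℤ)) := by
    rw [← Finset.sum_range_reflect]
    exact Finset.sum_congr rfl h1
  rw [show 2 * (n + 1) = (n + 2) + n by ring, Finset.sum_range_add, h2, Finset.sum_range_succ,
    Finset.sum_range_succ', Finset.sum_range_succ, Finset.sum_range_succ']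
  have h3 : wgt (n + 1) 0 = 1 := by simp [wgt]
  have h4 : wgt (n + 1) (n + 1) = 1 := by simp [wgt]
  have h5 : ∀ j ∈ Finset.range n, wgt (n + 1) (j + 1) * (Jz (n + 1) d k ((j + 1 : ℕ) : ℤ)).re =
      2 * (Jz (n + 1) d k ((j + 1 : ℕ) : ℤ)).re := by
    intro j hj
    rw [Finset.mem_range] at hj
    unfold wgt
    rw [if_neg (by omega)]
  rw [h3, h4, Finset.sum_congr rfl h5]
  have h6 : ∑ j ∈ Finset.range n, Jz (n + 1) d k ((j + 1 : ℕ) : ℤ) +
      ∑ j ∈ Finset.range n, conj (Jz (n + 1) d k ((j + 1 : ℕ) : ℤ)) =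
      ((∑ j ∈ Finset.range n, 2 * (Jz (n + 1) d k ((j + 1 : ℕ) : ℤ)).re : ℝ) : ℂ) := by
    rw [← Finset.sum_add_distrib]
    push_cast
    refine Finset.sum_congr rfl fun j _ => ?_
    rw [Complex.add_conj]
    push_cast
    ring
  have h7 : Jz (n + 1) d k ((0 : ℕ) : ℤ) = (((Jz (n + 1) d k ((0 : ℕ) : ℤ)).re : ℝ) : ℂ) := by
    exact_mod_cast h0
  push_cast at h6 h7 hMr ⊢
  rw [one_mul, one_mul]
  linear_combination h6 + h7 + hMr

theorem integral_FF (hM : 0 < M) (hp : Per M d) (k : ℤ) :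
    ∫ x in (0 : ℝ)..1, FF M cB d x * e1 (-((k : ℝ) * x)) =
      ∑ j ∈ Finset.range (2 * M), Jz M d k (j : ℤ) := by
  have hper : Function.Periodic (fun x => FF M cB d x * e1 (-((k : ℝ) * x))) 1 := by
    intro x
    simp only
    rw [FF_per hM hp, ek_add]
  have h1 := hper.intervalIntegral_add_eq 0 (nd M 0)
  rw [zero_add] at h1
  have h2 : nd M 0 + 1 = nd M ((2 * M : ℕ) : ℤ) := by
    have := nd_add hM 0
    rw [zero_add] at this
    rw [← this]
    push_cast
    rfl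
  rw [h1, h2]
  have h3 := intervalIntegral.sum_integral_adjacent_intervals
    (f := fun x => FF M cB d x * e1 (-((k : ℝ) * x))) (μ := volume)
    (a := fun j : ℕ => nd M (j : ℤ)) (n := 2 * M) (fun j _ => by
      have := FF_int (d := d) hM k (j : ℤ)
      exact_mod_cast this)
  have h4 : nd M ((0 : ℕ) : ℤ) = nd M 0 := rfl
  rw [← h4, ← h3]
  refine Finset.sum_congr rfl fun j _ => ?_
  unfold Jz
  norm_cast

section

variable {A : ℕ → ℝ} {om : ℕ → ℂ} {kk : ℕ → ℤ} {bad : ℕ → Prop} {s : ℕ → ℝ} {r : ℕ → Bool}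

theorem per_mkTD (hM : 0 < M) : Per M (mkTD M A om kk bad s r) :=
  ⟨mkTD_A_add hM, mkTD_om_add hM, mkTD_kk_add hM, mkTD_s_add hM, mkTD_r_add hM, mkTD_bad_add hM⟩

theorem sym_mkTD (hM : 0 < M) (h0 : (om 0).im = 0) (hMr : (om M).im = 0) :
    Sym (mkTD M A om kk bad s r) :=
  ⟨mkTD_A_neg hM, mkTD_om_neg hM h0 hMr, mkTD_kk_neg hM, mkTD_s_one_sub hM, mkTD_r_neg hM,
    mkTD_bad_neg hM⟩

open Classical in
theorem Jz_mkTD (hM : 0 < M) (k : ℤ) {i : ℕ} (hi : i ≤ M) :
    Jz M (mkTD M A om kk bad s r) k (i : ℤ) = if bad i then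
      KK M (om i) (kk i) (fun t => cB (A i) (sl s i) (sr M s i) (r i) t - A i) i k else 0 := by
  rw [Jz_eq hM]
  have h1 : rs M (i : ℤ) = i := rs_nat (by omega)
  have h2 : fo M (i : ℤ) = i := fo_nat hM hi
  have h3 : (mkTD M A om kk bad s r).s (i : ℤ) = sl s i := by
    simp only [mkTD, sl]
    rw [h1]
    split_ifs <;> rfl
  have h4 : (mkTD M A om kk bad s r).s ((i : ℤ) + 1) = sr M s i := by
    simp only [mkTD, sr]
    rw [rs_succ hM, h1]
    by_cases h5 : i = M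
    · subst h5
      by_cases h6 : i + 1 = 2 * i
      · have : i = 1 := by omega
        subst this
        simp
      · rw [if_neg h6, if_neg (by omega), if_neg (by omega), if_pos rfl]
        congr 2
        omega
    · rw [if_neg (show ¬ (i + 1 = 2 * M) by omega), if_neg (show ¬ (i + 1 = 0) by omega),
        if_pos (show i + 1 ≤ M by omega), if_neg h5]
  have h7 : (mkTD M A om kk bad s r).bad (i : ℤ) ↔ bad i := by simp only [mkTD, h2]
  have h8 : (mkTD M A om kk bad s r).A (i : ℤ) = A i := by simp only [mkTD, h2]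
  have h9 : (mkTD M A om kk bad s r).kk (i : ℤ) = kk i := by simp only [mkTD, h2]
  have h10 : (mkTD M A om kk bad s r).r (i : ℤ) = r i := by simp only [mkTD, h2]
  have h11 : (mkTD M A om kk bad s r).om (i : ℤ) = om i := by
    simp only [mkTD, h1]
    rw [if_pos hi]
  have h6 : ∀ x, GG M cB (mkTD M A om kk bad s r) (i : ℤ) x = if bad i then
      om i * e1 ((kk i : ℝ) * (x - ((i : ℤ) : ℝ) / (2 * M))) *
      (cB (A i) (sl s i) (sr M s i) (r i) (2 * (M : ℝ) * x + 1 / 2 - ((i : ℤ) : ℝ)) - A i)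
      else 0 := by
    intro x
    unfold GG
    rw [h3, h4, h8, h9, h10, h11]
    by_cases hb : bad i
    · rw [if_pos (h7.2 hb), if_pos hb]
    · rw [if_neg (fun h => hb (h7.1 h)), if_neg hb]
  simp_rw [h6]
  by_cases hb : bad i
  · simp only [if_pos hb]
    rfl
  · simp only [if_neg hb, zero_mul]
    simp

open Classical in
/-- The Fourier coefficients of the correction. -/
theorem coef_formula (hM : 0 < M) (h0 : (om 0).im = 0) (hMr : (om M).im = 0) (k : ℤ) :
    ∫ x in (0 : ℝ)..1, FF M cB (mkTD M A om kk bad s r) x * e1 (-((k : ℝ) * x)) =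
      ((∑ i ∈ (Finset.range (M + 1)).filter bad, Fk M A om kk k i s (r i) : ℝ) : ℂ) := by
  rw [integral_FF hM (per_mkTD hM), sum_Jz hM (per_mkTD hM) (sym_mkTD hM h0 hMr), Finset.sum_filter]
  congr 1
  refine Finset.sum_congr rfl fun i hi => ?_
  rw [Finset.mem_range] at hi
  rw [Jz_mkTD hM k (by omega)]
  split_ifs
  · rfl
  · simp

end

end Vale.Agent.P110T
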