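import Mathlib

/-!
P110T/ConstB: the choice of the constants, with a Lipschitz constant depending on `ηj`
(adapted from Const.lean by helper88).
-/

namespace Vale.Agent.P110T

/-- the constants, in the order: `ηj`, `w0`, `κ`, `τ`, `ε` -/
theorem corr_constsB {η δ μ C : ℝ} {L : ℝ → ℝ} (hη : 0 < η) (hδ : 0 < δ) (hμ : 0 < μ) (hC : 0 < C)
    (hL : ∀ x, 0 < x → 0 < L x) : ∃ ηj w0 κ τ ε : ℝ, 0 < ηj ∧ ηj ≤ 1 / 4 ∧ 0 < w0 ∧ w0 ≤ 1 / 2 ∧ 0 < κ ∧
      0 < τ ∧ τ ≤ ηj / 4 ∧ 0 < ε ∧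
      τ + ηj + (2 * w0 * L ηj + √(2 * ηj) + √(2 * τ) + 2 * (τ + Real.pi * (2 * κ * τ))) *
        (1 + √(4 / μ)) + 16 / (μ * κ * w0) ≤ η ∧
      8 * C * κ * √(√(16 * ε / (κ * ηj))) ≤ δ := by
  set R : ℝ := 1 + √(4 / μ) with hR
  have hR1 : 1 ≤ R := by
    rw [hR]
    linarith [Real.sqrt_nonneg (4 / μ)]
  have hR0 : 0 < R := by linarith
  -- small quantity
  set z : ℝ := min (η / (8 * R)) (1 / 2) with hz
  have hz0 : 0 < z := lt_min (by positivity) (by norm_num)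
  have hz1 : z * R ≤ η / 8 := by
    have : z ≤ η / (8 * R) := min_le_left _ _
    calc z * R ≤ η / (8 * R) * R := mul_le_mul_of_nonneg_right this hR0.le
      _ = η / 8 := by field_simp
  have hz2 : z ≤ 1 / 2 := min_le_right _ _
  have hzη : z ≤ η / 8 := by nlinarith
  -- ηj
  set ηj : ℝ := z ^ 2 / 2 with hηj
  have hηj0 : 0 < ηj := by positivity
  have hηj1 : ηj ≤ 1 / 4 := by rw [hηj]; nlinarith
  have hηjz : ηj ≤ z := by rw [hηj]; nlinarith
  have hsj : √(2 * ηj) = z := by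
    rw [hηj, show 2 * (z ^ 2 / 2) = z ^ 2 by ring, Real.sqrt_sq hz0.le]
  have hLj : 0 < L ηj := hL ηj hηj0
  -- w0
  set w0 : ℝ := min (z / (2 * L ηj)) (1 / 2) with hw0
  have hw00 : 0 < w0 := lt_min (by positivity) (by norm_num)
  have hw01 : 2 * w0 * L ηj ≤ z := by
    have : w0 ≤ z / (2 * L ηj) := min_le_left _ _
    calc 2 * w0 * L ηj = w0 * (2 * L ηj) := by ring
      _ ≤ z / (2 * L ηj) * (2 * L ηj) := mul_le_mul_of_nonneg_right this (by positivity)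
      _ = z := by field_simp
  -- κ
  set κ : ℝ := 16 / (μ * w0 * (η / 8)) with hκ
  have hκ0 : 0 < κ := by positivity
  have hκ1 : 16 / (μ * κ * w0) = η / 8 := by
    rw [hκ]
    field_simp
  -- τ
  set τ : ℝ := min (ηj / 4) (z / (2 * (1 + Real.pi * (2 * κ)))) with hτ
  have hp : 0 < 1 + Real.pi * (2 * κ) := by positivity
  have hτ0 : 0 < τ := lt_min (by positivity) (by positivity)
  have hτ1 : τ ≤ ηj / 4 := min_le_left _ _
  have hτ2 : 2 * (τ + Real.pi * (2 * κ * τ)) ≤ z := by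
    have : τ ≤ z / (2 * (1 + Real.pi * (2 * κ))) := min_le_right _ _
    calc 2 * (τ + Real.pi * (2 * κ * τ)) = τ * (2 * (1 + Real.pi * (2 * κ))) := by ring
      _ ≤ z / (2 * (1 + Real.pi * (2 * κ))) * (2 * (1 + Real.pi * (2 * κ))) :=
        mul_le_mul_of_nonneg_right this (by positivity)
      _ = z := by field_simp
  have hsτ : √(2 * τ) ≤ z := by
    rw [← hsj]
    exact Real.sqrt_le_sqrt (by linarith)
  -- ε
  set ρ : ℝ := δ / (8 * C * κ) with hρ
  have hρ0 : 0 < ρ := by positivity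
  set ε : ℝ := ρ ^ 4 * (κ * ηj) / 16 with hε
  have hε0 : 0 < ε := by positivity
  refine ⟨ηj, w0, κ, τ, ε, hηj0, hηj1, hw00, min_le_right _ _, hκ0, hτ0, hτ1, hε0, ?_, ?_⟩
  · rw [hκ1, hsj]
    have h1 : (2 * w0 * L ηj + z + √(2 * τ) + 2 * (τ + Real.pi * (2 * κ * τ))) * R ≤
        (z + z + z + z) * R := by
      refine mul_le_mul_of_nonneg_right ?_ hR0.le
      linarith
    have h2 : (z + z + z + z) * R ≤ η / 2 := by nlinarith
    linarith
  · have h1 : 16 * ε / (κ * ηj) = (ρ ^ 2) ^ 2 := by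
      rw [hε]
      field_simp
    rw [h1, Real.sqrt_sq (by positivity), Real.sqrt_sq hρ0.le, hρ]
    have : 8 * C * κ * (δ / (8 * C * κ)) = δ := by field_simp
    rw [this]

end Vale.Agent.P110T
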