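import Vale.Agent.Lib.P110T.ConstB

/-!
# P110T: the constants, with the extra clause `32 ε ≤ κ ηj`
-/

namespace Vale.Agent.P110T

/-- the constants, with a Lipschitz constant depending on `ηj` -/
theorem corr_consts3 {η δ μ C : ℝ} {L : ℝ → ℝ} (hη : 0 < η) (hδ : 0 < δ) (hμ : 0 < μ) (hC : 0 < C)
    (hL : ∀ x, 0 < x → 0 < L x) : ∃ ηj w0 κ τ ε : ℝ, 0 < ηj ∧ ηj ≤ 1 / 4 ∧ 0 < w0 ∧ w0 ≤ 1 / 2 ∧
      0 < κ ∧ 0 < τ ∧ τ ≤ ηj / 4 ∧ 0 < ε ∧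
      τ + ηj + (2 * w0 * L ηj + √(2 * ηj) + √(2 * τ) + 2 * (τ + Real.pi * (2 * κ * τ))) *
        (1 + √(4 / μ)) + 16 / (μ * κ * w0) ≤ η ∧
      8 * C * κ * √(√(16 * ε / (κ * ηj))) ≤ δ ∧ 32 * ε ≤ κ * ηj := by
  obtain ⟨ηj, w0, κ, τ, ε, h1, h2, h3, h4, h5, h6, h7, h8, h9, h10⟩ :=
    corr_constsB (L := L) hη hδ hμ hC hL
  refine ⟨ηj, w0, κ, τ, min ε (κ * ηj / 32), h1, h2, h3, h4, h5, h6, h7,
    lt_min h8 (by positivity), h9, le_trans ?_ h10, ?_⟩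
  · have h11 : 16 * min ε (κ * ηj / 32) / (κ * ηj) ≤ 16 * ε / (κ * ηj) := by
      have := min_le_left ε (κ * ηj / 32)
      gcongr
    exact mul_le_mul_of_nonneg_left (Real.sqrt_le_sqrt (Real.sqrt_le_sqrt h11)) (by positivity)
  · have := min_le_right ε (κ * ηj / 32)
    linarith

end Vale.Agent.P110T
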