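import Mathlib

/-!
P110T: number of bad nodes.
-/

namespace Vale.Agent.P110T

open MeasureTheory

/-- At most `8 ε M / η + 2` of the nodes `i / (2 M)`, `0 ≤ i ≤ M`, are bad. -/
theorem bad_count {ε η τ : ℝ} (hη : 0 < η) (hη1 : η ≤ 1) (hτ : τ ≤ η / 4) {M : ℕ} (hM : 0 < M)
    {g : ℝ → ℂ} (hg : Continuous g) (hg1 : ∀ x, ‖g x‖ ≤ 1)
    (hint : 1 - ε ≤ ∫ x in (0 : ℝ)..1, ‖g x‖ ^ 2)
    (hslow : ∀ i ≤ M, ∀ x : ℝ, |x - (i : ℝ) / (2 * M)| ≤ 1 / (2 * M) →
      |‖g x‖ - ‖g ((i : ℝ) / (2 * M))‖| ≤ τ) :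
    (((Finset.range (M + 1)).filter fun i : ℕ => ‖g ((i : ℝ) / (2 * M))‖ ≤ 1 - η).card : ℝ) * η ≤
      8 * ε * M + 2 * η := by
  classical
  have hM' : (0 : ℝ) < M := by exact_mod_cast hM
  set F : ℝ → ℝ := fun x => 1 - ‖g x‖ ^ 2 with hF
  have hFc : Continuous F := by fun_prop
  have hF0 : ∀ x, 0 ≤ F x := by
    intro x
    have h1 := hg1 x
    have h2 := norm_nonneg (g x)
    simp only [hF]
    nlinarith
  have hF1 : ∫ x in (0 : ℝ)..1, F x ≤ ε := by
    have e : ∫ x in (0 : ℝ)..1, F x = 1 - ∫ x in (0 : ℝ)..1, ‖g x‖ ^ 2 := by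
      have e1 := intervalIntegral.integral_sub (μ := volume) (a := 0) (b := 1)
        (f := fun _ : ℝ => (1 : ℝ)) (g := fun x => ‖g x‖ ^ 2)
        (continuous_const.intervalIntegrable _ _)
        ((by fun_prop : Continuous fun x => ‖g x‖ ^ 2).intervalIntegrable _ _)
      rw [intervalIntegral.integral_const] at e1
      simpa using e1
    rw [e]
    linarith
  have hε : 0 ≤ ε := le_trans (intervalIntegral.integral_nonneg zero_le_one fun x _ => hF0 x) hF1
  have hhalf : ∫ x in (0 : ℝ)..(1 / 2), F x ≤ ε := by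
    refine le_trans ?_ hF1
    exact intervalIntegral.integral_mono_interval le_rfl (by norm_num) (by norm_num)
      (Filter.Eventually.of_forall hF0) (hFc.intervalIntegrable _ _)
  -- partition of the half interval
  have hsum : ∑ i ∈ Finset.range M, ∫ x in ((i : ℕ) : ℝ) / (2 * M)..((i + 1 : ℕ) : ℝ) / (2 * M),
      F x = ∫ x in (0 : ℝ)..(1 / 2), F x := by
    have h := intervalIntegral.sum_integral_adjacent_intervals (μ := volume) (f := F)
      (a := fun i : ℕ => (i : ℝ) / (2 * M)) (n := M)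
      (fun k _ => hFc.intervalIntegrable _ _)
    rw [h]
    congr 1
    · simp
    · field_simp
  set B := (Finset.range M).filter fun i : ℕ => ‖g ((i : ℝ) / (2 * M))‖ ≤ 1 - η with hB
  have hlow : ∀ i ∈ B, 3 * η / 4 * (1 / (2 * M)) ≤
      ∫ x in ((i : ℕ) : ℝ) / (2 * M)..((i + 1 : ℕ) : ℝ) / (2 * M), F x := by
    intro i hi
    rw [hB, Finset.mem_filter, Finset.mem_range] at hi
    have hle : ((i : ℕ) : ℝ) / (2 * M) ≤ ((i + 1 : ℕ) : ℝ) / (2 * M) := by
      apply div_le_div_of_nonneg_right _ (by positivity)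
      push_cast
      linarith
    have hlen : ((i + 1 : ℕ) : ℝ) / (2 * M) - ((i : ℕ) : ℝ) / (2 * M) = 1 / (2 * M) := by
      push_cast
      ring
    have h1 : ∫ x in ((i : ℕ) : ℝ) / (2 * M)..((i + 1 : ℕ) : ℝ) / (2 * M), (3 * η / 4) =
        3 * η / 4 * (1 / (2 * M)) := by
      rw [intervalIntegral.integral_const, hlen, smul_eq_mul, mul_comm]
    rw [← h1]
    apply intervalIntegral.integral_mono_on hle (continuous_const.intervalIntegrable _ _)
      (hFc.intervalIntegrable _ _)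
    intro x hx
    have h2 : |x - (i : ℝ) / (2 * M)| ≤ 1 / (2 * M) := by
      rw [abs_of_nonneg (by linarith [hx.1])]
      linarith [hx.2]
    have h3 := hslow i hi.1.le x h2
    have h4 := (abs_le.1 h3).2
    have h5 : ‖g x‖ ≤ 1 - 3 * η / 4 := by linarith [hi.2]
    have h6 := norm_nonneg (g x)
    simp only [hF]
    nlinarith
  have hcard : (B.card : ℝ) * (3 * η / 4 * (1 / (2 * M))) ≤ ε := by
    calc (B.card : ℝ) * (3 * η / 4 * (1 / (2 * M)))
        = ∑ i ∈ B, 3 * η / 4 * (1 / (2 * M)) := by rw [Finset.sum_const, nsmul_eq_mul]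
      _ ≤ ∑ i ∈ B, ∫ x in ((i : ℕ) : ℝ) / (2 * M)..((i + 1 : ℕ) : ℝ) / (2 * M), F x :=
          Finset.sum_le_sum hlow
      _ ≤ ∑ i ∈ Finset.range M,
            ∫ x in ((i : ℕ) : ℝ) / (2 * M)..((i + 1 : ℕ) : ℝ) / (2 * M), F x := by
          apply Finset.sum_le_sum_of_subset_of_nonneg (Finset.filter_subset _ _)
          intro i _ _
          apply intervalIntegral.integral_nonneg _ fun x _ => hF0 x
          apply div_le_div_of_nonneg_right _ (by positivity)
          push_cast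
          linarith
      _ ≤ ε := by rw [hsum]; exact hhalf
  have hBle : (B.card : ℝ) * η ≤ 8 * ε * M := by
    have e : (B.card : ℝ) * (3 * η / 4 * (1 / (2 * M))) = (B.card : ℝ) * η * (3 / (8 * M)) := by
      field_simp
      ring
    rw [e] at hcard
    have h8 : 0 < 3 / (8 * (M : ℝ)) := by positivity
    have h9 : (B.card : ℝ) * η ≤ ε / (3 / (8 * (M : ℝ))) := by
      rw [le_div_iff₀ h8]
      exact hcard
    have h10 : ε / (3 / (8 * (M : ℝ))) = 8 / 3 * ε * M := by
      field_simp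
    rw [h10] at h9
    nlinarith [mul_nonneg hε hM'.le]
  have hsub : ((Finset.range (M + 1)).filter fun i : ℕ => ‖g ((i : ℝ) / (2 * M))‖ ≤ 1 - η) ⊆
      insert M B := by
    intro i hi
    rw [Finset.mem_filter, Finset.mem_range] at hi
    rw [Finset.mem_insert, hB, Finset.mem_filter, Finset.mem_range]
    rcases Nat.lt_succ_iff_lt_or_eq.1 hi.1 with h | h
    · exact Or.inr ⟨h, hi.2⟩
    · exact Or.inl h
  have hc2 : (((Finset.range (M + 1)).filter
      fun i : ℕ => ‖g ((i : ℝ) / (2 * M))‖ ≤ 1 - η).card : ℝ) ≤ B.card + 1 := by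
    have h := (Finset.card_le_card hsub).trans (Finset.card_insert_le M B)
    exact_mod_cast h
  nlinarith

end Vale.Agent.P110T
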