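import Vale.Agent.Lib.P110T.Iface
import Vale.Agent.Lib.P110F.D1

/-!
# P110T: elementary facts on the normalised input polynomial
-/

namespace Vale.Agent.P110T

open MeasureTheory
open Vale.Agent.P110F
open scoped ComplexConjugate

private theorem GA_continuous_e1 : Continuous e1 := by
  unfold e1
  fun_prop

private theorem GA_e1_nat (k : ℕ) (t : ℝ) : e1 (t + k) = e1 t := by
  unfold e1
  rw [Complex.exp_eq_exp_iff_exists_int]
  exact ⟨k, by push_cast; ring⟩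

private theorem GA_cont (N : ℕ) (b : ℕ → ℝ) : Continuous (pol N b) := by
  unfold pol
  refine continuous_finsetSum _ fun k _ => ?_
  exact continuous_const.mul (GA_continuous_e1.comp (by fun_prop))

private theorem GA_per (N : ℕ) (b : ℕ → ℝ) (x : ℝ) : pol N b (x + 1) = pol N b x := by
  unfold pol
  refine Finset.sum_congr rfl fun k _ => ?_
  rw [mul_add, mul_one, GA_e1_nat]

private theorem GA_conj (N : ℕ) (b : ℕ → ℝ) (x : ℝ) : pol N b (-x) = conj (pol N b x) := by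
  unfold pol
  rw [map_sum]
  refine Finset.sum_congr rfl fun k _ => ?_
  rw [map_mul, Complex.conj_ofReal, mul_neg, e1_neg]

theorem g_facts {μ ε η' K : ℝ} {N n : ℕ} {b : ℕ → ℝ} (hn : 0 < n) (h : Inp μ ε η' K N n b) :
    ∃ g : ℝ → ℂ, (∀ x, pol N b x = (Real.sqrt n : ℂ) * g x) ∧ Continuous g ∧
      (∀ x, g (x + 1) = g x) ∧ (∀ x, g (-x) = conj (g x)) ∧ (g 0).im = 0 ∧ (g (1 / 2)).im = 0 ∧
      (∀ x, ‖g x‖ ≤ 1) ∧ (1 - ε ≤ ∫ x in (0 : ℝ)..1, ‖g x‖ ^ 2) ∧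
      ∀ x₀ : ℝ, ∃ κ₀ : ℝ, μ * N ≤ κ₀ ∧ κ₀ ≤ (1 - μ) * N ∧ ∀ x : ℝ, |x - x₀| ≤ K / N →
        ‖g x - g x₀ * e1 (κ₀ * (x - x₀))‖ ≤ η' := by
  have hn' : (0 : ℝ) < n := by exact_mod_cast hn
  have hs : 0 < Real.sqrt n := Real.sqrt_pos.2 hn'
  have hsc : (Real.sqrt n : ℂ) ≠ 0 := by exact_mod_cast hs.ne'
  obtain ⟨c, hc⟩ : ∃ c : ℝ, c = (Real.sqrt n)⁻¹ := ⟨_, rfl⟩
  have hc0 : 0 < c := by rw [hc]; positivity
  have hcs : c * Real.sqrt n = 1 := by rw [hc]; exact inv_mul_cancel₀ hs.ne'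
  obtain ⟨g, hg⟩ : ∃ g : ℝ → ℂ, ∀ x, g x = (c : ℂ) * pol N b x := ⟨_, fun x => rfl⟩
  have hgc : ∀ x, g (-x) = conj (g x) := by
    intro x
    rw [hg, hg, GA_conj, map_mul, Complex.conj_ofReal]
  have hg1 : ∀ x, g (x + 1) = g x := by
    intro x
    rw [hg, hg, GA_per]
  have hnorm : ∀ x, ‖g x‖ = c * ‖pol N b x‖ := by
    intro x
    rw [hg, norm_mul, Complex.norm_real, Real.norm_of_nonneg hc0.le]
  refine ⟨g, fun x => ?_, ?_, hg1, hgc, ?_, ?_, fun x => ?_, ?_, fun x₀ => ?_⟩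
  · rw [hg, ← mul_assoc, ← Complex.ofReal_mul, mul_comm (Real.sqrt n), hcs]
    simp
  · have : g = fun x => (c : ℂ) * pol N b x := funext hg
    rw [this]
    exact continuous_const.mul (GA_cont N b)
  · have h1 := hgc 0
    rw [neg_zero] at h1
    exact Complex.conj_eq_iff_im.1 h1.symm
  · have h1 := hgc (1 / 2)
    have h2 := hg1 (-(1 / 2))
    rw [show (-(1 / 2) + 1 : ℝ) = 1 / 2 by norm_num] at h2
    rw [← h2] at h1
    exact Complex.conj_eq_iff_im.1 h1.symm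
  · rw [hnorm, ← hcs]
    exact mul_le_mul_of_nonneg_left (h.sup x) hc0.le
  · have h1 : ∫ x in (0 : ℝ)..1, ‖g x‖ ^ 2 = c ^ 2 * ∑ k ∈ Finset.range N, b k ^ 2 := by
      have h2 := integral_normSq_poly N (fun k => (b k : ℂ))
      have h3 : ∑ k ∈ Finset.range N, b k ^ 2 = ∑ k ∈ Finset.range N, ‖(b k : ℂ)‖ ^ 2 := by
        refine Finset.sum_congr rfl fun k _ => ?_
        rw [Complex.norm_real, Real.norm_eq_abs, sq_abs]
      rw [h3, ← h2, ← intervalIntegral.integral_const_mul]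
      refine intervalIntegral.integral_congr fun x _ => ?_
      show ‖g x‖ ^ 2 = c ^ 2 * ‖pol N b x‖ ^ 2
      rw [hnorm, mul_pow]
    rw [h1]
    have h4 : c ^ 2 * n = 1 := by
      have h5 : Real.sqrt n ^ 2 = n := Real.sq_sqrt hn'.le
      calc c ^ 2 * (n : ℝ) = c ^ 2 * Real.sqrt n ^ 2 := by rw [h5]
        _ = (c * Real.sqrt n) ^ 2 := (mul_pow _ _ _).symm
        _ = 1 := by rw [hcs, one_pow]
    calc 1 - ε = c ^ 2 * ((1 - ε) * n) := by linear_combination (-(1 - ε)) * h4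
      _ ≤ _ := mul_le_mul_of_nonneg_left h.energy (sq_nonneg c)
  · obtain ⟨κ₀, h1, h2, h3⟩ := h.pure x₀
    refine ⟨κ₀, h1, h2, fun x hx => ?_⟩
    have h4 : g x - g x₀ * e1 (κ₀ * (x - x₀)) =
        (c : ℂ) * (pol N b x - pol N b x₀ * e1 (κ₀ * (x - x₀))) := by
      rw [hg, hg]
      ring
    rw [h4, norm_mul, Complex.norm_real, Real.norm_of_nonneg hc0.le]
    calc c * _ ≤ c * (η' * Real.sqrt n) := mul_le_mul_of_nonneg_left (h3 x hx) hc0.le
      _ = η' := by linear_combination η' * hcs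

end Vale.Agent.P110T
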