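import Vale.Agent.Lib.P110T.Band
import Vale.Agent.Lib.P110T.Iface

/-!
P110T/Glue: from the correction function `T` on the circle to the corrected polynomial (helper88).
-/

namespace Vale.Agent.P110T

open MeasureTheory Vale.Agent.P110F

/-- the correction function gives the correction of the coefficients -/
theorem corr_glue {N n q : ℕ} (hn : 0 < n) (hq : 0 < q) (hqN : 2 * q ≤ N) {b : ℕ → ℝ}
    {g T : ℝ → ℂ} (hg : ∀ x, pol N b x = (Real.sqrt n : ℂ) * g x)
    (hT : Measurable T) (hper : ∀ x, T (x + 1) = T x) (hB : ∀ x, ‖T x‖ ≤ 2)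
    {d w ε e : ℝ} (hw : 0 < w) (hw2 : w ≤ 1 / 2) (he : 0 ≤ e)
    (hmod : ∀ x, |‖g x + T x‖ - 1| ≤ d)
    (hloc : ∀ x, ∃ (k : ℤ) (a : ℂ), ‖a‖ ≤ 2 ∧ (q : ℤ) ≤ k ∧ k + q + 1 ≤ N ∧
      ∀ u, |u| ≤ w → ‖T (x - u) - a * e1 (-(k * u))‖ ≤ ε)
    (hc : ∀ j < N, ∃ t : ℝ, (∫ y in (0:ℝ)..1, T y * e1 (-((j:ℝ) * y))) = t ∧ |t| ≤ e) :
    ∃ t : ℕ → ℝ, (∀ k, |t k| ≤ √n * e) ∧
      ∀ x : ℝ, |‖pol N (fun k => b k + t k) x‖ - √n| ≤
        √n * (d + (ε * (1 + √(N / q)) + 2 / (q * w))) := by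
  have hn' : (0 : ℝ) < n := by exact_mod_cast hn
  have hs : 0 < √(n : ℝ) := Real.sqrt_pos.2 hn'
  choose! c hc1 hce using hc
  refine ⟨fun k => if k < N then √n * (vq N q k * c k) else 0, fun k => ?_, fun x => ?_⟩
  · simp only
    split_ifs with h
    · rw [abs_mul, abs_of_pos hs]
      refine mul_le_mul_of_nonneg_left ?_ hs.le
      rw [abs_mul, abs_of_nonneg (vq_nonneg _ _ _)]
      calc vq N q k * |c k| ≤ 1 * e :=
            mul_le_mul (vq_le_one k) (hce k h) (abs_nonneg _) zero_le_one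
        _ = e := one_mul e
    · rw [abs_zero]
      positivity
  · obtain ⟨k₀, a, ha, hk1, hk2, hl⟩ := hloc x
    have h1 := band_limit hq hqN hT hper hB hw hw2 k₀ hk1 hk2 a ha hl
    set S : ℂ := ∑ k ∈ Finset.range N, (vq N q k : ℂ) *
      (∫ y in (0:ℝ)..1, T y * e1 (-((k:ℝ) * y))) * e1 ((k:ℝ) * x) with hS
    have h2 : pol N (fun k => b k + if k < N then √n * (vq N q k * c k) else 0) x =
        ((√n : ℝ) : ℂ) * ((g x + T x) + (S - T x)) := by
      have h3 : pol N (fun k => b k + if k < N then √n * (vq N q k * c k) else 0) x =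
          pol N b x + ((√n : ℝ) : ℂ) * S := by
        rw [hS]
        unfold pol
        rw [Finset.mul_sum, ← Finset.sum_add_distrib]
        refine Finset.sum_congr rfl fun k hk => ?_
        rw [Finset.mem_range] at hk
        simp only [if_pos hk]
        rw [hc1 k hk]
        push_cast
        ring
      rw [h3, hg]
      ring
    rw [h2, norm_mul, Complex.norm_real, Real.norm_of_nonneg hs.le]
    have h4 : √(n : ℝ) * ‖(g x + T x) + (S - T x)‖ - √n =
        √n * (‖(g x + T x) + (S - T x)‖ - 1) := by ring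
    rw [h4, abs_mul, abs_of_pos hs]
    refine mul_le_mul_of_nonneg_left ?_ hs.le
    have h5 : ‖(g x + T x) + (S - T x)‖ - 1 =
        (‖(g x + T x) + (S - T x)‖ - ‖g x + T x‖) + (‖g x + T x‖ - 1) := by ring
    rw [h5]
    refine (abs_add_le _ _).trans ?_
    have h6 : |‖(g x + T x) + (S - T x)‖ - ‖g x + T x‖| ≤ ‖S - T x‖ := by
      refine (abs_norm_sub_norm_le _ _).trans ?_
      rw [add_sub_cancel_left]
    have h7 := hmod x
    linarith

end Vale.Agent.P110T
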