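import Mathlib
import Vale.Agent.Lib.P110T.Const

/-!
P110T/Num: the numerics of the correction theorem for large `N` (helper15).
-/

namespace Vale.Agent.P110T

/-- the constants with the additional bound `32 ε ≤ κ ηj` -/
theorem corr_consts2 {η δ μ C L : ℝ} (hη : 0 < η) (hδ : 0 < δ) (hμ : 0 < μ) (hC : 0 < C)
    (hL : 0 < L) : ∃ ηj w0 κ τ ε : ℝ, 0 < ηj ∧ ηj ≤ 1 / 4 ∧ 0 < w0 ∧ w0 ≤ 1 / 2 ∧ 0 < κ ∧
      0 < τ ∧ τ ≤ ηj / 4 ∧ 0 < ε ∧
      τ + ηj + (2 * w0 * L + √(2 * ηj) + √(2 * τ) + 2 * (τ + Real.pi * (2 * κ * τ))) *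
        (1 + √(4 / μ)) + 16 / (μ * κ * w0) ≤ η ∧
      8 * C * κ * √(√(16 * ε / (κ * ηj))) ≤ δ ∧ 32 * ε ≤ κ * ηj := by
  obtain ⟨ηj, w0, κ, τ, ε, h1, h2, h3, h4, h5, h6, h7, h8, h9, h10⟩ :=
    corr_consts (L := L) hη hδ hμ hC hL
  refine ⟨ηj, w0, κ, τ, min ε (κ * ηj / 32), h1, h2, h3, h4, h5, h6, h7,
    lt_min h8 (by positivity), h9, le_trans ?_ h10, ?_⟩
  · have h11 : 16 * min ε (κ * ηj / 32) / (κ * ηj) ≤ 16 * ε / (κ * ηj) := by
      have := min_le_left ε (κ * ηj / 32)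
      gcongr
    exact mul_le_mul_of_nonneg_left (Real.sqrt_le_sqrt (Real.sqrt_le_sqrt h11)) (by positivity)
  · have := min_le_right ε (κ * ηj / 32)
    linarith

/-- the numerics for large `N` -/
theorem corr_num {κ μ ηj ε C : ℝ} (hκ : 0 < κ) (hμ : 0 < μ) (hμ1 : μ < 1 / 4) (hηj : 0 < ηj)
    (hε : 0 < ε) (hC : 0 < C) (h32 : 32 * ε ≤ κ * ηj) : ∃ N₁ : ℕ, ∀ N : ℕ, N₁ ≤ N →
      ∃ M q : ℕ, 0 < M ∧ 0 < q ∧ 2 * q ≤ N ∧ (N : ℝ) ≤ 2 * M * κ ∧ (M : ℝ) * κ ≤ N ∧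
        √((N : ℝ) / q) ≤ √(4 / μ) ∧
        (∀ w0 : ℝ, 0 < w0 → 2 / ((q : ℝ) * (w0 / (2 * M))) ≤ 16 / (μ * κ * w0)) ∧
        (∀ k : ℤ, μ * N - 1 ≤ k → (k : ℝ) ≤ (1 - μ) * N + 1 → (q : ℤ) ≤ k ∧ k + q + 1 ≤ N) ∧
        ∀ card : ℕ, (card : ℝ) * ηj ≤ 8 * ε * M + 2 * ηj → 2 * card ≤ N ∧
          ∀ n : ℕ, n ≤ N → √(n : ℝ) * (C * (4 / M) * √(√((card : ℝ) * N))) ≤
            8 * C * κ * √(√(16 * ε / (κ * ηj))) := by
  refine ⟨⌈max (max (4 / μ) (2 * κ)) (max (κ * ηj / (2 * ε)) 1)⌉₊, fun N hN => ?_⟩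
  have hN0 : max (max (4 / μ) (2 * κ)) (max (κ * ηj / (2 * ε)) 1) ≤ N := Nat.ceil_le.1 hN
  have hN1 : 4 / μ ≤ N := ((le_max_left _ _).trans (le_max_left _ _)).trans hN0
  have hN2 : 2 * κ ≤ N := ((le_max_right _ _).trans (le_max_left _ _)).trans hN0
  have hN3 : κ * ηj / (2 * ε) ≤ N := ((le_max_left _ _).trans (le_max_right _ _)).trans hN0
  have hN4 : (1 : ℝ) ≤ N := ((le_max_right _ _).trans (le_max_right _ _)).trans hN0
  have hNpos : (0 : ℝ) < N := by linarith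
  have hN1' : 4 ≤ μ * N := by
    rw [div_le_iff₀ hμ] at hN1
    linarith
  -- M
  set M : ℕ := ⌈(N : ℝ) / (2 * κ)⌉₊ with hMdef
  have hM1 : (N : ℝ) / (2 * κ) ≤ M := Nat.le_ceil _
  have hM2 : (M : ℝ) < (N : ℝ) / (2 * κ) + 1 := Nat.ceil_lt_add_one (by positivity)
  have hMpos : (0 : ℝ) < M := lt_of_lt_of_le (by positivity) hM1
  have hM0 : 0 < M := by exact_mod_cast hMpos
  have hM3 : (N : ℝ) ≤ 2 * M * κ := by
    rw [div_le_iff₀ (by positivity)] at hM1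
    linarith
  have hM4 : (M : ℝ) * κ ≤ N := by
    have h1 : (M : ℝ) * κ ≤ ((N : ℝ) / (2 * κ) + 1) * κ := mul_le_mul_of_nonneg_right hM2.le hκ.le
    have h2 : ((N : ℝ) / (2 * κ) + 1) * κ = N / 2 + κ := by
      field_simp
    linarith
  -- q
  set q : ℕ := ⌊μ * N / 2⌋₊ with hqdef
  have hq1 : (q : ℝ) ≤ μ * N / 2 := Nat.floor_le (by positivity)
  have hq2 : μ * N / 2 < q + 1 := Nat.lt_floor_add_one _
  have hq3 : μ * N / 4 ≤ q := by linarith
  have hqpos : (0 : ℝ) < q := by linarith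
  have hq0 : 0 < q := by exact_mod_cast hqpos
  have hq4 : (2 : ℝ) * q ≤ N := by nlinarith
  refine ⟨M, q, hM0, hq0, by exact_mod_cast hq4, hM3, hM4, ?_, ?_, ?_, ?_⟩
  · apply Real.sqrt_le_sqrt
    rw [div_le_div_iff₀ hqpos hμ]
    linarith
  · intro w0 hw0
    have h1 : 2 / ((q : ℝ) * (w0 / (2 * M))) = 4 * M / (q * w0) := by
      field_simp
      norm_num
    rw [h1, div_le_div_iff₀ (by positivity) (by positivity)]
    have h2 : (M : ℝ) * κ * μ ≤ 4 * q := by nlinarith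
    calc 4 * (M : ℝ) * (μ * κ * w0) = 4 * w0 * (M * κ * μ) := by ring
      _ ≤ 4 * w0 * (4 * q) := mul_le_mul_of_nonneg_left h2 (by positivity)
      _ = 16 * (q * w0) := by ring
  · intro k hk1 hk2
    constructor
    · have h1 : (q : ℝ) ≤ k := by linarith
      exact_mod_cast h1
    · have h1 : (k : ℝ) + q + 1 ≤ N := by linarith
      exact_mod_cast h1
  · intro card hcard
    have hcard0 : (0 : ℝ) ≤ card := Nat.cast_nonneg _
    have h1 : 2 * ηj ≤ 8 * ε * M := by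
      have h2 : κ * ηj / (2 * ε) / (2 * κ) ≤ M :=
        (div_le_div_of_nonneg_right hN3 (by positivity)).trans hM1
      have h3 : κ * ηj / (2 * ε) / (2 * κ) = ηj / (4 * ε) := by
        field_simp
        norm_num
      rw [h3, div_le_iff₀ (by positivity)] at h2
      linarith
    have h2 : (card : ℝ) * ηj ≤ 16 * ε * M := by linarith
    have h3 : (card : ℝ) * (κ * ηj) ≤ 16 * ε * N := by
      calc (card : ℝ) * (κ * ηj) = (card * ηj) * κ := by ring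
        _ ≤ 16 * ε * M * κ := mul_le_mul_of_nonneg_right h2 hκ.le
        _ = 16 * ε * (M * κ) := by ring
        _ ≤ 16 * ε * N := mul_le_mul_of_nonneg_left hM4 (by positivity)
    have hκη : 0 < κ * ηj := by positivity
    constructor
    · have h4 : (2 : ℝ) * card ≤ N := by
        by_contra hc
        push Not at hc
        have h5 : (N : ℝ) * (κ * ηj) < 2 * card * (κ * ηj) := mul_lt_mul_of_pos_right hc hκη
        have h6 : 32 * ε * N ≤ κ * ηj * N := mul_le_mul_of_nonneg_right h32 hNpos.le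
        linarith
      exact_mod_cast h4
    · intro n hn
      have h4 : (card : ℝ) * N ≤ 16 * ε / (κ * ηj) * N ^ 2 := by
        have h5 : (card : ℝ) ≤ 16 * ε * N / (κ * ηj) := by
          rw [le_div_iff₀ hκη]
          exact h3
        calc (card : ℝ) * N ≤ 16 * ε * N / (κ * ηj) * N :=
              mul_le_mul_of_nonneg_right h5 hNpos.le
          _ = _ := by ring
      have h5 : √(√((card : ℝ) * N)) ≤ √(√(16 * ε / (κ * ηj))) * √(N : ℝ) := by
        rw [← Real.sqrt_mul (Real.sqrt_nonneg _)]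
        apply Real.sqrt_le_sqrt
        rw [← Real.sqrt_sq hNpos.le, ← Real.sqrt_mul (by positivity)]
        apply Real.sqrt_le_sqrt
        rw [Real.sqrt_sq hNpos.le]
        exact h4
      have h6 : √(n : ℝ) ≤ √(N : ℝ) := Real.sqrt_le_sqrt (by exact_mod_cast hn)
      have h7 : 4 / (M : ℝ) ≤ 8 * κ / N := by
        rw [div_le_div_iff₀ hMpos hNpos]
        nlinarith
      have h8 : √(N : ℝ) * √(N : ℝ) = N := Real.mul_self_sqrt hNpos.le
      calc √(n : ℝ) * (C * (4 / M) * √(√((card : ℝ) * N)))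
          ≤ √(N : ℝ) * (C * (8 * κ / N) * (√(√(16 * ε / (κ * ηj))) * √(N : ℝ))) := by
            gcongr
        _ = (√(N : ℝ) * √(N : ℝ)) / N * (8 * C * κ * √(√(16 * ε / (κ * ηj)))) := by ring
        _ = 8 * C * κ * √(√(16 * ε / (κ * ηj))) := by
            rw [h8, div_self hNpos.ne', one_mul]

end Vale.Agent.P110T
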