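import Vale.Agent.Lib.P110T.TF

/-!
# P110T: local structure of the correction
-/

namespace Vale.Agent.P110T

open MeasureTheory Vale.Agent.P110F
open scoped ComplexConjugate

variable {M : ℕ} {c : ℝ → ℝ → ℝ → Bool → ℝ → ℂ} {d : TD} {L ηj : ℝ}

theorem norm_e1_sub_le (a b : ℝ) : ‖e1 a - e1 b‖ ≤ 2 * Real.pi * |a - b| := by
  have h1 : e1 a = e1 b * e1 (a - b) := by
    rw [← e1_add]
    congr 1
    ring
  have h2 : e1 (a - b) = Complex.exp (Complex.I * ((2 * Real.pi * (a - b) : ℝ) : ℂ)) := by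
    unfold e1
    congr 1
    push_cast
    ring
  have h3 : e1 a - e1 b = e1 b * (e1 (a - b) - 1) := by
    rw [h1]
    ring
  rw [h3, norm_mul, norm_e1, one_mul, h2]
  refine Real.norm_exp_I_mul_ofReal_sub_one_le.trans ?_
  rw [Real.norm_eq_abs, abs_mul, abs_of_pos (by positivity)]

theorem abs_sqrt_sub_sqrt_le {x y : ℝ} (hx : 0 ≤ x) (hy : 0 ≤ y) :
    |Real.sqrt x - Real.sqrt y| ≤ Real.sqrt |x - y| := by
  apply Real.le_sqrt_of_sq_le
  rw [sq_abs]
  have hsx := Real.sq_sqrt hx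
  have hsy := Real.sq_sqrt hy
  have h1 := Real.sqrt_nonneg x
  have h2 := Real.sqrt_nonneg y
  rcases le_total y x with h | h
  · rw [abs_of_nonneg (by linarith)]
    have h3 := Real.sqrt_le_sqrt h
    nlinarith
  · rw [abs_of_nonpos (by linarith)]
    have h3 := Real.sqrt_le_sqrt h
    nlinarith

/-- the value of `c - A` at the node on the right of block `i` -/
noncomputable def vr (d : TD) (i : ℤ) : ℂ :=
  Complex.I * (d.s (i + 1) * Real.sqrt (1 - d.A i ^ 2) : ℝ)

/-- the value of `c - A` at the node on the left of block `i` -/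
noncomputable def vl (d : TD) (i : ℤ) : ℂ :=
  Complex.I * (d.s i * Real.sqrt (1 - d.A i ^ 2) : ℝ)

/-- the carrier of block `i` -/
noncomputable def car (M : ℕ) (d : TD) (i : ℤ) (x : ℝ) : ℂ :=
  d.om i * e1 ((d.kk i : ℝ) * (x - (i : ℝ) / (2 * M)))

theorem norm_car (h : COk c d L ηj) (i : ℤ) (x : ℝ) : ‖car M d i x‖ = 1 := by
  unfold car
  rw [norm_mul, h.om_norm, norm_e1, one_mul]

theorem sqrt_good (h : COk c d L ηj) {i : ℤ} (hb : ¬ d.bad i) :
    Real.sqrt (1 - d.A i ^ 2) ≤ Real.sqrt (2 * ηj) := by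
  apply Real.sqrt_le_sqrt
  have h1 := h.good i hb
  have h2 := h.A_nonneg i
  have h3 := h.A_le i
  nlinarith

theorem norm_vr_le (h : COk c d L ηj) (i : ℤ) : ‖vr d i‖ ≤ Real.sqrt (1 - d.A i ^ 2) := by
  unfold vr
  rw [norm_mul, Complex.norm_I, one_mul, Complex.norm_real, Real.norm_eq_abs, abs_mul,
    abs_of_nonneg (Real.sqrt_nonneg _)]
  have h1 := h.s_le (i + 1)
  have h2 := Real.sqrt_nonneg (1 - d.A i ^ 2)
  nlinarith

theorem norm_vl_le (h : COk c d L ηj) (i : ℤ) : ‖vl d i‖ ≤ Real.sqrt (1 - d.A i ^ 2) := by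
  unfold vl
  rw [norm_mul, Complex.norm_I, one_mul, Complex.norm_real, Real.norm_eq_abs, abs_mul,
    abs_of_nonneg (Real.sqrt_nonneg _)]
  have h1 := h.s_le i
  have h2 := Real.sqrt_nonneg (1 - d.A i ^ 2)
  nlinarith

theorem sqrt_le_one (h : COk c d L ηj) (i : ℤ) : Real.sqrt (1 - d.A i ^ 2) ≤ 1 := by
  have h1 : 1 - d.A i ^ 2 ≤ 1 := by
    have := sq_nonneg (d.A i)
    linarith
  exact (Real.sqrt_le_sqrt h1).trans_eq Real.sqrt_one

/-- near the right end -/
theorem GG_right (h : COk c d L ηj) (i : ℤ) {x : ℝ} (h0 : 0 ≤ 2 * (M : ℝ) * x + 1 / 2 - i)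
    (h1 : 2 * (M : ℝ) * x + 1 / 2 - i ≤ 1) :
    ‖GG M c d i x - car M d i x * vr d i‖ ≤
      L * (1 - (2 * (M : ℝ) * x + 1 / 2 - i)) + Real.sqrt (2 * ηj) := by
  have hL := h.L_nonneg
  have hs := Real.sqrt_nonneg (2 * ηj)
  by_cases hb : d.bad i
  · have h2 : GG M c d i x - car M d i x * vr d i = car M d i x *
        (c (d.A i) (d.s i) (d.s (i + 1)) (d.r i) (2 * (M : ℝ) * x + 1 / 2 - i) -
          c (d.A i) (d.s i) (d.s (i + 1)) (d.r i) 1) := by
      unfold GG car vr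
      rw [if_pos hb, h.c_one i hb]
      ring
    rw [h2, norm_mul, norm_car h, one_mul]
    refine (h.c_lip i hb _ 1 h0 h1 zero_le_one le_rfl).trans ?_
    rw [abs_sub_comm, abs_of_nonneg (by linarith)]
    linarith
  · have h2 : GG M c d i x = 0 := by
      unfold GG
      rw [if_neg hb]
    rw [h2, zero_sub, norm_neg, norm_mul, norm_car h, one_mul]
    have h3 := (norm_vr_le h i).trans (sqrt_good h hb)
    have h4 : 0 ≤ L * (1 - (2 * (M : ℝ) * x + 1 / 2 - i)) := mul_nonneg hL (by linarith)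
    linarith

/-- near the left end -/
theorem GG_left (h : COk c d L ηj) (i : ℤ) {x : ℝ} (h0 : 0 ≤ 2 * (M : ℝ) * x + 1 / 2 - i)
    (h1 : 2 * (M : ℝ) * x + 1 / 2 - i ≤ 1) :
    ‖GG M c d i x - car M d i x * vl d i‖ ≤
      L * (2 * (M : ℝ) * x + 1 / 2 - i) + Real.sqrt (2 * ηj) := by
  have hL := h.L_nonneg
  have hs := Real.sqrt_nonneg (2 * ηj)
  by_cases hb : d.bad i
  · have h2 : GG M c d i x - car M d i x * vl d i = car M d i x *
        (c (d.A i) (d.s i) (d.s (i + 1)) (d.r i) (2 * (M : ℝ) * x + 1 / 2 - i) -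
          c (d.A i) (d.s i) (d.s (i + 1)) (d.r i) 0) := by
      unfold GG car vl
      rw [if_pos hb, h.c_zero i hb]
      ring
    rw [h2, norm_mul, norm_car h, one_mul]
    refine (h.c_lip i hb _ 0 h0 h1 le_rfl zero_le_one).trans ?_
    rw [sub_zero, abs_of_nonneg h0]
    linarith
  · have h2 : GG M c d i x = 0 := by
      unfold GG
      rw [if_neg hb]
    rw [h2, zero_sub, norm_neg, norm_mul, norm_car h, one_mul]
    have h3 := (norm_vl_le h i).trans (sqrt_good h hb)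
    have h4 : 0 ≤ L * (2 * (M : ℝ) * x + 1 / 2 - i) := mul_nonneg hL h0
    linarith

/-- matching at the node -/
theorem match_node (hM : 0 < M) (h : COk c d L ηj) {ε1 ε2 D : ℝ} (i : ℤ)
    (hk : |(d.kk (i + 1) : ℝ) - d.kk i| ≤ D)
    (hom : ‖d.om (i + 1) - d.om i * e1 ((d.kk i : ℝ) / (2 * M))‖ ≤ ε1)
    (hA : |d.A (i + 1) - d.A i| ≤ ε2) {x : ℝ}
    (h0 : 0 ≤ 2 * (M : ℝ) * x + 1 / 2 - ((i + 1 : ℤ) : ℝ))
    (h1 : 2 * (M : ℝ) * x + 1 / 2 - ((i + 1 : ℤ) : ℝ) ≤ 1) :
    ‖car M d (i + 1) x * vl d (i + 1) - car M d i x * vr d i‖ ≤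
      Real.sqrt (2 * ε2) + ε1 + Real.pi * D / M := by
  have hM' : (0 : ℝ) < M := by exact_mod_cast hM
  have hD : 0 ≤ D := (abs_nonneg _).trans hk
  have hπ := Real.pi_pos
  set y : ℝ := x - ((i + 1 : ℤ) : ℝ) / (2 * M) with hy
  have hyM : |y| ≤ 1 / (2 * M) := by
    have h2 : y = (2 * (M : ℝ) * x + 1 / 2 - ((i + 1 : ℤ) : ℝ) - 1 / 2) / (2 * M) := by
      rw [hy]
      field_simp
      ring
    rw [h2, abs_div, abs_of_pos (by positivity : (0 : ℝ) < 2 * M)]
    apply div_le_div_of_nonneg_right _ (by positivity)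
    rw [abs_le]
    constructor <;> linarith
  have hcar : car M d i x = d.om i * e1 ((d.kk i : ℝ) / (2 * M)) * e1 ((d.kk i : ℝ) * y) := by
    unfold car
    rw [mul_assoc, ← e1_add]
    congr 2
    rw [hy]
    push_cast
    field_simp
    ring
  have h2 : ‖car M d (i + 1) x - car M d i x‖ ≤ ε1 + Real.pi * D / M := by
    have h3 : car M d (i + 1) x - car M d i x =
        (d.om (i + 1) - d.om i * e1 ((d.kk i : ℝ) / (2 * M))) * e1 ((d.kk (i + 1) : ℝ) * y) +
        d.om i * e1 ((d.kk i : ℝ) / (2 * M)) *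
          (e1 ((d.kk (i + 1) : ℝ) * y) - e1 ((d.kk i : ℝ) * y)) := by
      rw [hcar]
      unfold car
      rw [← hy]
      ring
    rw [h3]
    refine (norm_add_le _ _).trans (add_le_add ?_ ?_)
    · rw [norm_mul, norm_e1, mul_one]
      exact hom
    · rw [norm_mul, norm_mul, h.om_norm, norm_e1, one_mul, one_mul]
      refine (norm_e1_sub_le _ _).trans ?_
      rw [← sub_mul, abs_mul]
      have h4 : |(d.kk (i + 1) : ℝ) - d.kk i| * |y| ≤ D * (1 / (2 * M)) :=
        mul_le_mul hk hyM (abs_nonneg _) hD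
      have h5 : Real.pi * D / M = 2 * Real.pi * (D * (1 / (2 * M))) := by
        field_simp
      rw [h5]
      exact mul_le_mul_of_nonneg_left h4 (by positivity)
  have h6 : ‖vl d (i + 1) - vr d i‖ ≤ Real.sqrt (2 * ε2) := by
    unfold vl vr
    rw [← mul_sub, norm_mul, Complex.norm_I, one_mul, ← Complex.ofReal_sub, Complex.norm_real,
      Real.norm_eq_abs, ← mul_sub, abs_mul]
    have h7 := h.s_le (i + 1)
    have hA1 := h.A_nonneg i
    have hA2 := h.A_nonneg (i + 1)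
    have hA3 := h.A_le i
    have hA4 := h.A_le (i + 1)
    have h8 : |Real.sqrt (1 - d.A (i + 1) ^ 2) - Real.sqrt (1 - d.A i ^ 2)| ≤
        Real.sqrt (2 * ε2) := by
      refine (abs_sqrt_sub_sqrt_le (by nlinarith) (by nlinarith)).trans ?_
      apply Real.sqrt_le_sqrt
      have h9 : 1 - d.A (i + 1) ^ 2 - (1 - d.A i ^ 2) =
          -((d.A (i + 1) - d.A i) * (d.A (i + 1) + d.A i)) := by ring
      rw [h9, abs_neg, abs_mul, abs_of_nonneg (by linarith : 0 ≤ d.A (i + 1) + d.A i)]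
      have h10 := abs_nonneg (d.A (i + 1) - d.A i)
      nlinarith
    have h11 := abs_nonneg (Real.sqrt (1 - d.A (i + 1) ^ 2) - Real.sqrt (1 - d.A i ^ 2))
    nlinarith
  have h12 : car M d (i + 1) x * vl d (i + 1) - car M d i x * vr d i =
      car M d (i + 1) x * (vl d (i + 1) - vr d i) +
        (car M d (i + 1) x - car M d i x) * vr d i := by ring
  rw [h12]
  refine (norm_add_le _ _).trans ?_
  rw [norm_mul, norm_mul, norm_car h, one_mul]
  have h13 : ‖vr d i‖ ≤ 1 := (norm_vr_le h i).trans (sqrt_le_one h i)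
  have h14 : ‖car M d (i + 1) x - car M d i x‖ * ‖vr d i‖ ≤ (ε1 + Real.pi * D / M) * 1 :=
    mul_le_mul h2 h13 (norm_nonneg _) ((norm_nonneg _).trans h2)
  linarith

/-- local structure of the correction: in a window of radius `w` with `4 M w ≤ 1` it is close to
a pure frequency -/
theorem local_structure (hM : 0 < M) (h : COk c d L ηj) {ε1 ε2 D : ℝ}
    (hk : ∀ i, |(d.kk (i + 1) : ℝ) - d.kk i| ≤ D)
    (hom : ∀ i, ‖d.om (i + 1) - d.om i * e1 ((d.kk i : ℝ) / (2 * M))‖ ≤ ε1)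
    (hA : ∀ i, |d.A (i + 1) - d.A i| ≤ ε2) {w : ℝ} (hw : 0 < w) (hw2 : 4 * (M : ℝ) * w ≤ 1)
    (x : ℝ) : ∃ (i : ℤ) (a : ℂ), ‖a‖ ≤ 2 ∧ ∀ u, |u| ≤ w →
      ‖FF M c d (x - u) - a * e1 (-((d.kk i : ℝ) * u))‖ ≤
        4 * M * w * L + Real.sqrt (2 * ηj) + Real.sqrt (2 * ε2) + ε1 + Real.pi * D / M := by
  have hM' : (0 : ℝ) < M := by exact_mod_cast hM
  have hL := h.L_nonneg
  have hD : 0 ≤ D := (abs_nonneg _).trans (hk 0)
  have hε1 : 0 ≤ ε1 := (norm_nonneg _).trans (hom 0)
  have hπ := Real.pi_pos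
  have hs1 := Real.sqrt_nonneg (2 * ηj)
  have hs2 := Real.sqrt_nonneg (2 * ε2)
  have hDM : 0 ≤ Real.pi * D / M := by positivity
  set i := bi M (x - w) with hi
  obtain ⟨hl0, hl1⟩ := bt_mem (M := M) (x - w)
  rw [← hi] at hl0 hl1
  have hcar : ∀ u, car M d i (x - u) = car M d i x * e1 (-((d.kk i : ℝ) * u)) := by
    intro u
    unfold car
    rw [mul_assoc, ← e1_add]
    congr 2
    ring
  by_cases hcase : 2 * (M : ℝ) * (x + w) + 1 / 2 - i < 1
  · -- one block only
    have hblk : ∀ u, |u| ≤ w → bi M (x - u) = i ∧ 0 ≤ 2 * (M : ℝ) * (x - u) + 1 / 2 - i ∧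
        2 * (M : ℝ) * (x - u) + 1 / 2 - i < 1 := by
      intro u hu
      obtain ⟨h1, h2⟩ := abs_le.1 hu
      have h3 : 0 ≤ 2 * (M : ℝ) * (x - u) + 1 / 2 - i := by nlinarith
      have h4 : 2 * (M : ℝ) * (x - u) + 1 / 2 - i < 1 := by nlinarith
      refine ⟨?_, h3, h4⟩
      unfold bi
      rw [Int.floor_eq_iff]
      constructor <;> linarith
    refine ⟨i, FF M c d x, norm_FF_le h x, fun u hu => ?_⟩
    obtain ⟨hb1, hb2, hb3⟩ := hblk u hu
    obtain ⟨hx1, hx2, hx3⟩ := hblk 0 (by rw [abs_zero]; exact hw.le)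
    rw [sub_zero] at hx1 hx2 hx3
    have hmain : ‖FF M c d (x - u) - FF M c d x * e1 (-((d.kk i : ℝ) * u))‖ ≤
        4 * M * w * L := by
      unfold FF
      rw [hb1, hx1]
      by_cases hb : d.bad i
      · have h5 : GG M c d i (x - u) - GG M c d i x * e1 (-((d.kk i : ℝ) * u)) =
            car M d i (x - u) * (c (d.A i) (d.s i) (d.s (i + 1)) (d.r i)
              (2 * (M : ℝ) * (x - u) + 1 / 2 - i) -
              c (d.A i) (d.s i) (d.s (i + 1)) (d.r i) (2 * (M : ℝ) * x + 1 / 2 - i)) := by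
          have h6 := hcar u
          unfold car at h6 ⊢
          unfold GG
          rw [if_pos hb, if_pos hb, h6]
          ring
        rw [h5, norm_mul, norm_car h, one_mul]
        refine (h.c_lip i hb _ _ hb2 hb3.le hx2 hx3.le).trans ?_
        have h7 : 2 * (M : ℝ) * (x - u) + 1 / 2 - i - (2 * (M : ℝ) * x + 1 / 2 - i) =
            -(2 * M * u) := by ring
        rw [h7, abs_neg, abs_mul, abs_of_pos (by positivity : (0 : ℝ) < 2 * M)]
        have h8 : 2 * (M : ℝ) * |u| ≤ 2 * M * w := by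
          exact mul_le_mul_of_nonneg_left hu (by positivity)
        have h9 : L * (2 * (M : ℝ) * |u|) ≤ L * (2 * M * w) :=
          mul_le_mul_of_nonneg_left h8 hL
        have h10 : 0 ≤ L * (2 * M * w) := by positivity
        linarith
      · have h5 : ∀ y, GG M c d i y = 0 := by
          intro y
          unfold GG
          rw [if_neg hb]
        rw [h5, h5, zero_mul, sub_zero, norm_zero]
        positivity
    linarith
  · -- the node on the right of block `i` is in the window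
    rw [not_lt] at hcase
    have hvr : ‖vr d i‖ ≤ 1 := (norm_vr_le h i).trans (sqrt_le_one h i)
    refine ⟨i, car M d i x * vr d i, ?_, fun u hu => ?_⟩
    · rw [norm_mul, norm_car h, one_mul]
      linarith
    obtain ⟨hu1, hu2⟩ := abs_le.1 hu
    have h3 : 0 ≤ 2 * (M : ℝ) * (x - u) + 1 / 2 - i := by nlinarith
    have h4 : 2 * (M : ℝ) * (x - u) + 1 / 2 - i < 2 := by nlinarith
    have ha : car M d i x * vr d i * e1 (-((d.kk i : ℝ) * u)) = car M d i (x - u) * vr d i := by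
      rw [hcar]
      ring
    rw [ha]
    by_cases h5 : 2 * (M : ℝ) * (x - u) + 1 / 2 - i < 1
    · have h6 : bi M (x - u) = i := by
        unfold bi
        rw [Int.floor_eq_iff]
        constructor <;> linarith
      unfold FF
      rw [h6]
      refine (GG_right h i h3 h5.le).trans ?_
      have h7 : 1 - (2 * (M : ℝ) * (x - u) + 1 / 2 - i) ≤ 4 * M * w := by nlinarith
      have h8 : L * (1 - (2 * (M : ℝ) * (x - u) + 1 / 2 - i)) ≤ L * (4 * M * w) :=
        mul_le_mul_of_nonneg_left h7 hL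
      linarith
    · rw [not_lt] at h5
      have h6 : bi M (x - u) = i + 1 := by
        unfold bi
        rw [Int.floor_eq_iff]
        push_cast
        constructor <;> linarith
      have h7 : 0 ≤ 2 * (M : ℝ) * (x - u) + 1 / 2 - ((i + 1 : ℤ) : ℝ) := by
        push_cast
        linarith
      have h8 : 2 * (M : ℝ) * (x - u) + 1 / 2 - ((i + 1 : ℤ) : ℝ) ≤ 1 := by
        push_cast
        linarith
      unfold FF
      rw [h6]
      have h9 := GG_left h (i + 1) h7 h8
      have h10 := match_node hM h i (hk i) (hom i) (hA i) h7 h8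
      have h11 : 2 * (M : ℝ) * (x - u) + 1 / 2 - ((i + 1 : ℤ) : ℝ) ≤ 4 * M * w := by
        push_cast
        nlinarith
      have h12 : L * (2 * (M : ℝ) * (x - u) + 1 / 2 - ((i + 1 : ℤ) : ℝ)) ≤ L * (4 * M * w) :=
        mul_le_mul_of_nonneg_left h11 hL
      have h13 := norm_sub_le_norm_sub_add_norm_sub (GG M c d (i + 1) (x - u))
        (car M d (i + 1) (x - u) * vl d (i + 1)) (car M d i (x - u) * vr d i)
      linarith

/-- the modulus after correction -/
theorem modulus (h : COk c d L ηj) (hη : 0 ≤ ηj) {g : ℝ → ℂ} (hg : ∀ x, ‖g x‖ ≤ 1) {τ : ℝ}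
    (x : ℝ) (hx : ‖g x - d.A (bi M x) * car M d (bi M x) x‖ ≤ τ) :
    |‖g x + FF M c d x‖ - 1| ≤ τ + ηj := by
  have hτ : 0 ≤ τ := (norm_nonneg _).trans hx
  unfold FF
  have hmem := bt_mem (M := M) x
  generalize bi M x = i at hx hmem ⊢
  by_cases hb : d.bad i
  · have h1 : g x + GG M c d i x = (g x - d.A i * car M d i x) + car M d i x *
        c (d.A i) (d.s i) (d.s (i + 1)) (d.r i) (2 * (M : ℝ) * x + 1 / 2 - i) := by
      unfold GG car
      rw [if_pos hb]
      ring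
    have h2 : ‖car M d i x *
        c (d.A i) (d.s i) (d.s (i + 1)) (d.r i) (2 * (M : ℝ) * x + 1 / 2 - i)‖ = 1 := by
      rw [norm_mul, norm_car h, h.c_norm i hb _ hmem.1 hmem.2.le, one_mul]
    rw [h1, abs_le]
    have h3 := norm_add_le (g x - d.A i * car M d i x) (car M d i x *
        c (d.A i) (d.s i) (d.s (i + 1)) (d.r i) (2 * (M : ℝ) * x + 1 / 2 - i))
    have h4 := norm_sub_norm_le (car M d i x *
        c (d.A i) (d.s i) (d.s (i + 1)) (d.r i) (2 * (M : ℝ) * x + 1 / 2 - i))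
        (-(g x - d.A i * car M d i x))
    rw [sub_neg_eq_add, norm_neg, add_comm (car M d i x * _)] at h4
    constructor <;> linarith
  · have h1 : GG M c d i x = 0 := by
      unfold GG
      rw [if_neg hb]
    rw [h1, add_zero]
    have h2 := h.good i hb
    have h3 : ‖(d.A i : ℂ) * car M d i x‖ = d.A i := by
      rw [norm_mul, norm_car h, mul_one, Complex.norm_real, Real.norm_eq_abs,
        abs_of_nonneg (h.A_nonneg i)]
    have h4 := norm_sub_norm_le ((d.A i : ℂ) * car M d i x) (g x)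
    rw [h3, norm_sub_rev] at h4
    rw [abs_le]
    have h5 := hg x
    constructor <;> linarith

end Vale.Agent.P110T
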