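import Vale.Agent.Lib.P110T.Iface
import Vale.Agent.Lib.P110T.GA
import Vale.Agent.Lib.P110T.Carrier
import Vale.Agent.Lib.P110T.Count
import Vale.Agent.Lib.P110T.Num
import Vale.Agent.Lib.P110T.ConstB
import Vale.Agent.Lib.P110T.Glue
import Vale.Agent.Lib.P110T.TLoc
import Vale.Agent.Lib.P110T.COkB
import Vale.Agent.Lib.P110T.Ext
import Vale.Agent.Lib.P110T.Close

/-!
# P110T: the correction theorem (assembly)
-/

namespace Vale.Agent.P110T

open MeasureTheory Vale.Agent.P110F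
open scoped ComplexConjugate

/-- what the choice of signs supplies -/
def SignsT : Prop := ∃ C : ℝ, 0 < C ∧ ∀ (M m : ℕ), 0 < M → ∀ (A : ℕ → ℝ) (om : ℕ → ℂ)
    (kk : ℕ → ℤ) (θ : ℝ), (∀ i ≤ M, 0 ≤ A i ∧ A i ≤ 1) → (∀ i ≤ M, ‖om i‖ = 1) →
    (om 0).im = 0 → (om M).im = 0 →
    2 * ((Finset.range (M + 1)).filter fun i => A i ≤ 1 - θ).card ≤ m →
    ∃ (s : ℕ → ℝ) (r : ℕ → Bool), (∀ i, s i = 1 ∨ s i = -1) ∧ ∀ j < m, ∃ t : ℝ,
      (∫ y in (0 : ℝ)..1, FF M cB (mkTD M A om kk (fun i => A i ≤ 1 - θ) s r) y *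
        e1 (-((j : ℝ) * y))) = t ∧
      |t| ≤ C * (4 / M) * Real.sqrt (Real.sqrt
        ((((Finset.range (M + 1)).filter fun i => A i ≤ 1 - θ).card : ℝ) * m))

theorem correction_of (hsig : SignsT) : Correction := by
  intro η δ μ hη hδ hμ hμ1
  obtain ⟨C, hC, hsigns⟩ := hsig
  obtain ⟨θ, w0, κ, τ, ε0, hθ, hθ4, hw0, hw1, hκ, hτ, hτθ, hε0, hbig, hsmall⟩ :=
    corr_constsB (L := fun x => 32 * Real.pi / Real.sqrt x) hη hδ hμ hC (fun x hx => by positivity)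
  set ε : ℝ := min ε0 (κ * θ / 32) with hεdef
  have hε : 0 < ε := lt_min hε0 (by positivity)
  have h32 : 32 * ε ≤ κ * θ := by
    have := min_le_right ε0 (κ * θ / 32)
    linarith
  have hsmall' : 8 * C * κ * √(√(16 * ε / (κ * θ))) ≤ δ := by
    refine le_trans ?_ hsmall
    have h11 : 16 * ε / (κ * θ) ≤ 16 * ε0 / (κ * θ) := by
      have := min_le_left ε0 (κ * θ / 32)
      gcongr
    exact mul_le_mul_of_nonneg_left (Real.sqrt_le_sqrt (Real.sqrt_le_sqrt h11)) (by positivity)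
  obtain ⟨η', K, hη', hK, Nc, hcar⟩ := carrier (a := μ) hτ hκ
  obtain ⟨Nn, hnum⟩ := corr_num hκ hμ hμ1 hθ hε hC h32
  refine ⟨ε, η', K, hε, hη', hK, max 1 (max Nc Nn), fun N hN n b hb => ?_⟩
  have hN1 : 1 ≤ N := (le_max_left _ _).trans hN
  have hNc : Nc ≤ N := ((le_max_left _ _).trans (le_max_right _ _)).trans hN
  have hNn : Nn ≤ N := ((le_max_right _ _).trans (le_max_right _ _)).trans hN
  have hN1' : (1 : ℝ) ≤ N := by exact_mod_cast hN1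
  have hn : 0 < n := by
    have h1 := hb.ge
    have h2 : (0 : ℝ) < n := lt_of_lt_of_le (by nlinarith) h1
    exact_mod_cast h2
  have hnN : n ≤ N := hb.le
  obtain ⟨g, hg, hgc, hg1, hgn, hg0, hgh, hgle, hge, hpure⟩ := g_facts hn hb
  obtain ⟨M, q, hM, hq, hqN, hNM, hMN, hsq, hw, hk, hcard⟩ := hnum N hNn
  obtain ⟨k, ω, hkb, hω, hω0, hωM, hgi, hAi, hki, hωi⟩ :=
    hcar N hNc M hM hNM g hgle hg0 hgh hpure
  have hM' : (0 : ℝ) < M := by exact_mod_cast hM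
  set A : ℕ → ℝ := fun i => ‖g ((i : ℝ) / (2 * M))‖ with hA
  have hA0 : ∀ i, 0 ≤ A i := fun i => norm_nonneg _
  have hA1 : ∀ i, A i ≤ 1 := fun i => hgle _
  have hslow : ∀ i ≤ M, ∀ x : ℝ, |x - (i : ℝ) / (2 * M)| ≤ 1 / (2 * M) →
      |‖g x‖ - ‖g ((i : ℝ) / (2 * M))‖| ≤ τ := by
    intro i hi x hx
    have h1 := hgi i hi x hx
    have h2 : ‖(‖g ((i : ℝ) / (2 * M))‖ : ℂ) * ω i * e1 (k i * (x - i / (2 * M)))‖ =
        ‖g ((i : ℝ) / (2 * M))‖ := by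
      rw [norm_mul, norm_mul, hω i hi, norm_e1, mul_one, mul_one, Complex.norm_real, norm_norm]
    have h3 := abs_norm_sub_norm_le (g x)
      ((‖g ((i : ℝ) / (2 * M))‖ : ℂ) * ω i * e1 (k i * (x - i / (2 * M))))
    rw [h2] at h3
    exact h3.trans h1
  have hcnt := bad_count hθ (by linarith) hτθ hM hgc hgle hge hslow
  obtain ⟨h2card, hrt⟩ := hcard _ hcnt
  obtain ⟨s, r, hs, hcoef⟩ := hsigns M N hM A ω k θ (fun i _ => ⟨hA0 i, hA1 i⟩) hω hω0 hωM h2card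
  have hAi' : ∀ i < M, |A (i + 1) - A i| ≤ τ := by
    intro i hi
    have := hAi i hi
    simp only [hA]
    push_cast
    exact this
  -- the data on all of `ℤ`
  set d : TD := mkTD M A ω k (fun i => A i ≤ 1 - θ) s r with hd
  have hdA0 : ∀ i, 0 ≤ d.A i := fun i => hA0 _
  have hdA1 : ∀ i, d.A i ≤ 1 := fun i => hA1 _
  have hds : ∀ i, d.s i = 1 ∨ d.s i = -1 := fun i => mkTD_s_one hM hs i
  have hdbad : ∀ i, d.bad i ↔ d.A i ≤ 1 - θ := fun i => Iff.rfl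
  have hdom : ∀ i, ‖d.om i‖ = 1 := fun i => mkTD_om_norm hM hω i
  have hOk : COk cB d (32 * Real.pi / Real.sqrt θ) θ :=
    cok_cB hθ (by linarith) hdom hdA0 hdA1 hds hdbad
  have hT : Measurable (FF M cB d) := measurable_FF fun i _ => (continuous_cB _ _ _ _).measurable
  have hper : ∀ x, FF M cB d (x + 1) = FF M cB d x :=
    FF_add_one hM (mkTD_A_add hM) (mkTD_om_add hM) (mkTD_kk_add hM) (mkTD_s_add hM)
      (mkTD_r_add hM) (mkTD_bad_add hM)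
  have hB : ∀ x, ‖FF M cB d x‖ ≤ 2 := norm_FF_le hOk
  have hmod : ∀ x, |‖g x + FF M cB d x‖ - 1| ≤ τ + θ := by
    refine modulus_all hM hOk hθ.le (mkTD_A_neg hM) (mkTD_A_add hM) (mkTD_om_neg hM hω0 hωM)
      (mkTD_om_add hM) (mkTD_kk_neg hM) (mkTD_kk_add hM) hgle hg1 hgn fun i hi x hx => ?_
    have e1' : d.A (i : ℤ) = A i := by
      show A (fo M (i : ℤ)) = A i
      rw [fo_nat hM hi]
    have e2' : d.kk (i : ℤ) = k i := by
      show k (fo M (i : ℤ)) = k i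
      rw [fo_nat hM hi]
    have e3' : d.om (i : ℤ) = ω i := by
      show (if rs M (i : ℤ) ≤ M then ω (rs M (i : ℤ)) else conj (ω (2 * M - rs M (i : ℤ)))) = ω i
      rw [rs_nat (by omega : i < 2 * M), if_pos hi]
    have h1 := hgi i hi x hx
    unfold car
    rw [e1', e2', e3', ← mul_assoc]
    simpa using h1
  have hw0' : 0 < w0 / (2 * (M : ℝ)) := by positivity
  have hM1 : (1 : ℝ) ≤ M := by exact_mod_cast hM
  have hDM : Real.pi * (τ * N) / M ≤ Real.pi * (2 * κ * τ) := by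
    rw [div_le_iff₀ hM']
    have h1 : τ * N ≤ τ * (2 * M * κ) := mul_le_mul_of_nonneg_left hNM hτ.le
    calc Real.pi * (τ * N) ≤ Real.pi * (τ * (2 * M * κ)) :=
          mul_le_mul_of_nonneg_left h1 Real.pi_pos.le
      _ = Real.pi * (2 * κ * τ) * M := by ring
  set E : ℝ := 2 * w0 * (32 * Real.pi / Real.sqrt θ) + √(2 * θ) + √(2 * τ) +
    2 * (τ + Real.pi * (2 * κ * τ)) with hE
  have hloc : ∀ x, ∃ (k : ℤ) (a : ℂ), ‖a‖ ≤ 2 ∧ (q : ℤ) ≤ k ∧ k + q + 1 ≤ N ∧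
      ∀ u, |u| ≤ w0 / (2 * M) → ‖FF M cB d (x - u) - a * e1 (-(k * u))‖ ≤ E := by
    intro x
    have h4 : 4 * (M : ℝ) * (w0 / (2 * M)) = 2 * w0 := by
      field_simp
      ring
    obtain ⟨i, a, ha, hi⟩ := local_structure hM hOk
      (mkTD_kk_succ hM hki) (mkTD_om_succ hM hω0 hωM hω hki hωi) (mkTD_A_succ hM hAi')
      (w := w0 / (2 * M)) hw0' (by rw [h4]; linarith) x
    have hb1 : μ * N - 1 ≤ (d.kk i : ℝ) ∧ (d.kk i : ℝ) ≤ (1 - μ) * N := hkb _ (fo_le hM i)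
    obtain ⟨hk1, hk2⟩ := hk (d.kk i) hb1.1 (by linarith [hb1.2])
    refine ⟨d.kk i, a, ha, hk1, hk2, fun u hu => (hi u hu).trans ?_⟩
    rw [h4, hE]
    linarith
  obtain ⟨t, ht, hx⟩ := corr_glue hn hq hqN hg hT hper hB (d := τ + θ) (w := w0 / (2 * M))
    (ε := E) hw0' (by
      rw [div_le_iff₀ (by positivity)]
      nlinarith) (by positivity) hmod hloc hcoef
  refine ⟨t, fun j => (ht j).trans ((hrt n hnN).trans hsmall'), fun x => (hx x).trans ?_⟩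
  have hE0 : 0 ≤ E := by positivity
  have h1 : τ + θ + (E * (1 + √((N : ℝ) / q)) + 2 / ((q : ℝ) * (w0 / (2 * M)))) ≤ η := by
    refine le_trans ?_ hbig
    have h2 : E * (1 + √((N : ℝ) / q)) ≤ E * (1 + √(4 / μ)) :=
      mul_le_mul_of_nonneg_left (by linarith) hE0
    have h3 := hw w0 hw0
    rw [hE] at h2 ⊢
    linarith
  have h4 : √(n : ℝ) ≤ √(N : ℝ) := Real.sqrt_le_sqrt (by exact_mod_cast hnN)
  calc √(n : ℝ) * (τ + θ + (E * (1 + √((N : ℝ) / q)) + 2 / ((q : ℝ) * (w0 / (2 * M)))))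
      ≤ √(n : ℝ) * η := mul_le_mul_of_nonneg_left h1 (Real.sqrt_nonneg _)
    _ ≤ √(N : ℝ) * η := mul_le_mul_of_nonneg_right h4 hη.le
    _ = η * √(N : ℝ) := mul_comm _ _

end Vale.Agent.P110T
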