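import Vale.Agent.Lib.P110U.D3a

/-!
# P110T: two rounds of rounding
-/

namespace Vale.Agent.P110T

open Vale.Agent.P110U

private theorem Rounds_err {C x : ℝ} (hC : 0 < C) (hx : 0 ≤ x) (t : ℕ) :
    C / 2 ^ t * Real.sqrt (Real.sqrt (2 ^ t * x)) ≤
      C * Real.sqrt (Real.sqrt x) * (3 / 5 : ℝ) ^ t := by
  have h4 : ∀ y : ℝ, 0 ≤ y → Real.sqrt (Real.sqrt (y ^ 4)) = y := by
    intro y hy
    have h5 : y ^ 4 = (y ^ 2) ^ 2 := by ring
    rw [h5, Real.sqrt_sq (by positivity), Real.sqrt_sq hy]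
  have h1 : Real.sqrt (Real.sqrt (2 ^ t * x)) ≤ (6 / 5 : ℝ) ^ t * Real.sqrt (Real.sqrt x) := by
    have h6 : (6 / 5 : ℝ) ^ t * Real.sqrt (Real.sqrt x) =
        Real.sqrt (Real.sqrt ((((6 / 5 : ℝ) ^ t) ^ 4) * x)) := by
      rw [Real.sqrt_mul (by positivity), Real.sqrt_mul (Real.sqrt_nonneg _),
        h4 _ (by positivity)]
    rw [h6]
    refine Real.sqrt_le_sqrt (Real.sqrt_le_sqrt (mul_le_mul_of_nonneg_right ?_ hx))
    rw [← pow_mul, mul_comm t 4, pow_mul]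
    exact pow_le_pow_left₀ (by norm_num) (by norm_num) t
  calc C / 2 ^ t * Real.sqrt (Real.sqrt (2 ^ t * x)) ≤
      C / 2 ^ t * ((6 / 5 : ℝ) ^ t * Real.sqrt (Real.sqrt x)) :=
        mul_le_mul_of_nonneg_left h1 (by positivity)
    _ = C * Real.sqrt (Real.sqrt x) * (3 / 5 : ℝ) ^ t := by
        rw [show (3 / 5 : ℝ) = (6 / 5) / 2 by norm_num, div_pow (6 / 5 : ℝ) 2 t]
        ring

/-- linear discrepancy with all variables -/
private theorem Rounds_all : ∃ C : ℝ, 0 < C ∧ ∀ (n m : ℕ), n ≤ m →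
    ∀ a : Fin m → Fin n → ℝ, (∀ i j, |a i j| ≤ 1) →
    ∀ p : Fin n → ℝ, (∀ j, 0 ≤ p j ∧ p j ≤ 1) →
    ∃ f : Fin n → ℝ, (∀ j, f j = 0 ∨ f j = 1) ∧
      ∀ i, |∑ j, a i j * (f j - p j)| ≤ C * Real.sqrt (Real.sqrt ((n : ℝ) * m)) := by
  obtain ⟨C, hC, hst⟩ := round_step
  refine ⟨2 * C + 1, by linarith, fun n m hnm a ha p hp => ?_⟩
  rcases Nat.eq_zero_or_pos n with hn | hn
  · subst hn
    refine ⟨fun _ => 0, fun j => Or.inl rfl, fun i => ?_⟩
    simp
  have hn1 : (1 : ℝ) ≤ n := by exact_mod_cast hn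
  have hm1 : (1 : ℝ) ≤ m := hn1.trans (by exact_mod_cast hnm)
  set D : ℝ := Real.sqrt (Real.sqrt ((n : ℝ) * m)) with hD
  have hD1 : 1 ≤ D := by
    rw [hD, Real.one_le_sqrt, Real.one_le_sqrt]
    nlinarith
  -- levels
  have hlev : ∀ t : ℕ, ∀ q : Fin n → ℝ, (∀ j, ∃ z : ℤ, q j = z / 2 ^ t) →
      (∀ j, 0 ≤ q j ∧ q j ≤ 1) → ∃ f : Fin n → ℝ, (∀ j, ∃ z : ℤ, f j = z / 2 ^ 0) ∧
        (∀ j, 0 ≤ f j ∧ f j ≤ 1) ∧
        ∀ i, |∑ j, a i j * (f j - q j)| ≤ 2 * C * D * (1 - (3 / 5 : ℝ) ^ t) := by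
    intro t
    induction t with
    | zero =>
      intro q hq hq1
      refine ⟨q, hq, hq1, fun i => ?_⟩
      simp
    | succ t ih =>
      intro q hq hq1
      have hU : ∑ j, q j ≤ (n : ℝ) := by
        calc ∑ j, q j ≤ ∑ _j : Fin n, (1 : ℝ) := Finset.sum_le_sum fun j _ => (hq1 j).2
          _ = n := by simp
      obtain ⟨q', hq', hq1', he⟩ := hst n m hnm a ha t q hq hq1 n hU
      obtain ⟨f, hf, hf1, hfe⟩ := ih q' hq' hq1'
      refine ⟨f, hf, hf1, fun i => ?_⟩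
      have e1 : ∑ j, a i j * (f j - q j) =
          ∑ j, a i j * (f j - q' j) + ∑ j, a i j * (q' j - q j) := by
        rw [← Finset.sum_add_distrib]
        exact Finset.sum_congr rfl fun j _ => by ring
      have e2 : |∑ j, a i j * (q' j - q j)| ≤ C * D * (3 / 5 : ℝ) ^ (t + 1) := by
        refine (he i).trans ?_
        rw [mul_assoc ((2 : ℝ) ^ (t + 1))]
        exact Rounds_err hC (by positivity) (t + 1)
      have e3 := hfe i
      rw [e1]
      refine (abs_add_le _ _).trans ?_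
      have e4 : 0 ≤ C * D * (3 / 5 : ℝ) ^ t := by positivity
      rw [pow_succ] at e2 ⊢
      nlinarith
  -- dyadic approximation
  obtain ⟨T, hT⟩ : ∃ T : ℕ, (n : ℝ) ≤ 2 ^ T := by
    obtain ⟨T, hT⟩ := pow_unbounded_of_one_lt (n : ℝ) one_lt_two
    exact ⟨T, hT.le⟩
  have h2T : (0 : ℝ) < 2 ^ T := by positivity
  obtain ⟨f, hf, hf1, hfe⟩ := hlev T (fun j => (⌊p j * 2 ^ T⌋ : ℝ) / 2 ^ T)
    (fun j => ⟨⌊p j * 2 ^ T⌋, rfl⟩) (fun j => by
      constructor
      · refine div_nonneg ?_ h2T.le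
        have h1 : 0 ≤ ⌊p j * 2 ^ T⌋ := Int.floor_nonneg.2 (mul_nonneg (hp j).1 h2T.le)
        exact_mod_cast h1
      · rw [div_le_one h2T]
        refine (Int.floor_le _).trans ?_
        have := mul_le_mul_of_nonneg_right (hp j).2 h2T.le
        rwa [one_mul] at this)
  refine ⟨f, fun j => ?_, fun i => ?_⟩
  · obtain ⟨z, hz⟩ := hf j
    rw [pow_zero, div_one] at hz
    have h1 := hf1 j
    rw [hz] at h1
    have h2 : 0 ≤ z := by exact_mod_cast h1.1
    have h3 : z ≤ 1 := by exact_mod_cast h1.2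
    have h4 : z = 0 ∨ z = 1 := by omega
    rcases h4 with h4 | h4
    · left; rw [hz, h4]; simp
    · right; rw [hz, h4]; simp
  · have e1 : ∑ j, a i j * (f j - p j) =
        ∑ j, a i j * (f j - (⌊p j * 2 ^ T⌋ : ℝ) / 2 ^ T) +
          ∑ j, a i j * ((⌊p j * 2 ^ T⌋ : ℝ) / 2 ^ T - p j) := by
      rw [← Finset.sum_add_distrib]
      exact Finset.sum_congr rfl fun j _ => by ring
    have e2 : |∑ j, a i j * ((⌊p j * 2 ^ T⌋ : ℝ) / 2 ^ T - p j)| ≤ 1 := by
      calc |∑ j, a i j * ((⌊p j * 2 ^ T⌋ : ℝ) / 2 ^ T - p j)| ≤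
          ∑ j, |a i j * ((⌊p j * 2 ^ T⌋ : ℝ) / 2 ^ T - p j)| := Finset.abs_sum_le_sum_abs _ _
        _ ≤ ∑ _j : Fin n, (1 : ℝ) / 2 ^ T := by
            refine Finset.sum_le_sum fun j _ => ?_
            rw [abs_mul]
            have h5 : |(⌊p j * 2 ^ T⌋ : ℝ) / 2 ^ T - p j| ≤ 1 / 2 ^ T := by
              have h6 := Int.floor_le (p j * 2 ^ T)
              have h7 := Int.lt_floor_add_one (p j * 2 ^ T)
              rw [abs_le]
              constructor
              · have : p j - 1 / 2 ^ T ≤ (⌊p j * 2 ^ T⌋ : ℝ) / 2 ^ T := by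
                  rw [le_div_iff₀ h2T, sub_mul, div_mul_cancel₀ _ h2T.ne']
                  linarith
                linarith
              · have : (⌊p j * 2 ^ T⌋ : ℝ) / 2 ^ T ≤ p j := by
                  rw [div_le_iff₀ h2T]
                  exact h6
                have : (0 : ℝ) ≤ 1 / 2 ^ T := by positivity
                linarith
            calc |a i j| * _ ≤ 1 * (1 / 2 ^ T) := mul_le_mul (ha i j) h5 (abs_nonneg _) zero_le_one
              _ = _ := one_mul _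
        _ = n / 2 ^ T := by
            rw [Finset.sum_const, Finset.card_univ, Fintype.card_fin, nsmul_eq_mul, mul_one_div]
        _ ≤ 1 := by rwa [div_le_one h2T]
    rw [e1]
    refine (abs_add_le _ _).trans ?_
    have e3 := hfe i
    have e4 : 0 ≤ C * D * (3 / 5 : ℝ) ^ T := by positivity
    nlinarith

/-- **Linear discrepancy.** -/
theorem lindisc : ∃ C : ℝ, 0 < C ∧ ∀ (N m : ℕ) (A : Finset (Fin N)), A.card ≤ m →
    ∀ a : Fin m → Fin N → ℝ, (∀ i j, |a i j| ≤ 1) →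
    ∀ p : Fin N → ℝ, (∀ j, 0 ≤ p j ∧ p j ≤ 1) →
    ∃ f : Fin N → ℝ, (∀ j, f j = 0 ∨ f j = 1) ∧
      ∀ i, |∑ j ∈ A, a i j * (f j - p j)| ≤ C * Real.sqrt (Real.sqrt ((A.card : ℝ) * m)) := by
  classical
  obtain ⟨C, hC, h⟩ := Rounds_all
  refine ⟨C, hC, fun N m A hA a ha p hp => ?_⟩
  obtain ⟨e⟩ : Nonempty (Fin A.card ≃ A) := ⟨A.equivFin.symm⟩
  obtain ⟨f, hf, hfe⟩ := h A.card m hA (fun i j => a i (e j)) (fun i j => ha i _)
    (fun j => p (e j)) (fun j => hp _)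
  refine ⟨fun j => if hj : j ∈ A then f (e.symm ⟨j, hj⟩) else 0, fun j => ?_, fun i => ?_⟩
  · by_cases hj : j ∈ A
    · simp only [hj, dif_pos]
      exact hf _
    · simp only [hj, dif_neg, not_false_eq_true]
      simp
  · have h1 : ∑ j ∈ A, a i j * ((if hj : j ∈ A then f (e.symm ⟨j, hj⟩) else 0) - p j) =
        ∑ j : Fin A.card, a i (e j) * (f j - p (e j)) := by
      rw [← Finset.sum_coe_sort A]
      rw [← Equiv.sum_comp e]
      refine Finset.sum_congr rfl fun j _ => ?_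
      have h2 : ((e j : A) : Fin N) ∈ A := (e j).2
      simp only [h2, dif_pos]
      congr 3
      exact e.symm_apply_apply j
    rw [h1]
    exact hfe i

/-- **Two rounds.** -/
theorem two_rounds : ∃ C : ℝ, 0 < C ∧ ∀ (J K n m : ℕ) (B : Finset (Fin J)) (S : Finset (Fin K)),
    B.card ≤ n → S.card ≤ n → n ≤ m →
    ∀ (u : Fin m → Fin J → (Fin K → ℝ) → Bool → ℝ) (p : Fin J → ℝ) (al : Fin m → Fin K → ℝ)
      (a : ℝ), 0 < a → (∀ j, 0 ≤ p j ∧ p j ≤ 1) → (∀ k i, |al k i| ≤ a) →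
      (∀ s : Fin K → ℝ, (∀ i, s i = 1 ∨ s i = -1) → ∀ k j,
        |u k j s true - u k j s false| ≤ a) →
      (∀ s : Fin K → ℝ, (∀ i, s i = 1 ∨ s i = -1) → ∀ k,
        ∑ j ∈ B, (p j * u k j s true + (1 - p j) * u k j s false) = ∑ i ∈ S, al k i * s i) →
      ∃ (s : Fin K → ℝ) (r : Fin J → Bool), (∀ i, s i = 1 ∨ s i = -1) ∧
        ∀ k, |∑ j ∈ B, u k j s (r j)| ≤ C * a * Real.sqrt (Real.sqrt ((n : ℝ) * m)) := by
  classical
  obtain ⟨C₁, hC₁, h1⟩ := spencer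
  obtain ⟨C₂, hC₂, h2⟩ := lindisc
  refine ⟨C₁ + C₂, by linarith, ?_⟩
  intro J K n m B S hB hS hnm u p al a ha hp hal hu hlin
  obtain ⟨s, hs, hse⟩ := h1 K m S (hS.trans hnm) (fun k i => al k i / a) (fun k i => by
    rw [abs_div, abs_of_pos ha, div_le_one ha]
    exact hal k i)
  obtain ⟨f, hf, hfe⟩ := h2 J m B (hB.trans hnm)
    (fun k j => (u k j s true - u k j s false) / a) (fun k j => by
      rw [abs_div, abs_of_pos ha, div_le_one ha]
      exact hu s hs k j) p hp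
  refine ⟨s, fun j => decide (f j = 1), hs, fun k => ?_⟩
  have e0 : ∀ j, u k j s (decide (f j = 1)) =
      u k j s false + f j * (u k j s true - u k j s false) := by
    intro j
    rcases hf j with h | h
    · rw [h]; simp
    · rw [h]; simp
  have e1 : ∑ j ∈ B, u k j s (decide (f j = 1)) =
      a * ∑ i ∈ S, al k i / a * s i +
        a * ∑ j ∈ B, (u k j s true - u k j s false) / a * (f j - p j) := by
    have e2 : a * ∑ i ∈ S, al k i / a * s i = ∑ i ∈ S, al k i * s i := by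
      rw [Finset.mul_sum]
      refine Finset.sum_congr rfl fun i _ => ?_
      field_simp
    have e3 : a * ∑ j ∈ B, (u k j s true - u k j s false) / a * (f j - p j) =
        ∑ j ∈ B, (u k j s true - u k j s false) * (f j - p j) := by
      rw [Finset.mul_sum]
      refine Finset.sum_congr rfl fun i _ => ?_
      field_simp
    rw [e2, e3, ← hlin s hs k, ← Finset.sum_add_distrib]
    refine Finset.sum_congr rfl fun j _ => ?_
    rw [e0]
    ring
  have hmono : ∀ c : ℕ, c ≤ n → Real.sqrt (Real.sqrt ((c : ℝ) * m)) ≤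
      Real.sqrt (Real.sqrt ((n : ℝ) * m)) := by
    intro c hc
    refine Real.sqrt_le_sqrt (Real.sqrt_le_sqrt (mul_le_mul_of_nonneg_right ?_
      (Nat.cast_nonneg _)))
    exact_mod_cast hc
  rw [e1]
  refine (abs_add_le _ _).trans ?_
  rw [abs_mul, abs_mul, abs_of_pos ha]
  have e5 := (hse k).trans (mul_le_mul_of_nonneg_left (hmono _ hS) hC₁.le)
  have e6 := (hfe k).trans (mul_le_mul_of_nonneg_left (hmono _ hB) hC₂.le)
  have e7 := mul_le_mul_of_nonneg_left e5 ha.le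
  have e8 := mul_le_mul_of_nonneg_left e6 ha.le
  calc _ ≤ a * (C₁ * Real.sqrt (Real.sqrt ((n : ℝ) * m))) +
      a * (C₂ * Real.sqrt (Real.sqrt ((n : ℝ) * m))) := add_le_add e7 e8
    _ = _ := by ring

end Vale.Agent.P110T
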