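import Vale.Agent.Lib.P110T.Ext
import Vale.Agent.Lib.P110T.Rounds

/-!
# P110T: choice of the signs and of short/long
-/

namespace Vale.Agent.P110T

open MeasureTheory Vale.Agent.P110F
open scoped ComplexConjugate

/-- the carrier times the character -/
noncomputable def sgW (M : ℕ) (w : ℂ) (κ i : ℤ) (k : ℕ) (y : ℝ) : ℂ :=
  w * e1 ((κ : ℝ) * (y - (i : ℝ) / (2 * M))) * e1 (-((k : ℝ) * y))

/-- the contribution of a block -/
noncomputable def sgI (M : ℕ) (A : ℝ) (w : ℂ) (κ i : ℤ) (k : ℕ) (σ σ' : ℝ) (ρ : Bool) : ℂ :=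
  ∫ y in (((i : ℝ) - 1 / 2) / (2 * M))..(((i : ℝ) + 1 / 2) / (2 * M)),
    sgW M w κ i k y * (cB A σ σ' ρ (2 * (M : ℝ) * y + 1 / 2 - i) - A)

/-- its linear coefficients; `e = 1` for the left sign, `e = -1` for the right sign -/
noncomputable def sgA (M : ℕ) (A : ℝ) (w : ℂ) (κ i : ℤ) (k : ℕ) (e : ℝ) : ℂ :=
  ∫ y in (((i : ℝ) - 1 / 2) / (2 * M))..(((i : ℝ) + 1 / 2) / (2 * M)),
    sgW M w κ i k y * ((((Real.sqrt (1 - A ^ 2) + e * (Real.cos (Real.pi *
      (2 * (M : ℝ) * y + 1 / 2 - i)) * WB A (2 * (M : ℝ) * y + 1 / 2 - i))) / 2 : ℝ) : ℂ) *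
        Complex.I)

theorem continuous_sgW (M : ℕ) (w : ℂ) (κ i : ℤ) (k : ℕ) : Continuous (sgW M w κ i k) := by
  unfold sgW
  have h := continuous_e1
  refine (continuous_const.mul (h.comp ?_)).mul (h.comp ?_)
  · fun_prop
  · fun_prop

theorem norm_sgW {w : ℂ} (hw : ‖w‖ = 1) (M : ℕ) (κ i : ℤ) (k : ℕ) (y : ℝ) :
    ‖sgW M w κ i k y‖ = 1 := by
  unfold sgW
  rw [norm_mul, norm_mul, hw, norm_e1, norm_e1]
  norm_num

theorem continuous_WB (A : ℝ) : Continuous (WB A) := by
  unfold WB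
  have h1 := continuous_qB A true
  have h2 := continuous_qB A false
  fun_prop

theorem abs_WB_le {A : ℝ} (h0 : 0 ≤ A) (h1 : A ≤ 1) (t : ℝ) : |WB A t| ≤ 2 := by
  unfold WB
  have e1 := abs_qB_le h0 h1 true t
  have e2 := abs_qB_le h0 h1 false t
  refine (abs_add_le _ _).trans ?_
  rw [abs_mul, abs_mul, abs_of_nonneg (show (0 : ℝ) ≤ (1 + A) / 2 by linarith),
    abs_of_nonneg (show (0 : ℝ) ≤ (1 - A) / 2 by linarith)]
  nlinarith

private theorem Signs_len {M : ℕ} (hM : 0 < M) (i : ℤ) :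
    |((i : ℝ) + 1 / 2) / (2 * M) - ((i : ℝ) - 1 / 2) / (2 * M)| = 1 / (2 * M) := by
  have hM' : (0 : ℝ) < M := by exact_mod_cast hM
  have h : ((i : ℝ) + 1 / 2) / (2 * M) - ((i : ℝ) - 1 / 2) / (2 * M) = 1 / (2 * M) := by
    rw [← sub_div]
    congr 1
    ring
  rw [h, abs_of_pos (by positivity)]

theorem norm_sgI_le {M : ℕ} (hM : 0 < M) {A : ℝ} {w : ℂ} (hw : ‖w‖ = 1) (h0 : 0 ≤ A)
    (h1 : A ≤ 1) (κ i : ℤ) (k : ℕ) {σ σ' : ℝ} (hs : σ = 1 ∨ σ = -1) (hs' : σ' = 1 ∨ σ' = -1)
    (ρ : Bool) : ‖sgI M A w κ i k σ σ' ρ‖ ≤ 1 / M := by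
  have hM' : (0 : ℝ) < M := by exact_mod_cast hM
  unfold sgI
  refine (intervalIntegral.norm_integral_le_of_norm_le_const (C := 2) fun y _ => ?_).trans ?_
  · rw [norm_mul, norm_sgW hw, one_mul]
    refine (norm_sub_le _ _).trans ?_
    rw [norm_cB h0 h1 hs hs', Complex.norm_real, Real.norm_of_nonneg h0]
    linarith
  · rw [Signs_len hM]
    apply le_of_eq
    field_simp

theorem norm_sgA_le {M : ℕ} (hM : 0 < M) {A : ℝ} {w : ℂ} (hw : ‖w‖ = 1) (h0 : 0 ≤ A)
    (h1 : A ≤ 1) (κ i : ℤ) (k : ℕ) {e : ℝ} (he : |e| ≤ 1) :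
    ‖sgA M A w κ i k e‖ ≤ 1 / M := by
  have hM' : (0 : ℝ) < M := by exact_mod_cast hM
  unfold sgA
  refine (intervalIntegral.norm_integral_le_of_norm_le_const (C := 2) fun y _ => ?_).trans ?_
  · rw [norm_mul, norm_sgW hw, one_mul, norm_mul, Complex.norm_I, mul_one, Complex.norm_real,
      Real.norm_eq_abs, abs_div, abs_of_pos (show (0 : ℝ) < 2 by norm_num),
      div_le_iff₀ (by norm_num)]
    refine (abs_add_le _ _).trans ?_
    have e1 : |Real.sqrt (1 - A ^ 2)| ≤ 1 := by
      rw [abs_of_nonneg (Real.sqrt_nonneg _), Real.sqrt_le_one]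
      nlinarith
    have e2 : |e * (Real.cos (Real.pi * (2 * (M : ℝ) * y + 1 / 2 - i)) *
        WB A (2 * (M : ℝ) * y + 1 / 2 - i))| ≤ 2 := by
      rw [abs_mul, abs_mul]
      have e3 := Real.abs_cos_le_one (Real.pi * (2 * (M : ℝ) * y + 1 / 2 - i))
      have e4 := abs_WB_le h0 h1 (2 * (M : ℝ) * y + 1 / 2 - i)
      calc |e| * (|Real.cos (Real.pi * (2 * (M : ℝ) * y + 1 / 2 - i))| *
            |WB A (2 * (M : ℝ) * y + 1 / 2 - i)|) ≤ 1 * (1 * 2) :=
            mul_le_mul he (mul_le_mul e3 e4 (abs_nonneg _) zero_le_one)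
              (by positivity) zero_le_one
        _ = 2 := by norm_num
    linarith
  · rw [Signs_len hM]
    apply le_of_eq
    field_simp

/-- the mean over short/long is linear in the signs -/
theorem mean_sgI (M : ℕ) (A : ℝ) (w : ℂ) (κ i : ℤ) (k : ℕ) (σ σ' : ℝ) :
    (((1 + A) / 2 : ℝ) : ℂ) * sgI M A w κ i k σ σ' true +
      (((1 - A) / 2 : ℝ) : ℂ) * sgI M A w κ i k σ σ' false =
    (σ : ℂ) * sgA M A w κ i k 1 + (σ' : ℂ) * sgA M A w κ i k (-1) := by
  have hW := continuous_sgW M w κ i k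
  have hτ : Continuous fun y : ℝ => 2 * (M : ℝ) * y + 1 / 2 - i := by fun_prop
  have hI : ∀ ρ : Bool, ∀ a b : ℝ, IntervalIntegrable (fun y => sgW M w κ i k y *
      (cB A σ σ' ρ (2 * (M : ℝ) * y + 1 / 2 - i) - A)) volume a b := fun ρ a b =>
    (hW.mul (((continuous_cB A σ σ' ρ).comp hτ).sub continuous_const)).intervalIntegrable _ _
  have hE : ∀ e : ℝ, ∀ a b : ℝ, IntervalIntegrable (fun y => sgW M w κ i k y *
      ((((Real.sqrt (1 - A ^ 2) + e * (Real.cos (Real.pi *
      (2 * (M : ℝ) * y + 1 / 2 - i)) * WB A (2 * (M : ℝ) * y + 1 / 2 - i))) / 2 : ℝ) : ℂ) *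
        Complex.I)) volume a b := fun e a b => by
    refine (hW.mul ((Complex.continuous_ofReal.comp ?_).mul continuous_const)).intervalIntegrable
      _ _
    have h1 : Continuous fun y : ℝ => WB A (2 * (M : ℝ) * y + 1 / 2 - i) :=
      (continuous_WB A).comp hτ
    fun_prop
  unfold sgI sgA
  rw [← intervalIntegral.integral_const_mul, ← intervalIntegral.integral_const_mul,
    ← intervalIntegral.integral_const_mul, ← intervalIntegral.integral_const_mul,
    ← intervalIntegral.integral_add ((hI true _ _).const_mul _) ((hI false _ _).const_mul _),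
    ← intervalIntegral.integral_add ((hE 1 _ _).const_mul _) ((hE (-1) _ _).const_mul _)]
  congr 1
  funext y
  have h := mean_cB A σ σ' (2 * (M : ℝ) * y + 1 / 2 - i)
  have h2 : (((1 + A) / 2 : ℝ) : ℂ) * (sgW M w κ i k y *
      (cB A σ σ' true (2 * (M : ℝ) * y + 1 / 2 - i) - A)) + (((1 - A) / 2 : ℝ) : ℂ) *
      (sgW M w κ i k y * (cB A σ σ' false (2 * (M : ℝ) * y + 1 / 2 - i) - A)) =
      sgW M w κ i k y * (((((1 + A) / 2 : ℝ) : ℂ) * cB A σ σ' true (2 * (M : ℝ) * y + 1 / 2 - i) +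
        (((1 - A) / 2 : ℝ) : ℂ) * cB A σ σ' false (2 * (M : ℝ) * y + 1 / 2 - i)) - A) := by
    push_cast
    ring
  rw [h2, h]
  push_cast
  ring

section main

variable {M : ℕ} {A : ℕ → ℝ} {om : ℕ → ℂ} {kk : ℕ → ℤ} {bad : ℕ → Prop} {s : ℕ → ℝ}
  {r : ℕ → Bool}

/-- `F` equals the formula of block `i` almost everywhere on the block -/
theorem FF_eq_block (hM : 0 < M) (c : ℝ → ℝ → ℝ → Bool → ℝ → ℂ) (d : TD) (i : ℤ) :
    ∀ᵐ y : ℝ, y ∈ Set.uIoc (((i : ℝ) - 1 / 2) / (2 * M)) (((i : ℝ) + 1 / 2) / (2 * M)) →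
      FF M c d y = GG M c d i y := by
  have hM' : (0 : ℝ) < M := by exact_mod_cast hM
  have h1 : ∀ᵐ y : ℝ, y ≠ ((i : ℝ) + 1 / 2) / (2 * M) :=
    Measure.ae_ne volume _
  filter_upwards [h1] with y hy hmem
  have hle : ((i : ℝ) - 1 / 2) / (2 * M) ≤ ((i : ℝ) + 1 / 2) / (2 * M) :=
    div_le_div_of_nonneg_right (by linarith) (by positivity)
  rw [Set.uIoc_of_le hle] at hmem
  have h2 : bi M y = i := by
    unfold bi
    rw [Int.floor_eq_iff]
    have h3 := hmem.1
    have h4 := lt_of_le_of_ne hmem.2 hy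
    rw [div_lt_iff₀ (by positivity)] at h3
    rw [lt_div_iff₀ (by positivity)] at h4
    constructor <;> nlinarith
  unfold FF
  rw [h2]

theorem continuous_GG (M : ℕ) (d : TD) (i : ℤ) : Continuous (GG M cB d i) := by
  unfold GG
  by_cases h : d.bad i
  · simp only [if_pos h]
    have h1 := continuous_e1
    refine (continuous_const.mul (h1.comp (by fun_prop))).mul
      (((continuous_cB _ _ _ _).comp ?_).sub continuous_const)
    fun_prop
  · simp only [if_neg h]
    exact continuous_const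

open Classical in
/-- the Fourier coefficients as a sum over the blocks -/
theorem integral_FF (hM : 0 < M) (k : ℕ) :
    ∫ y in (0 : ℝ)..1, FF M cB (mkTD M A om kk bad s r) y * e1 (-((k : ℝ) * y)) =
      ∑ i ∈ Finset.range (2 * M), if bad (fo M i) then
        sgI M (A (fo M i)) ((mkTD M A om kk bad s r).om i) (kk (fo M i)) i k
          ((mkTD M A om kk bad s r).s i) ((mkTD M A om kk bad s r).s (i + 1)) (r (fo M i))
        else 0 := by
  have hM' : (0 : ℝ) < M := by exact_mod_cast hM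
  set d := mkTD M A om kk bad s r with hd
  have hper : Function.Periodic (fun y : ℝ => FF M cB d y * e1 (-((k : ℝ) * y))) 1 := by
    intro y
    beta_reduce
    rw [FF_add_one hM (mkTD_A_add hM) (mkTD_om_add hM) (mkTD_kk_add hM) (mkTD_s_add hM)
      (mkTD_r_add hM) (mkTD_bad_add hM)]
    congr 1
    have h1 : -((k : ℝ) * (y + 1)) = -((k : ℝ) * y) + ((-(k : ℤ) : ℤ) : ℝ) := by
      push_cast
      ring
    rw [h1, e1_add, e1_int, mul_one]
  set a : ℕ → ℝ := fun i => ((i : ℝ) - 1 / 2) / (2 * M) with ha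
  have ha1 : ∀ i : ℕ, a (i + 1) = (((i : ℤ) : ℝ) + 1 / 2) / (2 * M) := by
    intro i
    simp only [ha]
    congr 1
    push_cast
    ring
  have ha0 : ∀ i : ℕ, a i = (((i : ℤ) : ℝ) - 1 / 2) / (2 * M) := by
    intro i
    simp only [ha]
    push_cast
    ring
  have hF : ∀ i : ℕ, ∀ᵐ y : ℝ, y ∈ Set.uIoc (a i) (a (i + 1)) →
      FF M cB d y * e1 (-((k : ℝ) * y)) = GG M cB d i y * e1 (-((k : ℝ) * y)) := by
    intro i
    rw [ha1, ha0]
    filter_upwards [FF_eq_block hM cB d i] with y hy hmem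
    rw [hy hmem]
  have hGc : ∀ i : ℕ, Continuous fun y : ℝ => GG M cB d i y * e1 (-((k : ℝ) * y)) := fun i =>
    (continuous_GG M d i).mul (continuous_e1.comp (by fun_prop))
  have hint : ∀ i : ℕ, IntervalIntegrable (fun y : ℝ => FF M cB d y * e1 (-((k : ℝ) * y)))
      volume (a i) (a (i + 1)) := by
    intro i
    refine ((hGc i).intervalIntegrable _ _).congr_ae ?_
    rw [Filter.EventuallyEq, ae_restrict_iff' measurableSet_uIoc]
    filter_upwards [hF i] with y hy hmem
    exact (hy hmem).symm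
  have hsum := intervalIntegral.sum_integral_adjacent_intervals (n := 2 * M)
    (fun i _ => hint i)
  have h0 : ∫ y in (0 : ℝ)..1, FF M cB d y * e1 (-((k : ℝ) * y)) =
      ∫ y in (a 0)..(a (2 * M)), FF M cB d y * e1 (-((k : ℝ) * y)) := by
    have h1 := hper.intervalIntegral_add_eq 0 (a 0)
    rw [zero_add] at h1
    have h2 : a (2 * M) = a 0 + 1 := by
      simp only [ha]
      push_cast
      field_simp
      ring
    rw [h2]
    exact h1
  rw [h0, ← hsum]
  refine Finset.sum_congr rfl fun i _ => ?_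
  rw [intervalIntegral.integral_congr_ae (hF i), ha1, ha0]
  unfold GG
  by_cases hb : bad (fo M i)
  · have hb' : d.bad (i : ℤ) := hb
    rw [if_pos hb]
    simp only [if_pos hb']
    unfold sgI sgW
    congr 1
    funext y
    have e1 : d.kk (i : ℤ) = kk (fo M i) := rfl
    have e2 : d.A (i : ℤ) = A (fo M i) := rfl
    have e3 : d.r (i : ℤ) = r (fo M i) := rfl
    rw [e1, e2, e3]
    push_cast
    ring
  · have hb' : ¬ d.bad (i : ℤ) := hb
    rw [if_neg hb]
    simp only [if_neg hb', zero_mul, intervalIntegral.integral_zero]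

/-- the Fourier coefficients are real -/
theorem integral_FF_real (hM : 0 < M) (h0 : (om 0).im = 0) (hMr : (om M).im = 0) (k : ℕ) :
    conj (∫ y in (0 : ℝ)..1, FF M cB (mkTD M A om kk bad s r) y * e1 (-((k : ℝ) * y))) =
      ∫ y in (0 : ℝ)..1, FF M cB (mkTD M A om kk bad s r) y * e1 (-((k : ℝ) * y)) := by
  have hM' : (0 : ℝ) < M := by exact_mod_cast hM
  set d := mkTD M A om kk bad s r with hd
  have hper : Function.Periodic (fun y : ℝ => FF M cB d y * e1 (-((k : ℝ) * y))) 1 := by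
    intro y
    beta_reduce
    rw [FF_add_one hM (mkTD_A_add hM) (mkTD_om_add hM) (mkTD_kk_add hM) (mkTD_s_add hM)
      (mkTD_r_add hM) (mkTD_bad_add hM)]
    congr 1
    have h1 : -((k : ℝ) * (y + 1)) = -((k : ℝ) * y) + ((-(k : ℤ) : ℤ) : ℝ) := by
      push_cast
      ring
    rw [h1, e1_add, e1_int, mul_one]
  have hae : ∀ᵐ y : ℝ, Int.fract (2 * (M : ℝ) * y + 1 / 2) ≠ 0 := by
    have h1 : (Set.range fun n : ℤ => ((n : ℝ) - 1 / 2) / (2 * M)).Countable :=
      Set.countable_range _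
    have h2 := h1.measure_zero volume
    rw [← compl_mem_ae_iff] at h2
    filter_upwards [h2] with y hy hf
    apply hy
    refine ⟨⌊2 * (M : ℝ) * y + 1 / 2⌋, ?_⟩
    have h3 : (⌊2 * (M : ℝ) * y + 1 / 2⌋ : ℝ) = 2 * (M : ℝ) * y + 1 / 2 := by
      have := Int.floor_add_fract (2 * (M : ℝ) * y + 1 / 2)
      rw [hf, add_zero] at this
      exact this
    beta_reduce
    rw [h3, add_sub_cancel_right]
    field_simp
  have hneg : ∀ᵐ y : ℝ, (fun y : ℝ => FF M cB d y * e1 (-((k : ℝ) * y))) (-y) =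
      conj (FF M cB d y * e1 (-((k : ℝ) * y))) := by
    filter_upwards [hae] with y hy
    beta_reduce
    rw [FF_neg hM (mkTD_A_neg hM) (mkTD_om_neg hM h0 hMr) (mkTD_kk_neg hM) (mkTD_s_one_sub hM)
      (mkTD_r_neg hM) (mkTD_bad_neg hM) (fun i _ t _ _ => cB_rev _ _ _ _ _) hy, map_mul,
      ← e1_neg]
    congr 2
    ring
  have h1 : ∫ y in (-1 : ℝ)..0, (fun y : ℝ => FF M cB d y * e1 (-((k : ℝ) * y))) (-y) =
      ∫ y in (0 : ℝ)..1, FF M cB d y * e1 (-((k : ℝ) * y)) := by
    have h := intervalIntegral.integral_comp_neg (a := (-1 : ℝ)) (b := 0)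
      (fun y : ℝ => FF M cB d y * e1 (-((k : ℝ) * y)))
    rw [neg_zero, neg_neg] at h
    exact h
  have h2 : ∫ y in (-1 : ℝ)..0, (fun y : ℝ => FF M cB d y * e1 (-((k : ℝ) * y))) (-y) =
      ∫ y in (-1 : ℝ)..0, conj (FF M cB d y * e1 (-((k : ℝ) * y))) :=
    intervalIntegral.integral_congr_ae (by
      filter_upwards [hneg] with y hy _
      exact hy)
  have h3 : ∫ y in (-1 : ℝ)..0, conj (FF M cB d y * e1 (-((k : ℝ) * y))) =
      conj (∫ y in (-1 : ℝ)..0, FF M cB d y * e1 (-((k : ℝ) * y))) := by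
    rw [intervalIntegral.integral_of_le (by norm_num), intervalIntegral.integral_of_le
      (by norm_num)]
    exact integral_conj
  have h4 : ∫ y in (-1 : ℝ)..0, FF M cB d y * e1 (-((k : ℝ) * y)) =
      ∫ y in (0 : ℝ)..1, FF M cB d y * e1 (-((k : ℝ) * y)) := by
    have h5 := hper.intervalIntegral_add_eq (-1) 0
    rw [zero_add, neg_add_cancel] at h5
    exact h5
  rw [← h4, ← h3, ← h2, h1, h4]

/-- index of the sign variable of a node -/
def sgN (M : ℕ) (i : ℤ) : ℕ :=
  if rs M i = 0 then 1 else if rs M i ≤ M then rs M i else 2 * M + 1 - rs M i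

/-- sign of the sign variable of a node -/
noncomputable def sgS (M : ℕ) (i : ℤ) : ℝ :=
  if rs M i = 0 then -1 else if rs M i ≤ M then 1 else -1

theorem mkTD_s_eq (i : ℤ) : (mkTD M A om kk bad s r).s i = sgS M i * s (sgN M i) := by
  simp only [mkTD, sgS, sgN]
  split_ifs <;> ring

theorem abs_sgS (i : ℤ) : |sgS M i| = 1 := by
  unfold sgS
  split_ifs <;> simp

theorem sgN_le (hM : 0 < M) (i : ℤ) : sgN M i ≤ M := by
  obtain ⟨q, hq, hm⟩ := rs_spec hM i
  unfold sgN
  split_ifs <;> omega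

theorem sgN_fo (hM : 0 < M) (i : ℤ) :
    (sgN M i = max (fo M i) 1 ∨ sgN M i = min (fo M i + 1) M) ∧
    (sgN M (i + 1) = max (fo M i) 1 ∨ sgN M (i + 1) = min (fo M i + 1) M) := by
  obtain ⟨q, hq, hm⟩ := rs_spec hM i
  unfold sgN fo
  rw [rs_succ hM]
  generalize rs M i = a at hm
  constructor
  · by_cases h1 : a = 0
    · subst h1
      left
      rw [if_pos rfl, if_pos (Nat.zero_le _)]
      rfl
    · by_cases h2 : a ≤ M
      · left
        rw [if_neg h1, if_pos h2, if_pos h2]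
        omega
      · right
        rw [if_neg h1, if_neg h2, if_neg h2]
        omega
  · by_cases h3 : a + 1 = 2 * M
    · rw [if_pos h3, if_pos rfl]
      left
      by_cases h2 : a ≤ M
      · rw [if_pos h2]
        omega
      · rw [if_neg h2]
        omega
    · rw [if_neg h3, if_neg (Nat.succ_ne_zero a)]
      by_cases h2 : a + 1 ≤ M
      · right
        rw [if_pos h2, if_pos (show a ≤ M by omega)]
        omega
      · rw [if_neg h2]
        by_cases h4 : a ≤ M
        · rw [if_pos h4]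
          right
          omega
        · rw [if_neg h4]
          left
          omega

theorem card_fo (hM : 0 < M) (b : ℕ) :
    ((Finset.range (2 * M)).filter fun i : ℕ => fo M (i : ℤ) = b).card ≤ 2 := by
  refine (Finset.card_le_card (t := {b, 2 * M - b}) ?_).trans Finset.card_le_two
  intro i hi
  rw [Finset.mem_filter, Finset.mem_range] at hi
  have h1 := hi.2
  unfold fo at h1
  rw [rs_nat hi.1] at h1
  rw [Finset.mem_insert, Finset.mem_singleton]
  split_ifs at h1 <;> omega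

theorem card_sgN (hM : 0 < M) (l : ℕ) :
    ((Finset.range (2 * M)).filter fun i : ℕ => sgN M (i : ℤ) = l).card ≤ 2 := by
  refine (Finset.card_le_card (t := {l, if l = 1 then 0 else 2 * M + 1 - l}) ?_).trans
    Finset.card_le_two
  intro i hi
  rw [Finset.mem_filter, Finset.mem_range] at hi
  have h1 := hi.2
  unfold sgN at h1
  rw [rs_nat hi.1] at h1
  rw [Finset.mem_insert, Finset.mem_singleton]
  split_ifs at h1 ⊢ <;> omega

theorem card_sgN' (hM : 0 < M) (l : ℕ) :
    ((Finset.range (2 * M)).filter fun i : ℕ => sgN M ((i : ℤ) + 1) = l).card ≤ 2 := by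
  refine (Finset.card_le_card (t := {l - 1, 2 * M - l}) ?_).trans Finset.card_le_two
  intro i hi
  rw [Finset.mem_filter, Finset.mem_range] at hi
  have h1 := hi.2
  unfold sgN at h1
  rw [rs_succ hM, rs_nat hi.1] at h1
  rw [Finset.mem_insert, Finset.mem_singleton]
  by_cases h3 : i + 1 = 2 * M
  · rw [if_pos h3, if_pos rfl] at h1
    omega
  · rw [if_neg h3, if_neg (Nat.succ_ne_zero i)] at h1
    split_ifs at h1 <;> omega

end main

theorem exists_signs : ∃ C : ℝ, 0 < C ∧ ∀ (M m : ℕ), 0 < M → ∀ (A : ℕ → ℝ) (om : ℕ → ℂ)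
    (kk : ℕ → ℤ) (θ : ℝ), (∀ i ≤ M, 0 ≤ A i ∧ A i ≤ 1) → (∀ i ≤ M, ‖om i‖ = 1) →
    (om 0).im = 0 → (om M).im = 0 →
    2 * ((Finset.range (M + 1)).filter fun i => A i ≤ 1 - θ).card ≤ m →
    ∃ (s : ℕ → ℝ) (r : ℕ → Bool), (∀ i, s i = 1 ∨ s i = -1) ∧ ∀ j < m, ∃ t : ℝ,
      (∫ y in (0 : ℝ)..1, FF M cB (mkTD M A om kk (fun i => A i ≤ 1 - θ) s r) y *
        e1 (-((j : ℝ) * y))) = t ∧
      |t| ≤ C * (4 / M) * Real.sqrt (Real.sqrt
        ((((Finset.range (M + 1)).filter fun i => A i ≤ 1 - θ).card : ℝ) * m)) := by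
  classical
  obtain ⟨C, hC, h2r⟩ := two_rounds
  refine ⟨C * Real.sqrt (Real.sqrt 2), by positivity, ?_⟩
  intro M m hM A om kk θ hA hom h0 hMr hcard
  have hM' : (0 : ℝ) < M := by exact_mod_cast hM
  set bad : ℕ → Prop := fun i => A i ≤ 1 - θ with hbad
  set Bad : Finset ℕ := (Finset.range (M + 1)).filter fun i => A i ≤ 1 - θ with hBad
  set omx : ℤ → ℂ := fun i => if rs M i ≤ M then om (rs M i) else conj (om (2 * M - rs M i))
    with homx
  have homn : ∀ i : ℤ, ‖omx i‖ = 1 := fun i =>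
    mkTD_om_norm (A := A) (kk := kk) (bad := bad) (s := fun _ => 1) (r := fun _ => true) hM hom i
  -- extension of the signs
  set ex : (Fin (M + 1) → ℝ) → ℕ → ℝ := fun s l => if h : l < M + 1 then s ⟨l, h⟩ else 1 with hex
  have hexs : ∀ s : Fin (M + 1) → ℝ, (∀ l, s l = 1 ∨ s l = -1) → ∀ l, ex s l = 1 ∨ ex s l = -1 := by
    intro s hs l
    simp only [hex]
    split_ifs
    · exact hs _
    · exact Or.inl rfl
  have hsx : ∀ s : ℕ → ℝ, (∀ l, s l = 1 ∨ s l = -1) → ∀ i : ℤ,
      sgS M i * s (sgN M i) = 1 ∨ sgS M i * s (sgN M i) = -1 := by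
    intro s hs i
    have h1 := mkTD_s_one (A := A) (om := om) (kk := kk) (bad := bad) (r := fun _ => true) hM hs i
    rwa [mkTD_s_eq] at h1
  -- contributions
  set E : ℕ → ℕ → ℝ → ℝ → Bool → ℂ := fun k i σ σ' ρ =>
    sgI M (A (fo M i)) (omx i) (kk (fo M i)) i k σ σ' ρ with hE
  set u : Fin m → Fin (M + 1) → (Fin (M + 1) → ℝ) → Bool → ℝ := fun k b s ρ =>
    ∑ i ∈ (Finset.range (2 * M)).filter (fun i : ℕ => fo M (i : ℤ) = (b : ℕ)),
      (E k i (sgS M i * ex s (sgN M i)) (sgS M (i + 1) * ex s (sgN M (i + 1))) ρ).re with hu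
  set al : Fin m → Fin (M + 1) → ℝ := fun k l =>
    ∑ i ∈ (Finset.range (2 * M)).filter (fun i : ℕ => bad (fo M (i : ℤ))),
      ((if sgN M (i : ℤ) = (l : ℕ) then sgS M (i : ℤ) *
          (sgA M (A (fo M i)) (omx i) (kk (fo M i)) i k 1).re else 0) +
        (if sgN M ((i : ℤ) + 1) = (l : ℕ) then sgS M ((i : ℤ) + 1) *
          (sgA M (A (fo M i)) (omx i) (kk (fo M i)) i k (-1)).re else 0)) with hal
  set B : Finset (Fin (M + 1)) := Finset.univ.filter fun b => (b : ℕ) ∈ Bad with hB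
  set SN : Finset ℕ := Bad.image (fun b => max b 1) ∪ Bad.image (fun b => min (b + 1) M) with hSN
  set S : Finset (Fin (M + 1)) := Finset.univ.filter fun l => (l : ℕ) ∈ SN with hS
  have hBc : B.card ≤ 2 * Bad.card := by
    refine le_trans (Finset.card_le_card_of_injOn (fun b : Fin (M + 1) => (b : ℕ))
      (t := Bad) (fun b hb => (Finset.mem_filter.1 hb).2) (fun a _ b _ h => Fin.ext h)) ?_
    omega
  have hSc : S.card ≤ 2 * Bad.card := by
    refine (Finset.card_le_card_of_injOn (fun b : Fin (M + 1) => (b : ℕ))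
      (t := SN) (fun b hb => (Finset.mem_filter.1 hb).2) (fun a _ b _ h => Fin.ext h)).trans ?_
    refine (Finset.card_union_le _ _).trans ?_
    have h1 := Finset.card_image_le (s := Bad) (f := fun b => max b 1)
    have h2 := Finset.card_image_le (s := Bad) (f := fun b => min (b + 1) M)
    omega
  have hfo : ∀ i : ℤ, fo M i < M + 1 := fun i => Nat.lt_succ_of_le (fo_le hM i)
  have hbadmem : ∀ i : ℤ, bad (fo M i) → fo M i ∈ Bad := fun i hi => by
    rw [hBad, Finset.mem_filter, Finset.mem_range]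
    exact ⟨hfo i, hi⟩
  -- sum over the bad blocks
  have hregroup : ∀ g : ℕ → ℝ, ∑ b ∈ B,
      ∑ i ∈ (Finset.range (2 * M)).filter (fun i : ℕ => fo M (i : ℤ) = (b : ℕ)), g i =
      ∑ i ∈ (Finset.range (2 * M)).filter (fun i : ℕ => bad (fo M (i : ℤ))), g i := by
    intro g
    rw [← Finset.sum_biUnion]
    · refine Finset.sum_congr ?_ fun _ _ => rfl
      ext i
      rw [Finset.mem_biUnion, Finset.mem_filter]
      constructor
      · rintro ⟨b, hb, hi⟩
        rw [Finset.mem_filter] at hi hb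
        refine ⟨hi.1, ?_⟩
        rw [hi.2]
        exact (Finset.mem_filter.1 hb.2).2
      · rintro ⟨hi, hb⟩
        refine ⟨⟨fo M i, hfo i⟩, ?_, ?_⟩
        · rw [hB, Finset.mem_filter]
          exact ⟨Finset.mem_univ _, hbadmem i hb⟩
        · rw [Finset.mem_filter]
          exact ⟨hi, rfl⟩
    · intro b _ b' _ hne
      rw [Function.onFun, Finset.disjoint_left]
      intro i hi hi'
      rw [Finset.mem_filter] at hi hi'
      exact hne (Fin.ext (hi.2.symm.trans hi'.2))
  have hfoA : ∀ i : ℤ, 0 ≤ A (fo M i) ∧ A (fo M i) ≤ 1 := fun i => hA _ (fo_le hM i)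
  obtain ⟨s, r, hs, hbd⟩ := h2r (M + 1) (M + 1) (2 * Bad.card) m B S hBc hSc hcard u
    (fun b => (1 + A b) / 2) al (4 / M) (by positivity) (fun b => by
      have := hA b (Nat.lt_succ_iff.1 b.2)
      constructor <;> linarith) (fun k l => by
      -- bound of the linear coefficients
      simp only [hal]
      refine (Finset.abs_sum_le_sum_abs _ _).trans ?_
      have hone : ∀ i : ℕ, ∀ e : ℝ, |e| ≤ 1 →
          |(sgA M (A (fo M i)) (omx i) (kk (fo M i)) i k e).re| ≤ 1 / M := fun i e he =>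
        (Complex.abs_re_le_norm _).trans
          (norm_sgA_le hM (homn i) (hfoA i).1 (hfoA i).2 _ _ _ he)
      calc _ ≤ ∑ i ∈ (Finset.range (2 * M)).filter (fun i : ℕ => bad (fo M (i : ℤ))),
            ((if sgN M (i : ℤ) = (l : ℕ) then (1 : ℝ) / M else 0) +
              (if sgN M ((i : ℤ) + 1) = (l : ℕ) then (1 : ℝ) / M else 0)) := by
            refine Finset.sum_le_sum fun i _ => (abs_add_le _ _).trans (add_le_add ?_ ?_)
            · split_ifs
              · rw [abs_mul, abs_sgS, one_mul]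
                exact hone i 1 (by simp)
              · simp
            · split_ifs
              · rw [abs_mul, abs_sgS, one_mul]
                exact hone i (-1) (by simp)
              · simp
        _ ≤ ∑ i ∈ Finset.range (2 * M),
            ((if sgN M (i : ℤ) = (l : ℕ) then (1 : ℝ) / M else 0) +
              (if sgN M ((i : ℤ) + 1) = (l : ℕ) then (1 : ℝ) / M else 0)) := by
            refine Finset.sum_le_sum_of_subset_of_nonneg (Finset.filter_subset _ _)
              fun i _ _ => ?_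
            have : (0 : ℝ) ≤ 1 / M := by positivity
            refine add_nonneg ?_ ?_ <;> split_ifs <;> first | exact this | exact le_rfl
        _ = (((Finset.range (2 * M)).filter fun i : ℕ => sgN M (i : ℤ) = (l : ℕ)).card : ℝ) *
              (1 / M) + (((Finset.range (2 * M)).filter
                fun i : ℕ => sgN M ((i : ℤ) + 1) = (l : ℕ)).card : ℝ) * (1 / M) := by
            rw [Finset.sum_add_distrib, ← Finset.sum_filter, ← Finset.sum_filter,
              Finset.sum_const, Finset.sum_const, nsmul_eq_mul, nsmul_eq_mul]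
        _ ≤ 2 * (1 / M) + 2 * (1 / M) := by
            have h1 : (((Finset.range (2 * M)).filter
              fun i : ℕ => sgN M (i : ℤ) = (l : ℕ)).card : ℝ) ≤ 2 := by
              exact_mod_cast card_sgN hM (l : ℕ)
            have h2 : (((Finset.range (2 * M)).filter
              fun i : ℕ => sgN M ((i : ℤ) + 1) = (l : ℕ)).card : ℝ) ≤ 2 := by
              exact_mod_cast card_sgN' hM (l : ℕ)
            have h3 : (0 : ℝ) ≤ 1 / M := by positivity
            exact add_le_add (mul_le_mul_of_nonneg_right h1 h3)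
              (mul_le_mul_of_nonneg_right h2 h3)
        _ = 4 / M := by ring) (fun s hs k b => by
      -- bound of the difference
      simp only [hu]
      rw [← Finset.sum_sub_distrib]
      refine (Finset.abs_sum_le_sum_abs _ _).trans ?_
      have hone : ∀ i : ℕ, ∀ ρ : Bool, |(E k i (sgS M i * ex s (sgN M i))
          (sgS M (i + 1) * ex s (sgN M (i + 1))) ρ).re| ≤ 1 / M := fun i ρ =>
        (Complex.abs_re_le_norm _).trans (norm_sgI_le hM (homn i) (hfoA i).1 (hfoA i).2 _ _ _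
          (hsx _ (hexs s hs) i) (hsx _ (hexs s hs) (i + 1)) ρ)
      calc _ ≤ ∑ i ∈ (Finset.range (2 * M)).filter (fun i : ℕ => fo M (i : ℤ) = (b : ℕ)),
            (2 / M : ℝ) := by
            refine Finset.sum_le_sum fun i _ => ?_
            have h1 := abs_le.1 (hone i true)
            have h2 := abs_le.1 (hone i false)
            have h3 : (2 / M : ℝ) = 1 / M + 1 / M := by ring
            rw [h3, abs_le]
            constructor <;> linarith [h1.1, h1.2, h2.1, h2.2]
        _ = (((Finset.range (2 * M)).filter (fun i : ℕ => fo M (i : ℤ) = (b : ℕ))).card : ℝ) *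
              (2 / M) := by rw [Finset.sum_const, nsmul_eq_mul]
        _ ≤ 2 * (2 / M) := by
            refine mul_le_mul_of_nonneg_right ?_ (by positivity)
            exact_mod_cast card_fo hM (b : ℕ)
        _ = 4 / M := by ring) (fun s hs k => by
      -- linearity
      have hlin : ∀ b : Fin (M + 1), (1 + A b) / 2 * u k b s true +
          (1 - (1 + A b) / 2) * u k b s false =
          ∑ i ∈ (Finset.range (2 * M)).filter (fun i : ℕ => fo M (i : ℤ) = (b : ℕ)),
            (sgS M i * ex s (sgN M i) *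
              (sgA M (A (fo M i)) (omx i) (kk (fo M i)) i k 1).re +
            sgS M (i + 1) * ex s (sgN M (i + 1)) *
              (sgA M (A (fo M i)) (omx i) (kk (fo M i)) i k (-1)).re) := by
        intro b
        simp only [hu]
        rw [Finset.mul_sum, Finset.mul_sum, ← Finset.sum_add_distrib]
        refine Finset.sum_congr rfl fun i hi => ?_
        have hb : fo M (i : ℤ) = (b : ℕ) := (Finset.mem_filter.1 hi).2
        have h1 := congrArg Complex.re (mean_sgI M (A (fo M i)) (omx i) (kk (fo M i)) i k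
          (sgS M i * ex s (sgN M i)) (sgS M (i + 1) * ex s (sgN M (i + 1))))
        rw [Complex.add_re, Complex.add_re, Complex.re_ofReal_mul, Complex.re_ofReal_mul,
          Complex.re_ofReal_mul, Complex.re_ofReal_mul] at h1
        rw [← h1, hb]
        simp only [hE, hb]
        ring
      rw [Finset.sum_congr rfl fun b _ => hlin b, hregroup]
      simp only [hal]
      have hswap : ∑ l ∈ S, (∑ i ∈ (Finset.range (2 * M)).filter
          (fun i : ℕ => bad (fo M (i : ℤ))),
          ((if sgN M (i : ℤ) = (l : ℕ) then sgS M (i : ℤ) *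
            (sgA M (A (fo M i)) (omx i) (kk (fo M i)) i k 1).re else 0) +
          (if sgN M ((i : ℤ) + 1) = (l : ℕ) then sgS M ((i : ℤ) + 1) *
            (sgA M (A (fo M i)) (omx i) (kk (fo M i)) i k (-1)).re else 0))) * s l =
          ∑ i ∈ (Finset.range (2 * M)).filter (fun i : ℕ => bad (fo M (i : ℤ))), ∑ l ∈ S,
          ((if sgN M (i : ℤ) = (l : ℕ) then sgS M (i : ℤ) *
            (sgA M (A (fo M i)) (omx i) (kk (fo M i)) i k 1).re else 0) +
          (if sgN M ((i : ℤ) + 1) = (l : ℕ) then sgS M ((i : ℤ) + 1) *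
            (sgA M (A (fo M i)) (omx i) (kk (fo M i)) i k (-1)).re else 0)) * s l := by
        rw [Finset.sum_comm]
        exact Finset.sum_congr rfl fun l _ => Finset.sum_mul _ _ _
      rw [hswap]
      refine Finset.sum_congr rfl fun i hi => ?_
      have hb := hbadmem i (Finset.mem_filter.1 hi).2
      have hmem : ∀ z : ℤ, (sgN M z = max (fo M i) 1 ∨ sgN M z = min (fo M i + 1) M) →
          ∃ l ∈ S, ((l : Fin (M + 1)) : ℕ) = sgN M z ∧ s l = ex s (sgN M z) := by
        intro z hz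
        have hlt : sgN M z < M + 1 := Nat.lt_succ_of_le (sgN_le hM z)
        refine ⟨⟨sgN M z, hlt⟩, ?_, rfl, ?_⟩
        · rw [hS, Finset.mem_filter]
          refine ⟨Finset.mem_univ _, ?_⟩
          rw [hSN, Finset.mem_union, Finset.mem_image, Finset.mem_image]
          rcases hz with hz | hz
          · exact Or.inl ⟨_, hb, hz.symm⟩
          · exact Or.inr ⟨_, hb, hz.symm⟩
        · simp only [hex, hlt, dif_pos]
      have hsing : ∀ z : ℤ, ∀ c : ℝ,
          (sgN M z = max (fo M i) 1 ∨ sgN M z = min (fo M i + 1) M) →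
          ∑ l ∈ S, (if sgN M z = ((l : Fin (M + 1)) : ℕ) then c else 0) * s l =
            c * ex s (sgN M z) := by
        intro z c hz
        obtain ⟨l0, hl0, hl1, hl2⟩ := hmem z hz
        rw [Finset.sum_eq_single l0]
        · rw [if_pos hl1.symm, hl2]
        · intro l _ hne
          rw [if_neg, zero_mul]
          intro h
          exact hne (Fin.ext (h.symm.trans hl1.symm))
        · intro h
          exact absurd hl0 h
      simp only [add_mul]
      rw [Finset.sum_add_distrib, hsing _ _ (sgN_fo hM i).1, hsing _ _ (sgN_fo hM i).2]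
      ring)
  refine ⟨ex s, fun b => if h : b < M + 1 then r ⟨b, h⟩ else true, hexs s hs, fun j hj => ?_⟩
  set r' : ℕ → Bool := fun b => if h : b < M + 1 then r ⟨b, h⟩ else true with hr'
  have hsum : ∫ y in (0 : ℝ)..1, FF M cB (mkTD M A om kk bad (ex s) r') y *
      e1 (-((j : ℝ) * y)) = ∑ i ∈ (Finset.range (2 * M)).filter (fun i : ℕ =>
        bad (fo M (i : ℤ))), E j i (sgS M i * ex s (sgN M i))
          (sgS M (i + 1) * ex s (sgN M (i + 1))) (r' (fo M i)) := by
    rw [integral_FF hM, ← Finset.sum_filter]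
    refine Finset.sum_congr rfl fun i _ => ?_
    rw [mkTD_s_eq, mkTD_s_eq]
    rfl
  have hreal := integral_FF_real (A := A) (om := om) (kk := kk) (bad := bad) (s := ex s) (r := r')
    hM h0 hMr j
  refine ⟨(∫ y in (0 : ℝ)..1, FF M cB (mkTD M A om kk bad (ex s) r') y *
      e1 (-((j : ℝ) * y))).re, ?_, ?_⟩
  · exact (Complex.conj_eq_iff_re.1 hreal).symm
  · have h1 := hbd ⟨j, hj⟩
    have h2 : (∫ y in (0 : ℝ)..1, FF M cB (mkTD M A om kk bad (ex s) r') y *
        e1 (-((j : ℝ) * y))).re = ∑ b ∈ B, u ⟨j, hj⟩ b s (r b) := by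
      rw [hsum, Complex.re_sum, ← hregroup]
      refine Finset.sum_congr rfl fun b _ => ?_
      simp only [hu]
      refine Finset.sum_congr rfl fun i hi => ?_
      have hb : fo M (i : ℤ) = (b : ℕ) := (Finset.mem_filter.1 hi).2
      have hrb : r' (fo M i) = r b := by
        simp only [hr', hb, b.2, dif_pos]
      rw [hrb]
    rw [h2]
    refine h1.trans (le_of_eq ?_)
    have h3 : (((2 * Bad.card : ℕ) : ℝ) * m) = 2 * ((Bad.card : ℝ) * m) := by
      push_cast
      ring
    rw [h3, Real.sqrt_mul (by norm_num), Real.sqrt_mul (Real.sqrt_nonneg _)]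
    ring

end Vale.Agent.P110T
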