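import Vale.Agent.Lib.P110T.Corr
import Vale.Agent.Lib.P110T.Signs

/-!
# P110T: the correction theorem
-/

namespace Vale.Agent.P110T

theorem correction : Correction := correction_of exists_signs

end Vale.Agent.P110T
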