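import Mathlib
import Vale.Agent.Lib.P110T.Carrier
import Vale.Agent.Lib.P110T.COkB
import Vale.Agent.Lib.P110T.GA
import Vale.Agent.Lib.P110T.Glue
import Vale.Agent.Lib.P110T.ConstB
import Vale.Agent.Lib.P110T.Count
import Vale.Agent.Lib.P110T.Ext
import Vale.Agent.Lib.P110T.Num

/-!
P110T/CorrB: the assembly of the correction theorem from the sign theorem (helper15).
-/

namespace Vale.Agent.P110T

open MeasureTheory Vale.Agent.P110F
open scoped ComplexConjugate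

/-- the constants with the additional bound `32 ε ≤ κ ηj` -/
theorem corr_constsB2 {η δ μ C : ℝ} {L : ℝ → ℝ} (hη : 0 < η) (hδ : 0 < δ) (hμ : 0 < μ)
    (hC : 0 < C) (hL : ∀ x, 0 < x → 0 < L x) : ∃ ηj w0 κ τ ε : ℝ, 0 < ηj ∧ ηj ≤ 1 / 4 ∧ 0 < w0 ∧
      w0 ≤ 1 / 2 ∧ 0 < κ ∧ 0 < τ ∧ τ ≤ ηj / 4 ∧ 0 < ε ∧
      τ + ηj + (2 * w0 * L ηj + √(2 * ηj) + √(2 * τ) + 2 * (τ + Real.pi * (2 * κ * τ))) *
        (1 + √(4 / μ)) + 16 / (μ * κ * w0) ≤ η ∧
      8 * C * κ * √(√(16 * ε / (κ * ηj))) ≤ δ ∧ 32 * ε ≤ κ * ηj := by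
  obtain ⟨ηj, w0, κ, τ, ε, h1, h2, h3, h4, h5, h6, h7, h8, h9, h10⟩ :=
    corr_constsB (L := L) hη hδ hμ hC hL
  refine ⟨ηj, w0, κ, τ, min ε (κ * ηj / 32), h1, h2, h3, h4, h5, h6, h7,
    lt_min h8 (by positivity), h9, le_trans ?_ h10, ?_⟩
  · have h11 : 16 * min ε (κ * ηj / 32) / (κ * ηj) ≤ 16 * ε / (κ * ηj) := by
      have := min_le_left ε (κ * ηj / 32)
      gcongr
    exact mul_le_mul_of_nonneg_left (Real.sqrt_le_sqrt (Real.sqrt_le_sqrt h11)) (by positivity)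
  · have := min_le_right ε (κ * ηj / 32)
    linarith

/-- the sign theorem -/
def SignsT : Prop := ∃ C : ℝ, 0 < C ∧ ∀ (M m : ℕ), 0 < M → ∀ (A : ℕ → ℝ) (om : ℕ → ℂ)
    (kk : ℕ → ℤ) (θ : ℝ), 0 < θ → θ ≤ 1 → (∀ i ≤ M, 0 ≤ A i ∧ A i ≤ 1) → (∀ i ≤ M, ‖om i‖ = 1) →
    (om 0).im = 0 → (om M).im = 0 →
    2 * ((Finset.range (M + 1)).filter fun i => A i ≤ 1 - θ).card ≤ m →
    ∃ (s : ℕ → ℝ) (r : ℕ → Bool), (∀ i, s i = 1 ∨ s i = -1) ∧ ∀ j < m, ∃ t : ℝ,
      (∫ y in (0 : ℝ)..1, FF M cB (mkTD M A om kk (fun i => A i ≤ 1 - θ) s r) y *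
        e1 (-((j : ℝ) * y))) = t ∧
      |t| ≤ C * (4 / M) * √(√((((Finset.range (M + 1)).filter fun i => A i ≤ 1 - θ).card : ℝ) * m))

/-- closeness to the carrier in all blocks -/
theorem close_all15 {M : ℕ} (hM : 0 < M) {g : ℝ → ℂ} (hg1 : ∀ x, g (x + 1) = g x)
    (hgn : ∀ x, g (-x) = conj (g x)) {A : ℕ → ℝ} {om : ℕ → ℂ} {kk : ℕ → ℤ} {bad : ℕ → Prop}
    {s : ℕ → ℝ} {r : ℕ → Bool} {τ : ℝ}
    (h : ∀ i ≤ M, ∀ x : ℝ, |x - i / (2 * M)| ≤ 1 / (2 * M) →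
      ‖g x - A i * om i * e1 (kk i * (x - i / (2 * M)))‖ ≤ τ) (i : ℤ) (x : ℝ)
    (hx : |x - i / (2 * M)| ≤ 1 / (2 * M)) :
    ‖g x - (mkTD M A om kk bad s r).A i * car M (mkTD M A om kk bad s r) i x‖ ≤ τ := by
  have hM' : (0 : ℝ) < M := by exact_mod_cast hM
  have hgq : ∀ (q : ℤ) (y : ℝ), g (y - q) = g y := by
    intro q y
    have hp : Function.Periodic g 1 := hg1
    have := hp.sub_int_mul_eq (x := y) q
    simpa using this
  obtain ⟨q, hq, hm⟩ := rs_spec hM i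
  have hiq : (i : ℝ) / (2 * M) = q + (rs M i : ℝ) / (2 * M) := by
    have h1 : (i : ℝ) = q * (2 * M) + rs M i := by exact_mod_cast hq
    rw [h1]
    field_simp
  unfold car
  simp only [mkTD, fo]
  by_cases hr : rs M i ≤ M
  · rw [if_pos hr, if_pos hr]
    have h1 := h (rs M i) hr (x - q) (by
      rw [hiq] at hx
      rw [show x - (q : ℝ) - (rs M i : ℝ) / (2 * M) = x - (q + (rs M i : ℝ) / (2 * M)) by ring]
      exact hx)
    rw [hgq] at h1
    rw [hiq, ← mul_assoc]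
    rw [show x - (q : ℝ) - (rs M i : ℝ) / (2 * M) = x - (q + (rs M i : ℝ) / (2 * M)) by ring] at h1
    exact h1
  · rw [if_neg hr, if_neg hr]
    have hle : 2 * M - rs M i ≤ M := by omega
    have hcast : ((2 * M - rs M i : ℕ) : ℝ) = 2 * M - rs M i := by
      rw [Nat.cast_sub hm.le]
      push_cast
      ring
    have hy : (q : ℝ) + 1 - x - ((2 * M - rs M i : ℕ) : ℝ) / (2 * M) = -(x - i / (2 * M)) := by
      rw [hcast, hiq]
      field_simp
      ring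
    have h1 := h (2 * M - rs M i) hle ((q : ℝ) + 1 - x) (by rw [hy, abs_neg]; exact hx)
    have h2 : g ((q : ℝ) + 1 - x) = conj (g x) := by
      rw [← hgn]
      have := hgq (q + 1) ((q : ℝ) + 1 - x)
      rw [← this]
      congr 1
      push_cast
      ring
    rw [h2, hy] at h1
    rw [← Complex.norm_conj, map_sub, map_mul, map_mul, Complex.conj_conj, Complex.conj_ofReal,
      ← mul_assoc]
    rw [mul_neg, e1_neg] at h1
    exact h1

theorem correction_of_signs (hS : SignsT) : Correction := by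
  intro η δ μ hη hδ hμ hμ1
  obtain ⟨C, hC, hS⟩ := hS
  obtain ⟨ηj, w0, κ, τ, ε, hηj, hηj1, hw0, hw01, hκ, hτ, hτ1, hε, hmain, hδ', h32⟩ :=
    corr_constsB2 (L := fun x => 32 * Real.pi / √x) hη hδ hμ hC
      (fun x hx => by have := Real.pi_pos; positivity)
  obtain ⟨η', K, hη', hK, N₁, hcar⟩ := carrier (a := μ) hτ hκ
  obtain ⟨N₂, hnum⟩ := corr_num hκ hμ hμ1 hηj hε hC h32
  refine ⟨ε, η', K, hε, hη', hK, max (max N₁ N₂) 1, fun N hN n b hb => ?_⟩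
  have hN1 : N₁ ≤ N := ((le_max_left _ _).trans (le_max_left _ _)).trans hN
  have hN2 : N₂ ≤ N := ((le_max_right _ _).trans (le_max_left _ _)).trans hN
  have hN0 : 1 ≤ N := (le_max_right _ _).trans hN
  have hNr : (1 : ℝ) ≤ N := by exact_mod_cast hN0
  have hn : 0 < n := by
    have h1 := hb.ge
    have h2 : 0 < (1 - 3 * μ) * (N : ℝ) := mul_pos (by linarith) (by linarith)
    have h3 : (0 : ℝ) < n := by linarith
    exact_mod_cast h3
  obtain ⟨g, hg, hgc, hg1, hgn, hg0, hgh, hgb, hge, hgp⟩ := g_facts hn hb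
  obtain ⟨M, q, hM, hq, hqN, hNM, hMN, hsq, hw, hkq, hcard⟩ := hnum N hN2
  obtain ⟨kk, om, hkr, homn, hom0, homM, hclose, hA1, hk1, hom1⟩ :=
    hcar N hN1 M hM hNM g hgb hg0 hgh hgp
  have hM' : (0 : ℝ) < M := by exact_mod_cast hM
  obtain ⟨A, hA⟩ : ∃ A : ℕ → ℝ, A = fun i : ℕ => ‖g ((i : ℝ) / (2 * M))‖ := ⟨_, rfl⟩
  have hAi : ∀ i : ℕ, A i = ‖g ((i : ℝ) / (2 * M))‖ := fun i => by rw [hA]
  have hA01 : ∀ i ≤ M, 0 ≤ A i ∧ A i ≤ 1 := fun i _ => by
    rw [hAi]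
    exact ⟨norm_nonneg _, hgb _⟩
  have hslow : ∀ i ≤ M, ∀ x : ℝ, |x - (i : ℝ) / (2 * M)| ≤ 1 / (2 * M) →
      |‖g x‖ - ‖g ((i : ℝ) / (2 * M))‖| ≤ τ := by
    intro i hi x hx
    have h1 := hclose i hi x hx
    have h2 : ‖(‖g ((i : ℝ) / (2 * M))‖ : ℂ) * om i * e1 (kk i * (x - i / (2 * M)))‖ =
        ‖g ((i : ℝ) / (2 * M))‖ := by
      rw [norm_mul, norm_mul, norm_e1, homn i hi, Complex.norm_real, norm_norm, mul_one, mul_one]
    have h3 := abs_norm_sub_norm_le (g x)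
      ((‖g ((i : ℝ) / (2 * M))‖ : ℂ) * om i * e1 (kk i * (x - i / (2 * M))))
    rw [h2] at h3
    exact h3.trans h1
  have hcount := bad_count hηj (by linarith) hτ1 hM hgc hgb hge hslow
  have hcount' : (((Finset.range (M + 1)).filter fun i => A i ≤ 1 - ηj).card : ℝ) * ηj ≤
      8 * ε * M + 2 * ηj := by
    rw [hA]
    exact hcount
  obtain ⟨h2c, hcc⟩ := hcard _ hcount'
  obtain ⟨s, r, hs, hcoef⟩ := hS M N hM A om kk ηj hηj (by linarith) hA01 homn hom0 homM h2c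
  obtain ⟨d, hd⟩ : ∃ d : TD, d = mkTD M A om kk (fun i => A i ≤ 1 - ηj) s r := ⟨_, rfl⟩
  rw [← hd] at hcoef
  have hdA : ∀ i, 0 ≤ d.A i ∧ d.A i ≤ 1 := fun i => by
    rw [hd]
    exact hA01 _ (fo_le hM i)
  have hcok : COk cB d (32 * Real.pi / √ηj) ηj := by
    refine cok_cB hηj (by linarith) ?_ (fun i => (hdA i).1) (fun i => (hdA i).2) ?_ ?_
    · intro i
      rw [hd]
      exact mkTD_om_norm hM homn i
    · intro i
      rw [hd]
      exact mkTD_s_one hM hs i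
    · intro i
      rw [hd]
      exact Iff.rfl
  have hmeas : Measurable (FF M cB d) :=
    measurable_FF fun i _ => (continuous_cB _ _ _ _).measurable
  have hper : ∀ x, FF M cB d (x + 1) = FF M cB d x := by
    rw [hd]
    exact FF_add_one hM (mkTD_A_add hM) (mkTD_om_add hM) (mkTD_kk_add hM) (mkTD_s_add hM)
      (mkTD_r_add hM) (mkTD_bad_add hM)
  have hbound : ∀ x, ‖FF M cB d x‖ ≤ 2 := norm_FF_le hcok
  have hmod : ∀ x, |‖g x + FF M cB d x‖ - 1| ≤ τ + ηj := by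
    intro x
    refine modulus hcok hηj.le hgb x ?_
    have hmem := bt_mem (M := M) x
    have hx : |x - (bi M x : ℝ) / (2 * M)| ≤ 1 / (2 * M) := by
      have h1 : x - (bi M x : ℝ) / (2 * M) = (2 * M * x - bi M x) / (2 * M) := by
        field_simp
      rw [h1, abs_div, abs_of_pos (by positivity : (0 : ℝ) < 2 * M)]
      refine div_le_div_of_nonneg_right ?_ (by positivity)
      rw [abs_le]
      constructor <;> linarith [hmem.1, hmem.2]
    rw [hd]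
    refine close_all15 hM hg1 hgn (fun i hi y hy => ?_) (bi M x) x hx
    rw [hAi]
    exact hclose i hi y hy
  have hlocal : ∀ x, ∃ (k : ℤ) (a : ℂ), ‖a‖ ≤ 2 ∧ (q : ℤ) ≤ k ∧ k + q + 1 ≤ N ∧
      ∀ u, |u| ≤ w0 / (2 * M) → ‖FF M cB d (x - u) - a * e1 (-(k * u))‖ ≤
        2 * w0 * (32 * Real.pi / √ηj) + √(2 * ηj) + √(2 * τ) +
          2 * (τ + Real.pi * (2 * κ * τ)) := by
    intro x
    have hkk : ∀ i, |(d.kk (i + 1) : ℝ) - d.kk i| ≤ τ * N := by
      rw [hd]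
      exact mkTD_kk_succ hM hk1
    have hoo : ∀ i, ‖d.om (i + 1) - d.om i * e1 ((d.kk i : ℝ) / (2 * M))‖ ≤
        τ + Real.pi * (τ * N) / M := by
      rw [hd]
      exact mkTD_om_succ hM hom0 homM homn hk1 hom1
    have hAA : ∀ i, |d.A (i + 1) - d.A i| ≤ τ := by
      rw [hd]
      refine mkTD_A_succ hM fun i hi => ?_
      rw [hAi, hAi]
      have := hA1 i hi
      push_cast
      exact this
    have h4w : 4 * (M : ℝ) * (w0 / (2 * M)) = 2 * w0 := by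
      field_simp
      norm_num
    obtain ⟨i, a, ha, hloc⟩ := local_structure hM hcok hkk hoo hAA
      (w := w0 / (2 * M)) (by positivity) (by rw [h4w]; linarith) x
    have hkd : d.kk i = kk (fo M i) := by rw [hd]; rfl
    have hkr' := hkr (fo M i) (fo_le hM i)
    rw [← hkd] at hkr'
    obtain ⟨hq1, hq2⟩ := hkq (d.kk i) hkr'.1 (by linarith [hkr'.2])
    refine ⟨d.kk i, a, ha, hq1, hq2, fun u hu => (hloc u hu).trans ?_⟩
    rw [h4w]
    have h1 : Real.pi * (τ * N) / M ≤ Real.pi * (2 * κ * τ) := by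
      rw [div_le_iff₀ hM']
      have h2 : Real.pi * τ * N ≤ Real.pi * τ * (2 * M * κ) :=
        mul_le_mul_of_nonneg_left hNM (by have := Real.pi_pos; positivity)
      linarith
    linarith
  obtain ⟨t, ht, hx⟩ := corr_glue hn hq hqN hg hmeas hper hbound
    (w := w0 / (2 * M)) (e := C * (4 / M) * √(√((((Finset.range (M + 1)).filter
      fun i => A i ≤ 1 - ηj).card : ℝ) * N))) (by positivity) (by
      rw [div_le_iff₀ (by positivity)]
      have : (1 : ℝ) ≤ M := by exact_mod_cast hM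
      nlinarith) (by positivity) hmod hlocal hcoef
  refine ⟨t, fun k => (ht k).trans ((hcc n hb.le).trans hδ'), fun x => (hx x).trans ?_⟩
  have h1 : √(n : ℝ) ≤ √(N : ℝ) := Real.sqrt_le_sqrt (by exact_mod_cast hb.le)
  have hE : 0 ≤ 2 * w0 * (32 * Real.pi / √ηj) + √(2 * ηj) + √(2 * τ) +
      2 * (τ + Real.pi * (2 * κ * τ)) := by
    have := Real.pi_pos
    positivity
  have h2 : (2 * w0 * (32 * Real.pi / √ηj) + √(2 * ηj) + √(2 * τ) +
      2 * (τ + Real.pi * (2 * κ * τ))) * (1 + √((N : ℝ) / q)) ≤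
      (2 * w0 * (32 * Real.pi / √ηj) + √(2 * ηj) + √(2 * τ) +
      2 * (τ + Real.pi * (2 * κ * τ))) * (1 + √(4 / μ)) :=
    mul_le_mul_of_nonneg_left (by linarith) hE
  have h3 := hw w0 hw0
  calc √(n : ℝ) * _ ≤ √(n : ℝ) * η := mul_le_mul_of_nonneg_left (by linarith) (Real.sqrt_nonneg _)
    _ ≤ √(N : ℝ) * η := mul_le_mul_of_nonneg_right h1 hη.le
    _ = η * √(N : ℝ) := mul_comm _ _

end Vale.Agent.P110T
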