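import Vale.Agent.Lib.P110T.Signs
import Vale.Agent.Lib.P110T.CorrB

/-!
# P110T: the correction theorem
-/

namespace Vale.Agent.P110T

theorem signsT : SignsT := by
  obtain ⟨C, hC, h⟩ := exists_signs
  exact ⟨C, hC, fun M m hM A om kk θ _ _ h1 h2 h3 h4 h5 => h M m hM A om kk θ h1 h2 h3 h4 h5⟩

/-- the correction theorem -/
theorem correction : Correction := correction_of_signs signsT

end Vale.Agent.P110T
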