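import Vale.Agent.Lib.P110T.CorrB
import Vale.Agent.Lib.P110T.Signs

/-!
# P110T: the correction theorem
-/

namespace Vale.Agent.P110T

/-- **The correction theorem.** -/
theorem correction : Correction := by
  refine correction_of_signs ?_
  obtain ⟨C, hC, h⟩ := exists_signs
  exact ⟨C, hC, fun M m hM A om kk θ _ _ hA hom h0 hMr hc => h M m hM A om kk θ hA hom h0 hMr hc⟩

end Vale.Agent.P110T
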