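import Mathlib
import Vale.Agent.Lib.P110F.Defs

/-!
P110T: completion of the maximum theorem to the ultraflat theorem; common definitions.
-/

namespace Vale.Agent.P110T

open Vale.Agent.P110F

/-- The polynomial of length `N` with coefficients `b`, on the circle. -/
noncomputable def pS (N : ℕ) (b : ℕ → ℝ) (x : ℝ) : ℂ :=
  ∑ k ∈ Finset.range N, (b k : ℂ) * e1 ((k : ℝ) * x)

/-- The input of the completion: real coefficients in `[-1,1]` supported away from the two ends,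
sup norm at most `√N₁`, energy deficit `ε`, local purity. -/
def InT (μ ε η' K : ℝ) (N N₁ : ℕ) (b : ℕ → ℝ) : Prop :=
  (∀ k, |b k| ≤ 1) ∧ (∀ k, b k ≠ 0 → μ * N ≤ k ∧ (k : ℝ) ≤ (1 - μ) * N) ∧
  (∀ x : ℝ, ‖pS N b x‖ ≤ Real.sqrt N₁) ∧
  (1 - ε) * N₁ ≤ ∑ k ∈ Finset.range N, b k ^ 2 ∧
  ∀ x₀ : ℝ, ∃ κ₀ : ℝ, μ * N ≤ κ₀ ∧ κ₀ ≤ (1 - μ) * N ∧ ∀ x : ℝ, |x - x₀| ≤ K / N →
    ‖pS N b x - pS N b x₀ * e1 (κ₀ * (x - x₀))‖ ≤ η' * Real.sqrt N₁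

end Vale.Agent.P110T
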