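import Vale.Agent.Lib.P110F.D1
import Vale.Agent.Lib.P110U.D5

/-!
P110T: the last step. From almost unimodular real polynomials with coefficients in `[-1, 1]` to
Littlewood polynomials (Parseval and `round_poly`).
-/

namespace Vale.Agent.P110T

open Vale.Agent.P110F Vale.Agent.P110U

theorem final_round (H : ∀ η : ℝ, 0 < η → ∀ N₀ : ℕ, ∃ N : ℕ, N₀ ≤ N ∧ ∃ b : ℕ → ℝ,
      (∀ k, |b k| ≤ 1) ∧ ∀ x : ℝ,
        |‖∑ k ∈ Finset.range N, (b k : ℂ) * e1 ((k : ℝ) * x)‖ - Real.sqrt N| ≤ η * Real.sqrt N) :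
    ∀ c : ℝ, 0 < c → ∀ N₀ : ℕ, ∃ N : ℕ, N₀ ≤ N ∧ ∃ s : ℕ → ℝ, (∀ k, s k = 1 ∨ s k = -1) ∧
      ∀ x : ℝ, (1 - c) * Real.sqrt N ≤ ‖∑ k ∈ Finset.range N, (s k : ℂ) * e1 ((k : ℝ) * x)‖ ∧
        ‖∑ k ∈ Finset.range N, (s k : ℂ) * e1 ((k : ℝ) * x)‖ ≤ (1 + c) * Real.sqrt N := by
  intro c hc N₀
  obtain ⟨δ, hδ, N₁, hround⟩ := round_poly (η := c / 2) (by positivity)
  obtain ⟨N, hN, b, hb1, hb⟩ := H (min (min (c / 2) (δ / 2)) 1) (by positivity) (max (max N₀ N₁) 1)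
  set η : ℝ := min (min (c / 2) (δ / 2)) 1 with hη
  have hη0 : 0 < η := by positivity
  have hηc : η ≤ c / 2 := (min_le_left _ _).trans (min_le_left _ _)
  have hηδ : η ≤ δ / 2 := (min_le_left _ _).trans (min_le_right _ _)
  have hη1 : η ≤ 1 := min_le_right _ _
  have hN0 : N₀ ≤ N := ((le_max_left _ _).trans (le_max_left _ _)).trans hN
  have hN1 : N₁ ≤ N := ((le_max_right _ _).trans (le_max_left _ _)).trans hN
  have hsq : Real.sqrt N * Real.sqrt N = N := Real.mul_self_sqrt (Nat.cast_nonneg N)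
  have hs0 : 0 ≤ Real.sqrt N := Real.sqrt_nonneg _
  -- Parseval
  have hpars := integral_normSq_poly N (fun k => (b k : ℂ))
  have hlow : (1 - 2 * η) * N ≤ ∑ k ∈ Finset.range N, b k ^ 2 := by
    have h1 : ∑ j ∈ Finset.range N, ‖((b j : ℝ) : ℂ)‖ ^ 2 = ∑ k ∈ Finset.range N, b k ^ 2 := by
      refine Finset.sum_congr rfl fun k _ => ?_
      rw [Complex.norm_real, Real.norm_eq_abs, sq_abs]
    rw [← h1, ← hpars]
    have hcont : Continuous fun x : ℝ => ‖∑ j ∈ Finset.range N, ((b j : ℝ) : ℂ) * e1 (j * x)‖ ^ 2 := by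
      refine (continuous_norm.comp (continuous_finsetSum _ fun j _ => ?_)).pow 2
      exact continuous_const.mul (continuous_e1.comp (continuous_const.mul continuous_id))
    have hmono : ∫ x in (0 : ℝ)..1, ((1 - 2 * η) * (N : ℝ)) ≤
        ∫ x in (0 : ℝ)..1, ‖∑ j ∈ Finset.range N, ((b j : ℝ) : ℂ) * e1 (j * x)‖ ^ 2 := by
      refine intervalIntegral.integral_mono_on zero_le_one (by simp) (hcont.intervalIntegrable _ _)
        fun x _ => ?_
      have h2 := (abs_le.mp (hb x)).1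
      have h3 : (1 - η) * Real.sqrt N ≤
          ‖∑ j ∈ Finset.range N, ((b j : ℝ) : ℂ) * e1 ((j : ℝ) * x)‖ := by linarith
      have h4 : 0 ≤ (1 - η) * Real.sqrt N := mul_nonneg (by linarith) hs0
      have h5 := mul_self_le_mul_self h4 h3
      have h6 : (1 - 2 * η) * (N : ℝ) ≤ ((1 - η) * Real.sqrt N) * ((1 - η) * Real.sqrt N) := by
        have : ((1 - η) * Real.sqrt N) * ((1 - η) * Real.sqrt N) = (1 - η) ^ 2 * N := by
          linear_combination (1 - η) ^ 2 * hsq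
        rw [this]
        have hNn : (0 : ℝ) ≤ N := Nat.cast_nonneg N
        nlinarith [mul_nonneg (sq_nonneg η) hNn]
      rw [sq]
      exact h6.trans h5
    simpa using hmono
  have hsum : ∑ j ∈ Finset.range N, (1 - |b j|) ≤ δ * N := by
    have h1 : ∑ j ∈ Finset.range N, (1 - |b j|) ≤ ∑ j ∈ Finset.range N, (1 - b j ^ 2) := by
      refine Finset.sum_le_sum fun j _ => ?_
      have h2 := hb1 j
      have h3 := abs_nonneg (b j)
      have h4 : b j ^ 2 = |b j| ^ 2 := (sq_abs _).symm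
      nlinarith
    have h2 : ∑ j ∈ Finset.range N, (1 - b j ^ 2) = N - ∑ j ∈ Finset.range N, b j ^ 2 := by
      rw [Finset.sum_sub_distrib]
      simp
    have hNn : (0 : ℝ) ≤ N := Nat.cast_nonneg N
    nlinarith [mul_le_mul_of_nonneg_right hηδ hNn]
  obtain ⟨a, ha, hr⟩ := hround N hN1 b hb1 hsum
  refine ⟨N, hN0, a, ha, fun x => ?_⟩
  have hsplit : ∑ k ∈ Finset.range N, (a k : ℂ) * e1 ((k : ℝ) * x) =
      (∑ k ∈ Finset.range N, ((a k - b k : ℝ) : ℂ) * e1 ((k : ℝ) * x)) +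
        ∑ k ∈ Finset.range N, (b k : ℂ) * e1 ((k : ℝ) * x) := by
    rw [← Finset.sum_add_distrib]
    refine Finset.sum_congr rfl fun k _ => ?_
    push_cast
    ring
  have h1 := hr x
  have h2 := abs_le.mp (hb x)
  have h3 : η * Real.sqrt N ≤ c / 2 * Real.sqrt N := mul_le_mul_of_nonneg_right hηc hs0
  constructor
  · have h4 : ‖∑ k ∈ Finset.range N, (b k : ℂ) * e1 ((k : ℝ) * x)‖ ≤
        ‖∑ k ∈ Finset.range N, (a k : ℂ) * e1 ((k : ℝ) * x)‖ +
          ‖∑ k ∈ Finset.range N, ((a k - b k : ℝ) : ℂ) * e1 ((k : ℝ) * x)‖ := by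
      have h5 : ∑ k ∈ Finset.range N, (b k : ℂ) * e1 ((k : ℝ) * x) =
          ∑ k ∈ Finset.range N, (a k : ℂ) * e1 ((k : ℝ) * x) -
            ∑ k ∈ Finset.range N, ((a k - b k : ℝ) : ℂ) * e1 ((k : ℝ) * x) := by
        rw [hsplit]; ring
      rw [h5]
      exact norm_sub_le _ _
    have h6 := h2.1
    nlinarith
  · rw [hsplit]
    refine (norm_add_le _ _).trans ?_
    have h6 := h2.2
    nlinarith

end Vale.Agent.P110T
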