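import Vale.Agent.Lib.P110T.FinalRound

/-!
P110T: equivalent forms of the final statement (unit circle, polynomials, sequences).
-/

namespace Vale.Agent.P110T

open Vale.Agent.P110F Filter Topology

/-- The statement on the circle, in the variable `x` with `z = e1 x`. -/
def Ultra : Prop := ∀ c : ℝ, 0 < c → ∀ N₀ : ℕ, ∃ N : ℕ, N₀ ≤ N ∧ ∃ s : ℕ → ℝ,
  (∀ k, s k = 1 ∨ s k = -1) ∧
  ∀ x : ℝ, (1 - c) * Real.sqrt N ≤ ‖∑ k ∈ Finset.range N, (s k : ℂ) * e1 ((k : ℝ) * x)‖ ∧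
    ‖∑ k ∈ Finset.range N, (s k : ℂ) * e1 ((k : ℝ) * x)‖ ≤ (1 + c) * Real.sqrt N

theorem exists_e1 {z : ℂ} (hz : ‖z‖ = 1) : ∃ x : ℝ, ∀ k : ℕ, z ^ k = e1 ((k : ℝ) * x) := by
  refine ⟨Complex.arg z / (2 * Real.pi), fun k => ?_⟩
  have h1 : z = Complex.exp (Complex.arg z * Complex.I) := by
    have h2 := Complex.norm_mul_exp_arg_mul_I z
    rw [hz, Complex.ofReal_one, one_mul] at h2
    exact h2.symm
  conv_lhs => rw [h1]
  rw [← Complex.exp_nat_mul]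
  unfold e1
  congr 1
  have hp : (Real.pi : ℂ) ≠ 0 := by exact_mod_cast Real.pi_ne_zero
  push_cast
  field_simp

theorem ultra_circle (h : Ultra) (c : ℝ) (hc : 0 < c) (N₀ : ℕ) : ∃ N : ℕ, N₀ ≤ N ∧
    ∃ s : ℕ → ℝ, (∀ k, s k = 1 ∨ s k = -1) ∧ ∀ z : ℂ, ‖z‖ = 1 →
      (1 - c) * Real.sqrt N ≤ ‖∑ k ∈ Finset.range N, (s k : ℂ) * z ^ k‖ ∧
      ‖∑ k ∈ Finset.range N, (s k : ℂ) * z ^ k‖ ≤ (1 + c) * Real.sqrt N := by
  obtain ⟨N, hN, s, hs, hx⟩ := h c hc N₀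
  refine ⟨N, hN, s, hs, fun z hz => ?_⟩
  obtain ⟨x, hzx⟩ := exists_e1 hz
  simp only [hzx]
  exact hx x

/-- a sequence of lengths tending to infinity -/
theorem ultra_seq (h : Ultra) : ∃ (N : ℕ → ℕ) (s : ℕ → ℕ → ℝ), (∀ n, n < N n) ∧
    (∀ n k, s n k = 1 ∨ s n k = -1) ∧ ∀ n, ∀ z : ℂ, ‖z‖ = 1 →
      |‖∑ k ∈ Finset.range (N n), (s n k : ℂ) * z ^ k‖ / Real.sqrt (N n) - 1| ≤ 1 / ((n : ℝ) + 1) := by
  have h1 : ∀ n : ℕ, ∃ (M : ℕ) (t : ℕ → ℝ), n < M ∧ (∀ k, t k = 1 ∨ t k = -1) ∧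
      ∀ z : ℂ, ‖z‖ = 1 →
        |‖∑ k ∈ Finset.range M, (t k : ℂ) * z ^ k‖ / Real.sqrt M - 1| ≤ 1 / ((n : ℝ) + 1) := by
    intro n
    obtain ⟨M, hM, t, ht, hz⟩ := ultra_circle h (1 / ((n : ℝ) + 1)) (by positivity) (n + 1)
    refine ⟨M, t, hM, ht, fun z hz1 => ?_⟩
    obtain ⟨h2, h3⟩ := hz z hz1
    have hM0 : 0 < Real.sqrt M := Real.sqrt_pos.mpr (by exact_mod_cast (by omega : 0 < M))
    have h4 := (le_div_iff₀ hM0).mpr h2
    have h5 := (div_le_iff₀ hM0).mpr h3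
    rw [abs_le]
    constructor <;> linarith
  choose N s hN hs hz using h1
  exact ⟨N, s, hN, hs, hz⟩

theorem ultra_iSup (h : Ultra) : ∃ (N : ℕ → ℕ) (s : ℕ → ℕ → ℝ), Tendsto N atTop atTop ∧
    (∀ n k, s n k = 1 ∨ s n k = -1) ∧
    Tendsto (fun n => ⨆ z : Metric.sphere (0 : ℂ) 1,
      |‖∑ k ∈ Finset.range (N n), (s n k : ℂ) * (z : ℂ) ^ k‖ / Real.sqrt (N n) - 1|)
      atTop (𝓝 0) := by
  obtain ⟨N, s, hN, hs, hz⟩ := ultra_seq h
  refine ⟨N, s, ?_, hs, ?_⟩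
  · exact tendsto_atTop_mono (fun n => (hN n).le) tendsto_id
  · refine squeeze_zero (fun n => Real.iSup_nonneg fun z => abs_nonneg _) (fun n => ?_)
      tendsto_one_div_add_atTop_nhds_zero_nat
    have : Nonempty (Metric.sphere (0 : ℂ) 1) := ⟨⟨1, by simp⟩⟩
    exact ciSup_le fun z => hz n z (by simp)

theorem ultra_poly (h : Ultra) : ∃ P : ℕ → Polynomial ℝ,
    Tendsto (fun n => (P n).natDegree) atTop atTop ∧
    (∀ n, ∀ k ≤ (P n).natDegree, (P n).coeff k = 1 ∨ (P n).coeff k = -1) ∧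
    ∀ n, ∀ z : ℂ, ‖z‖ = 1 →
      |‖Polynomial.aeval z (P n)‖ / Real.sqrt ((P n).natDegree + 1) - 1| ≤ 1 / ((n : ℝ) + 1) := by
  obtain ⟨N, s, hN, hs, hz⟩ := ultra_seq h
  set P : ℕ → Polynomial ℝ := fun n =>
    ∑ k ∈ Finset.range (N n), Polynomial.C (s n k) * Polynomial.X ^ k with hP
  have hcoeff : ∀ n k, (P n).coeff k = if k < N n then s n k else 0 := by
    intro n k
    simp only [hP, Polynomial.finsetSum_coeff, Polynomial.coeff_C_mul, Polynomial.coeff_X_pow]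
    simp only [mul_ite, mul_one, mul_zero]
    rw [Finset.sum_ite_eq]
    simp
  have hne : ∀ n k, s n k ≠ 0 := fun n k => by rcases hs n k with h1 | h1 <;> rw [h1] <;> norm_num
  have hdeg : ∀ n, (P n).natDegree = N n - 1 := by
    intro n
    have hNn := hN n
    refine le_antisymm ?_ ?_
    · rw [Polynomial.natDegree_le_iff_coeff_eq_zero]
      intro k hk
      rw [hcoeff, if_neg (by omega)]
    · refine Polynomial.le_natDegree_of_ne_zero ?_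
      rw [hcoeff, if_pos (by omega)]
      exact hne n _
  have haeval : ∀ n (z : ℂ), Polynomial.aeval z (P n) =
      ∑ k ∈ Finset.range (N n), (s n k : ℂ) * z ^ k := by
    intro n z
    simp [hP]
  refine ⟨P, ?_, fun n k hk => ?_, fun n z hz1 => ?_⟩
  · refine tendsto_atTop_mono (fun n => ?_) tendsto_id
    have := hN n
    rw [hdeg]
    simp only [id]
    omega
  · rw [hdeg] at hk
    have := hN n
    rw [hcoeff, if_pos (by omega)]
    exact hs n k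
  · have h1 := hz n z hz1
    have h2 : ((P n).natDegree : ℝ) + 1 = N n := by
      have := hN n
      rw [hdeg]
      have h3 : N n - 1 + 1 = N n := by omega
      exact_mod_cast h3
    rw [haeval, h2]
    exact h1

end Vale.Agent.P110T
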