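import Vale.Agent.Lib.P110T.Defs
import Vale.Agent.Lib.P110U.G16

/-!
# P110T: the input theorem with a margin independent of the deficit
-/

namespace Vale.Agent.P110T

open Vale.Agent.P110F

/-- the shifted coefficients -/
noncomputable def shc (s : ℕ) (b : ℕ → ℝ) (k : ℕ) : ℝ := if s ≤ k then b (k - s) else 0

theorem shc_add (s : ℕ) (b : ℕ → ℝ) (k : ℕ) : shc s b (s + k) = b k := by
  unfold shc
  rw [if_pos (Nat.le_add_right _ _), Nat.add_sub_cancel_left]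

theorem sum_shc {M : Type*} [AddCommMonoid M] {n s N : ℕ} (hN : s + n ≤ N) (b : ℕ → ℝ)
    (hb : ∀ k, n ≤ k → b k = 0) (F : ℕ → ℝ → M) (hF : ∀ k, F k 0 = 0) :
    ∑ k ∈ Finset.range N, F k (shc s b k) = ∑ k ∈ Finset.range n, F (s + k) (b k) := by
  obtain ⟨d, rfl⟩ : ∃ d, N = s + n + d := ⟨N - (s + n), by omega⟩
  rw [Finset.sum_range_add, Finset.sum_range_add]
  have h1 : ∑ k ∈ Finset.range s, F k (shc s b k) = 0 := by
    refine Finset.sum_eq_zero fun k hk => ?_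
    rw [Finset.mem_range] at hk
    unfold shc
    rw [if_neg (by omega), hF]
  have h2 : ∑ x ∈ Finset.range d, F (s + n + x) (shc s b (s + n + x)) = 0 := by
    refine Finset.sum_eq_zero fun k _ => ?_
    rw [add_assoc s n k, shc_add, hb _ (Nat.le_add_right _ _), hF]
  rw [h1, h2, zero_add, add_zero]
  exact Finset.sum_congr rfl fun k _ => by rw [shc_add]

theorem pS_shc {n s N : ℕ} (hN : s + n ≤ N) (b : ℕ → ℝ) (hb : ∀ k, n ≤ k → b k = 0) (x : ℝ) :
    pS N (shc s b) x = e1 ((s : ℝ) * x) * pS n b x := by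
  unfold pS
  rw [sum_shc hN b hb (fun k c => (c : ℂ) * e1 ((k : ℝ) * x)) (fun k => by simp),
    Finset.mul_sum]
  refine Finset.sum_congr rfl fun k _ => ?_
  rw [show (((s + k : ℕ) : ℝ) * x) = (s : ℝ) * x + (k : ℝ) * x by push_cast; ring, e1_add]
  ring

theorem input_T2 {μ ε η' K : ℝ} (hμ : 0 < μ) (hμ1 : μ < 1 / 16) (hε : 0 < ε) (hη' : 0 < η')
    (hK : 0 < K) (N₀ : ℕ) : ∃ N N₁ : ℕ, N₀ ≤ N₁ ∧ N₁ ≤ N ∧ (1 - 4 * μ) * N ≤ N₁ ∧
      ∃ b : ℕ → ℝ, InT μ ε η' K N N₁ b := by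
  have hε' : 0 < min ε (1 / 8) := lt_min hε (by norm_num)
  have hε1 : min ε (1 / 8) < 1 / 4 := lt_of_le_of_lt (min_le_right _ _) (by norm_num)
  obtain ⟨n, hn, b, hb1, hb2, hb3, hb4, hb5⟩ :=
    Vale.Agent.P110U.input_T hε' hε1 hη' hK (max N₀ (⌈1 / (8 * μ ^ 2)⌉₊ + 1))
  set ε₁ := min ε (1 / 8) with hε₁
  have hn1 : N₀ ≤ n := (le_max_left _ _).trans hn
  have hn2 : ⌈1 / (8 * μ ^ 2)⌉₊ + 1 ≤ n := (le_max_right _ _).trans hn
  have hn3 : 1 / (8 * μ ^ 2) ≤ (n : ℝ) := by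
    refine (Nat.le_ceil _).trans ?_
    exact_mod_cast (Nat.le_succ _).trans hn2
  have hn0 : (0 : ℝ) < n := by exact_mod_cast (show 0 < n by omega)
  set s : ℕ := ⌈2 * μ * n⌉₊ with hs
  have hs1 : 2 * μ * n ≤ s := Nat.le_ceil _
  have hs2 : (s : ℝ) < 2 * μ * n + 1 := Nat.ceil_lt_add_one (by positivity)
  have hs0 : (0 : ℝ) ≤ s := Nat.cast_nonneg _
  have hN : ((n + 2 * s : ℕ) : ℝ) = n + 2 * s := by push_cast; ring
  have hzero : ∀ k, n ≤ k → b k = 0 := by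
    intro k hk
    by_contra h
    have h1 := (hb2 k h).2
    have h2 : (n : ℝ) ≤ k := by exact_mod_cast hk
    nlinarith
  have hle : s + n ≤ n + 2 * s := by omega
  have hP : ∀ x, pS (n + 2 * s) (shc s b) x = e1 ((s : ℝ) * x) * pS n b x := fun x =>
    pS_shc hle b hzero x
  have hμs : μ * ((n + 2 * s : ℕ) : ℝ) ≤ s := by
    rw [hN]
    nlinarith
  have hμN : (s : ℝ) + n ≤ (1 - μ) * ((n + 2 * s : ℕ) : ℝ) := by
    have h1 : (1 - μ) * ((n + 2 * s : ℕ) : ℝ) = n + 2 * s - μ * ((n + 2 * s : ℕ) : ℝ) := by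
      rw [sub_mul, one_mul, hN]
    rw [h1]
    linarith
  refine ⟨n + 2 * s, n, hn1, by omega, ?_, shc s b, ?_, ?_, ?_, ?_, ?_⟩
  · rw [hN]
    have h1 : 1 ≤ 8 * μ ^ 2 * n := by
      rw [div_le_iff₀ (by positivity)] at hn3
      linarith
    nlinarith
  · intro k
    unfold shc
    split_ifs with h
    · exact hb1 _
    · simp
  · intro k hk
    unfold shc at hk
    split_ifs at hk with h
    · obtain ⟨h1, h2⟩ := hb2 _ hk
      have h3 : ((k - s : ℕ) : ℝ) = k - s := by rw [Nat.cast_sub h]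
      rw [h3] at h2
      have h4 : (s : ℝ) ≤ k := by exact_mod_cast h
      constructor
      · linarith
      · have h5 : (1 - ε₁ / 8) * (n : ℝ) ≤ n := by nlinarith
        linarith
    · exact absurd rfl hk
  · intro x
    rw [hP, norm_mul, norm_e1, one_mul]
    exact hb3 x
  · have h1 : ∑ k ∈ Finset.range (n + 2 * s), shc s b k ^ 2 = ∑ k ∈ Finset.range n, b k ^ 2 :=
      sum_shc hle b hzero (fun _ c => c ^ 2) (fun _ => by norm_num)
    rw [h1]
    refine le_trans ?_ hb4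
    have h2 : ε₁ ≤ ε := min_le_left _ _
    nlinarith
  · intro x₀
    obtain ⟨κ₀, h1, h2, h3⟩ := hb5 x₀
    refine ⟨κ₀ + s, ?_, ?_, fun x hx => ?_⟩
    · have h4 : 0 ≤ ε₁ / 8 * (n : ℝ) := by positivity
      linarith
    · have h5 : (1 - ε₁ / 8) * (n : ℝ) ≤ n := by nlinarith
      linarith
    · have h4 : |x - x₀| ≤ K / n := by
        refine hx.trans (div_le_div_of_nonneg_left hK.le hn0 ?_)
        rw [hN]
        linarith
      have h5 := h3 x h4
      rw [hP, hP]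
      have h6 : e1 ((s : ℝ) * x) * pS n b x -
          e1 ((s : ℝ) * x₀) * pS n b x₀ * e1 ((κ₀ + s) * (x - x₀)) =
          e1 ((s : ℝ) * x) * (pS n b x - pS n b x₀ * e1 (κ₀ * (x - x₀))) := by
        have h7 : e1 ((s : ℝ) * x₀) * e1 ((κ₀ + s) * (x - x₀)) =
            e1 ((s : ℝ) * x) * e1 (κ₀ * (x - x₀)) := by
          rw [← e1_add, ← e1_add]
          congr 1
          ring
        calc _ = e1 ((s : ℝ) * x) * pS n b x -
            pS n b x₀ * (e1 ((s : ℝ) * x₀) * e1 ((κ₀ + s) * (x - x₀))) := by ring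
          _ = _ := by rw [h7]; ring
      rw [h6, norm_mul, norm_e1, one_mul]
      exact h5

end Vale.Agent.P110T
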