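import Vale.Agent.Lib.P110F.Defs

/-!
P110T: the band limiting kernel (a product of two Dirichlet kernels).
-/

namespace Vale.Agent.P110T

open MeasureTheory Filter Topology Vale.Agent.P110F
open scoped ComplexConjugate

/-- Dirichlet kernel -/
noncomputable def kerD (p : ℕ) (t : ℝ) : ℂ := ∑ a ∈ Finset.range p, e1 ((a : ℝ) * t)

theorem kerD_geom (t : ℝ) (n : ℕ) : |Real.sin (Real.pi * t)| * ‖kerD n t‖ ≤ 1 := by
  unfold kerD
  have h1 : (e1 t - 1) * ∑ a ∈ Finset.range n, e1 ((a : ℝ) * t) = e1 ((n : ℝ) * t) - 1 := by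
    induction n with
    | zero =>
      rw [Finset.sum_range_zero, mul_zero, Nat.cast_zero, zero_mul, e1_zero, sub_self]
    | succ n ih =>
      rw [Finset.sum_range_succ, mul_add, ih]
      have h2 : e1 (((n + 1 : ℕ) : ℝ) * t) = e1 t * e1 ((n : ℝ) * t) := by
        rw [← e1_add]
        congr 1
        push_cast
        ring
      rw [h2]
      ring
  have h3 : ‖e1 t - 1‖ = 2 * |Real.sin (Real.pi * t)| := by
    have h4 : e1 t = Complex.exp (Complex.I * ((2 * Real.pi * t : ℝ) : ℂ)) := by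
      unfold e1
      congr 1
      push_cast
      ring
    rw [h4, Complex.norm_exp_I_mul_ofReal_sub_one]
    rw [norm_mul, Real.norm_eq_abs, Real.norm_eq_abs, abs_two]
    congr 3
    ring
  have h5 : ‖e1 ((n : ℝ) * t) - 1‖ ≤ 2 := by
    refine (norm_sub_le _ _).trans ?_
    rw [norm_e1, norm_one]
    norm_num
  have h6 : 2 * (|Real.sin (Real.pi * t)| * ‖∑ a ∈ Finset.range n, e1 ((a : ℝ) * t)‖) ≤ 2 := by
    calc 2 * (|Real.sin (Real.pi * t)| * ‖∑ a ∈ Finset.range n, e1 ((a : ℝ) * t)‖)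
        = ‖(e1 t - 1) * ∑ a ∈ Finset.range n, e1 ((a : ℝ) * t)‖ := by
          rw [norm_mul, h3]; ring
      _ ≤ 2 := by rw [h1]; exact h5
  linarith

theorem kerD_cont (p : ℕ) : Continuous (kerD p) := by
  unfold kerD
  exact continuous_finsetSum _ fun a _ => continuous_e1.comp (continuous_const.mul continuous_id)

theorem kerD_sq (p : ℕ) : ∫ t in (0 : ℝ)..1, ‖kerD p t‖ ^ 2 = p := by
  have h1 : ∀ t : ℝ, ((‖kerD p t‖ ^ 2 : ℝ) : ℂ) = ∑ a ∈ Finset.range p, ∑ b ∈ Finset.range p,
      e1 ((((a : ℤ) - (b : ℤ) : ℤ) : ℝ) * t) := by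
    intro t
    have h2 : ((‖kerD p t‖ ^ 2 : ℝ) : ℂ) = kerD p t * conj (kerD p t) := by
      rw [Complex.mul_conj, Complex.normSq_eq_norm_sq]
    rw [h2]
    unfold kerD
    rw [map_sum, Finset.sum_mul_sum]
    refine Finset.sum_congr rfl fun a _ => Finset.sum_congr rfl fun b _ => ?_
    rw [← e1_neg, ← e1_add]
    congr 1
    push_cast
    ring
  have h3 : ((∫ t in (0 : ℝ)..1, ‖kerD p t‖ ^ 2 : ℝ) : ℂ) = (p : ℂ) := by
    rw [← intervalIntegral.integral_ofReal]
    simp_rw [h1]
    have hc : ∀ a b : ℕ, Continuous fun t : ℝ => e1 ((((a : ℤ) - (b : ℤ) : ℤ) : ℝ) * t) :=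
      fun a b => continuous_e1.comp (continuous_const.mul continuous_id)
    rw [intervalIntegral.integral_finsetSum fun a _ =>
      (continuous_finsetSum _ fun b _ => hc a b).intervalIntegrable _ _]
    have h4 : ∀ a ∈ Finset.range p, ∫ t in (0 : ℝ)..1, ∑ b ∈ Finset.range p,
        e1 ((((a : ℤ) - (b : ℤ) : ℤ) : ℝ) * t) = 1 := by
      intro a ha
      rw [intervalIntegral.integral_finsetSum fun b _ => (hc a b).intervalIntegrable _ _]
      simp_rw [integral_e1_int]
      rw [Finset.sum_eq_single a]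
      · simp
      · intro b _ hb
        rw [if_neg]
        omega
      · intro h
        exact absurd ha h
    rw [Finset.sum_congr rfl h4]
    simp
  exact_mod_cast h3

/-- the trapezoid coefficients -/
noncomputable def kerV (p q k : ℕ) : ℝ :=
  (((Finset.range q).filter fun l => l ≤ k ∧ k < l + p).card : ℝ) / q

theorem kerV_nonneg (p q k : ℕ) : 0 ≤ kerV p q k := by
  unfold kerV
  positivity

theorem kerV_le_one (p q k : ℕ) : kerV p q k ≤ 1 := by
  unfold kerV
  apply div_le_one_of_le₀ _ (Nat.cast_nonneg _)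
  have h := Finset.card_filter_le (Finset.range q) (fun l => l ≤ k ∧ k < l + p)
  rw [Finset.card_range] at h
  exact_mod_cast h

theorem kerV_eq_one {p q k : ℕ} (hq : 0 < q) (h1 : q ≤ k + 1) (h2 : k < p) : kerV p q k = 1 := by
  unfold kerV
  rw [Finset.filter_true_of_mem, Finset.card_range, div_self]
  · exact_mod_cast hq.ne'
  · intro l hl
    rw [Finset.mem_range] at hl
    omega

theorem kerV_sum {p q N : ℕ} (hN : p + q ≤ N + 1) (f : ℕ → ℂ) :
    ∑ k ∈ Finset.range N, (kerV p q k : ℂ) * f k =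
      (∑ l ∈ Finset.range q, ∑ j ∈ Finset.range p, f (l + j)) / q := by
  have h1 : ∀ l ∈ Finset.range q, ∑ j ∈ Finset.range p, f (l + j) =
      ∑ k ∈ Finset.range N, if l ≤ k ∧ k < l + p then f k else 0 := by
    intro l hl
    rw [Finset.mem_range] at hl
    rw [← Finset.sum_filter]
    have h2 : (Finset.range N).filter (fun k => l ≤ k ∧ k < l + p) = Finset.Ico l (l + p) := by
      ext k
      rw [Finset.mem_filter, Finset.mem_range, Finset.mem_Ico]
      omega
    rw [h2, Finset.sum_Ico_eq_sum_range, Nat.add_sub_cancel_left]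
  rw [Finset.sum_congr rfl h1, Finset.sum_comm, Finset.sum_div]
  refine Finset.sum_congr rfl fun k _ => ?_
  rw [← Finset.sum_filter, Finset.sum_const, nsmul_eq_mul]
  unfold kerV
  push_cast
  ring

/-- the kernel -/
noncomputable def kerK (p q N : ℕ) (t : ℝ) : ℂ :=
  ∑ k ∈ Finset.range N, (kerV p q k : ℂ) * e1 ((k : ℝ) * t)

theorem kerK_eq {p q N : ℕ} (hN : p + q ≤ N + 1) (t : ℝ) :
    kerK p q N t = kerD q t * kerD p t / q := by
  unfold kerK
  rw [kerV_sum hN (fun k => e1 ((k : ℝ) * t))]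
  unfold kerD
  rw [Finset.sum_mul_sum]
  congr 1
  refine Finset.sum_congr rfl fun a _ => Finset.sum_congr rfl fun b _ => ?_
  rw [← e1_add]
  congr 1
  push_cast
  ring

theorem kerK_cont (p q N : ℕ) : Continuous (kerK p q N) := by
  unfold kerK
  exact continuous_finsetSum _ fun a _ =>
    continuous_const.mul (continuous_e1.comp (continuous_const.mul continuous_id))

theorem kerK_per (p q N : ℕ) (t : ℝ) : kerK p q N (t + 1) = kerK p q N t := by
  unfold kerK
  refine Finset.sum_congr rfl fun k _ => ?_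
  rw [mul_add, e1_add, mul_one]
  have h : e1 ((k : ℕ) : ℝ) = 1 := by
    have := e1_int (k : ℤ)
    rw [Int.cast_natCast] at this
    exact this
  rw [h, mul_one]

theorem kerK_sin {p q N : ℕ} (hq : 0 < q) (hN : p + q ≤ N + 1) (t : ℝ) :
    ‖kerK p q N t‖ * Real.sin (Real.pi * t) ^ 2 ≤ 1 / q := by
  have hq' : (0 : ℝ) < q := by exact_mod_cast hq
  rw [kerK_eq hN, norm_div, norm_mul, Complex.norm_natCast, ← sq_abs]
  rw [div_mul_eq_mul_div]
  apply div_le_div_of_nonneg_right _ hq'.le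
  have h1 := kerD_geom t q
  have h2 := kerD_geom t p
  have h3 : 0 ≤ |Real.sin (Real.pi * t)| * ‖kerD p t‖ := by positivity
  calc ‖kerD q t‖ * ‖kerD p t‖ * |Real.sin (Real.pi * t)| ^ 2 =
      (|Real.sin (Real.pi * t)| * ‖kerD q t‖) * (|Real.sin (Real.pi * t)| * ‖kerD p t‖) := by ring
    _ ≤ 1 * 1 := mul_le_mul h1 h2 h3 zero_le_one
    _ = 1 := one_mul 1

theorem kerK_int {p q N : ℕ} (hq : 0 < q) (hN : p + q ≤ N + 1) {c : ℝ} (hc : 0 < c) :
    ∫ t in (0 : ℝ)..1, ‖kerK p q N t‖ ≤ (c + p / (q * c)) / 2 := by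
  have hq' : (0 : ℝ) < q := by exact_mod_cast hq
  have h1 : ∀ t, ‖kerK p q N t‖ ≤ c / (2 * q) * ‖kerD q t‖ ^ 2 +
      1 / (2 * q * c) * ‖kerD p t‖ ^ 2 := by
    intro t
    rw [kerK_eq hN, norm_div, norm_mul, Complex.norm_natCast]
    have h2 : 2 * (c * ‖kerD q t‖ * ‖kerD p t‖) ≤ (c * ‖kerD q t‖) ^ 2 + ‖kerD p t‖ ^ 2 := by
      nlinarith [sq_nonneg (c * ‖kerD q t‖ - ‖kerD p t‖)]
    have h3 : c / (2 * q) * ‖kerD q t‖ ^ 2 + 1 / (2 * q * c) * ‖kerD p t‖ ^ 2 =
        ((c * ‖kerD q t‖) ^ 2 + ‖kerD p t‖ ^ 2) / (2 * q * c) := by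
      field_simp
    rw [h3, div_le_div_iff₀ hq' (by positivity)]
    nlinarith [mul_le_mul_of_nonneg_left h2 hq'.le]
  have hA : IntervalIntegrable (fun t => c / (2 * q) * ‖kerD q t‖ ^ 2) volume 0 1 :=
    (continuous_const.mul ((kerD_cont q).norm.pow 2)).intervalIntegrable _ _
  have hB : IntervalIntegrable (fun t => 1 / (2 * q * c) * ‖kerD p t‖ ^ 2) volume 0 1 :=
    (continuous_const.mul ((kerD_cont p).norm.pow 2)).intervalIntegrable _ _
  have h4 := intervalIntegral.integral_mono_on (μ := volume) zero_le_one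
    ((kerK_cont p q N).norm.intervalIntegrable _ _) (hA.add hB) fun t _ => h1 t
  rw [intervalIntegral.integral_add hA hB, intervalIntegral.integral_const_mul,
    intervalIntegral.integral_const_mul, kerD_sq, kerD_sq] at h4
  refine h4.trans (le_of_eq ?_)
  field_simp

/-- Fourier coefficients -/
noncomputable def kerF (F : ℝ → ℂ) (j : ℕ) : ℂ :=
  ∫ y in (0 : ℝ)..1, F y * e1 (-((j : ℝ) * y))

/-- the band limited function is a convolution -/
theorem kerK_conv (p q N : ℕ) {F : ℝ → ℂ} (hF : IntervalIntegrable F volume 0 1) (x : ℝ) :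
    ∑ j ∈ Finset.range N, (kerV p q j : ℂ) * kerF F j * e1 ((j : ℝ) * x) =
      ∫ y in (0 : ℝ)..1, F y * kerK p q N (x - y) := by
  have h1 : ∀ y, F y * kerK p q N (x - y) = ∑ j ∈ Finset.range N,
      (kerV p q j : ℂ) * e1 ((j : ℝ) * x) * (F y * e1 (-((j : ℝ) * y))) := by
    intro y
    unfold kerK
    rw [Finset.mul_sum]
    refine Finset.sum_congr rfl fun j _ => ?_
    have h2 : e1 ((j : ℝ) * (x - y)) = e1 ((j : ℝ) * x) * e1 (-((j : ℝ) * y)) := by
      rw [← e1_add]
      congr 1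
      ring
    rw [h2]
    ring
  simp_rw [h1]
  have hc : ∀ j : ℕ, IntervalIntegrable (fun y => F y * e1 (-((j : ℝ) * y))) volume 0 1 :=
    fun j => hF.mul_continuousOn
      (continuous_e1.comp (continuous_const.mul continuous_id).neg).continuousOn
  rw [intervalIntegral.integral_finsetSum fun j _ => (hc j).const_mul _]
  refine Finset.sum_congr rfl fun j _ => ?_
  rw [intervalIntegral.integral_const_mul]
  unfold kerF
  ring

theorem ker_tail {h : ℝ} (hh : 0 < h) (hh1 : h ≤ 1 / 2) :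
    ∫ u in h..(1 / 2 : ℝ), u ^ (-2 : ℤ) ≤ 1 / h := by
  rw [integral_zpow]
  · have : ((1 / 2 : ℝ) ^ (-2 + 1 : ℤ) - h ^ (-2 + 1 : ℤ)) / (((-2 : ℤ) : ℝ) + 1) = 1 / h - 2 := by
      norm_num
      ring
    rw [this]
    linarith
  · right
    refine ⟨by norm_num, ?_⟩
    rw [Set.uIcc_of_le hh1]
    intro h0
    exact absurd h0.1 (not_le.2 hh)

theorem kerK_le {p q N : ℕ} (hq : 0 < q) (hN : p + q ≤ N + 1) {t : ℝ} (ht : 0 < |t|)
    (ht1 : |t| ≤ 1 / 2) : ‖kerK p q N t‖ ≤ 1 / (4 * q) * |t| ^ (-2 : ℤ) := by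
  have hq' : (0 : ℝ) < q := by exact_mod_cast hq
  have h1 := kerK_sin hq hN t
  have h2 : 2 * |t| ≤ |Real.sin (Real.pi * t)| := by
    have h3 : |Real.sin (Real.pi * t)| = |Real.sin (Real.pi * |t|)| := by
      rcases abs_cases t with h | h
      · rw [h.1]
      · rw [h.1, mul_neg, Real.sin_neg, abs_neg]
    rw [h3]
    refine le_trans ?_ (le_abs_self _)
    have h4 := Real.mul_le_sin (x := Real.pi * |t|) (by positivity) (by nlinarith [Real.pi_pos])
    have h5 : 2 / Real.pi * (Real.pi * |t|) = 2 * |t| := by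
      field_simp
    rw [h5] at h4
    exact h4
  have h6 : (2 * |t|) ^ 2 ≤ Real.sin (Real.pi * t) ^ 2 := by
    rw [← sq_abs (Real.sin (Real.pi * t))]
    exact pow_le_pow_left₀ (by positivity) h2 2
  have h7 : ‖kerK p q N t‖ * (2 * |t|) ^ 2 ≤ 1 / q :=
    (mul_le_mul_of_nonneg_left h6 (norm_nonneg _)).trans h1
  have h8 : 1 / (4 * q) * |t| ^ (-2 : ℤ) = (1 / q) / (2 * |t|) ^ 2 := by
    rw [zpow_neg]
    have : |t| ^ (2 : ℤ) = |t| ^ 2 := zpow_natCast _ 2
    rw [this]
    field_simp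
    norm_num
  rw [h8, le_div_iff₀ (by positivity)]
  exact h7

/-- Locally `F` is a pure frequency in the pass band: then band limiting changes little. -/
theorem kerK_local {p q N : ℕ} (hq : 0 < q) (hN : p + q ≤ N + 1) {F : ℝ → ℂ}
    (hFp : ∀ y, F (y + 1) = F y) (hF : IntervalIntegrable F volume 0 1) {B : ℝ}
    (hB : ∀ y, ‖F y‖ ≤ B) {k : ℕ} (hk1 : q ≤ k + 1) (hk2 : k < p) {x h d : ℝ} (hh : 0 < h)
    (hh1 : h ≤ 1 / 2) (hd : ∀ y, |y - x| ≤ h → ‖F y - F x * e1 ((k : ℝ) * (y - x))‖ ≤ d) :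
    ‖∑ j ∈ Finset.range N, (kerV p q j : ℂ) * kerF F j * e1 ((j : ℝ) * x) - F x‖ ≤
      d * (∫ t in (0 : ℝ)..1, ‖kerK p q N t‖) + B / (q * h) := by
  have hq' : (0 : ℝ) < q := by exact_mod_cast hq
  have hB0 : 0 ≤ B := (norm_nonneg _).trans (hB 0)
  set G : ℝ → ℂ := fun y => F x * e1 ((k : ℝ) * (y - x)) with hG
  have hGc : Continuous G := by
    rw [hG]
    exact continuous_const.mul
      (continuous_e1.comp (continuous_const.mul (continuous_id.sub continuous_const)))
  have hkN : k < N := by omega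
  have e1nat : ∀ n : ℕ, e1 (n : ℝ) = 1 := by
    intro n
    have := e1_int (n : ℤ)
    rw [Int.cast_natCast] at this
    exact this
  -- the pure frequency is reproduced
  have hGs : ∑ j ∈ Finset.range N, (kerV p q j : ℂ) * kerF G j * e1 ((j : ℝ) * x) = F x := by
    have h1 : ∀ j : ℕ, kerF G j = if j = k then F x * e1 (-((k : ℝ) * x)) else 0 := by
      intro j
      unfold kerF
      have h2 : ∀ y : ℝ, G y * e1 (-((j : ℝ) * y)) =
          F x * e1 (-((k : ℝ) * x)) * e1 ((((k : ℤ) - (j : ℤ) : ℤ) : ℝ) * y) := by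
        intro y
        rw [hG]
        dsimp only
        rw [mul_assoc, ← e1_add, mul_assoc, ← e1_add]
        congr 2
        push_cast
        ring
      simp_rw [h2]
      rw [intervalIntegral.integral_const_mul, integral_e1_int]
      by_cases hjk : j = k
      · rw [if_pos hjk, if_pos (by omega), mul_one]
      · rw [if_neg hjk, if_neg (by omega), mul_zero]
    rw [Finset.sum_eq_single k]
    · rw [h1, if_pos rfl, kerV_eq_one hq hk1 hk2, Complex.ofReal_one, one_mul, mul_assoc,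
        ← e1_add, neg_add_cancel, e1_zero, mul_one]
    · intro j _ hj
      rw [h1, if_neg hj, mul_zero, zero_mul]
    · intro h
      exact absurd (Finset.mem_range.2 hkN) h
  set D : ℝ → ℂ := fun y => F y - G y with hD
  have hDi : IntervalIntegrable D volume 0 1 := hF.sub (hGc.intervalIntegrable _ _)
  have hsub : ∑ j ∈ Finset.range N, (kerV p q j : ℂ) * kerF F j * e1 ((j : ℝ) * x) - F x =
      ∫ y in (0 : ℝ)..1, D y * kerK p q N (x - y) := by
    nth_rewrite 1 [← hGs]
    rw [kerK_conv p q N hF, kerK_conv p q N (hGc.intervalIntegrable _ _)]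
    have hkc : ContinuousOn (fun y => kerK p q N (x - y)) (Set.uIcc 0 1) :=
      ((kerK_cont p q N).comp (continuous_const.sub continuous_id)).continuousOn
    rw [← intervalIntegral.integral_sub (hF.mul_continuousOn hkc)
      ((hGc.intervalIntegrable _ _).mul_continuousOn hkc)]
    refine intervalIntegral.integral_congr fun y _ => ?_
    dsimp only [D]
    ring
  have hDp : ∀ y, D (y + 1) = D y := by
    intro y
    dsimp only [D, G]
    rw [hFp]
    congr 2
    rw [show (k : ℝ) * (y + 1 - x) = (k : ℝ) * (y - x) + k by ring, e1_add, e1nat, mul_one]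
  have hDB : ∀ y, ‖D y‖ ≤ 2 * B := by
    intro y
    refine (norm_sub_le _ _).trans ?_
    dsimp only [G]
    rw [norm_mul, norm_e1, mul_one]
    linarith [hB y, hB x]
  -- shift the integral
  set Ψ : ℝ → ℂ := fun u => D (x + u) * kerK p q N (-u) with hΨ
  have hper : Function.Periodic (fun y => D y * kerK p q N (x - y)) 1 := by
    intro y
    dsimp only
    rw [hDp, ← kerK_per p q N (x - (y + 1))]
    congr 2
    ring
  have hDall : ∀ a b : ℝ, IntervalIntegrable D volume a b := by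
    have hpD : Function.Periodic D 1 := hDp
    intro a b
    exact hpD.intervalIntegrable₀ one_ne_zero hDi a b
  have hΨi : ∀ a b : ℝ, IntervalIntegrable Ψ volume a b := by
    intro a b
    have h1 : IntervalIntegrable (fun u => D (x + u)) volume a b := by
      have h2 := (hDall (x + a) (x + b)).comp_add_left x
      simpa using h2
    exact h1.mul_continuousOn ((kerK_cont p q N).comp continuous_neg).continuousOn
  have hint : ∫ y in (0 : ℝ)..1, D y * kerK p q N (x - y) = ∫ u in (-(1 / 2) : ℝ)..(1 / 2), Ψ u := by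
    have h1 := hper.intervalIntegral_add_eq 0 (x - 1 / 2)
    rw [zero_add] at h1
    rw [h1]
    have h2 := intervalIntegral.integral_comp_add_left
      (a := -(1 / 2)) (b := 1 / 2) (fun y => D y * kerK p q N (x - y)) x
    have h3 : (fun u => D (x + u) * kerK p q N (x - (x + u))) = Ψ := by
      funext u
      dsimp only [Ψ]
      congr 2
      ring
    rw [h3] at h2
    rw [h2]
    congr 1
    ring
  have hKint : ∫ u in (-(1 / 2) : ℝ)..(1 / 2), ‖kerK p q N (-u)‖ =
      ∫ t in (0 : ℝ)..1, ‖kerK p q N t‖ := by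
    rw [intervalIntegral.integral_comp_neg (fun t => ‖kerK p q N t‖), neg_neg]
    have hp2 : Function.Periodic (fun t => ‖kerK p q N t‖) 1 := fun t => by
      dsimp only
      rw [kerK_per]
    have h1 := hp2.intervalIntegral_add_eq (-(1 / 2)) 0
    rw [zero_add] at h1
    rw [← h1]
    congr 1
    ring
  have hmid : ‖∫ u in (-h)..h, Ψ u‖ ≤ d * ∫ t in (0 : ℝ)..1, ‖kerK p q N t‖ := by
    have hd0 : 0 ≤ d := (norm_nonneg _).trans (hd x (by simpa using hh.le))
    have h1 : ‖∫ u in (-h)..h, Ψ u‖ ≤ ∫ u in (-h)..h, d * ‖kerK p q N (-u)‖ := by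
      apply intervalIntegral.norm_integral_le_of_norm_le (by linarith)
      · refine Filter.Eventually.of_forall fun u hu => ?_
        dsimp only [Ψ]
        rw [norm_mul]
        apply mul_le_mul_of_nonneg_right _ (norm_nonneg _)
        apply hd
        rw [add_sub_cancel_left, abs_le]
        exact ⟨hu.1.le, hu.2⟩
      · exact (continuous_const.mul
          ((kerK_cont p q N).comp continuous_neg).norm).intervalIntegrable _ _
    refine h1.trans ?_
    rw [intervalIntegral.integral_const_mul]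
    apply mul_le_mul_of_nonneg_left _ hd0
    rw [← hKint]
    apply intervalIntegral.integral_mono_interval (by linarith) (by linarith) (by linarith)
    · exact Filter.Eventually.of_forall fun u => norm_nonneg _
    · exact (((kerK_cont p q N).comp continuous_neg).norm).intervalIntegrable _ _
  have hzi : ∀ a b : ℝ, 0 < a → a ≤ b → IntervalIntegrable (fun u : ℝ => u ^ (-2 : ℤ)) volume a b := by
    intro a b ha hab
    apply ContinuousOn.intervalIntegrable
    intro u hu
    rw [Set.uIcc_of_le hab] at hu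
    exact (continuousAt_zpow₀ u (-2) (Or.inl (ne_of_gt (lt_of_lt_of_le ha hu.1)))).continuousWithinAt
  have hright : ‖∫ u in h..(1 / 2 : ℝ), Ψ u‖ ≤ B / (2 * q * h) := by
    have h1 : ‖∫ u in h..(1 / 2 : ℝ), Ψ u‖ ≤
        ∫ u in h..(1 / 2 : ℝ), 2 * B * (1 / (4 * q)) * u ^ (-2 : ℤ) := by
      apply intervalIntegral.norm_integral_le_of_norm_le hh1
      · refine Filter.Eventually.of_forall fun u hu => ?_
        dsimp only [Ψ]
        have hu0 : 0 < u := hh.trans hu.1
        have h2 := kerK_le (t := -u) hq hN (by rw [abs_neg, abs_of_pos hu0]; exact hu0)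
          (by rw [abs_neg, abs_of_pos hu0]; exact hu.2)
        rw [abs_neg, abs_of_pos hu0] at h2
        rw [norm_mul, mul_assoc]
        exact mul_le_mul (hDB _) h2 (norm_nonneg _) (by linarith)
      · exact (hzi h (1 / 2) hh hh1).const_mul _
    refine h1.trans ?_
    rw [intervalIntegral.integral_const_mul]
    have h3 := mul_le_mul_of_nonneg_left (ker_tail hh hh1)
      (show 0 ≤ 2 * B * (1 / (4 * q)) by positivity)
    refine h3.trans (le_of_eq ?_)
    field_simp
    ring
  have hleft : ‖∫ u in (-(1 / 2) : ℝ)..(-h), Ψ u‖ ≤ B / (2 * q * h) := by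
    have h0 : ∫ u in (-(1 / 2) : ℝ)..(-h), Ψ u = ∫ u in h..(1 / 2 : ℝ), Ψ (-u) := by
      rw [intervalIntegral.integral_comp_neg]
    rw [h0]
    have h1 : ‖∫ u in h..(1 / 2 : ℝ), Ψ (-u)‖ ≤
        ∫ u in h..(1 / 2 : ℝ), 2 * B * (1 / (4 * q)) * u ^ (-2 : ℤ) := by
      apply intervalIntegral.norm_integral_le_of_norm_le hh1
      · refine Filter.Eventually.of_forall fun u hu => ?_
        dsimp only [Ψ]
        have hu0 : 0 < u := hh.trans hu.1
        have h2 := kerK_le (t := - -u) hq hN (by rw [neg_neg, abs_of_pos hu0]; exact hu0)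
          (by rw [neg_neg, abs_of_pos hu0]; exact hu.2)
        rw [neg_neg, abs_of_pos hu0] at h2
        rw [norm_mul, mul_assoc, neg_neg]
        exact mul_le_mul (hDB _) h2 (norm_nonneg _) (by linarith)
      · exact (hzi h (1 / 2) hh hh1).const_mul _
    refine h1.trans ?_
    rw [intervalIntegral.integral_const_mul]
    have h3 := mul_le_mul_of_nonneg_left (ker_tail hh hh1)
      (show 0 ≤ 2 * B * (1 / (4 * q)) by positivity)
    refine h3.trans (le_of_eq ?_)
    field_simp
    ring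
  rw [hsub, hint, ← intervalIntegral.integral_add_adjacent_intervals (hΨi _ (-h)) (hΨi (-h) _),
    ← intervalIntegral.integral_add_adjacent_intervals (hΨi (-h) h) (hΨi h (1 / 2))]
  have h9 : B / (q * h) = B / (2 * q * h) + B / (2 * q * h) := by
    field_simp
    norm_num
  rw [h9]
  calc ‖(∫ u in (-(1 / 2) : ℝ)..(-h), Ψ u) + ((∫ u in (-h)..h, Ψ u) + ∫ u in h..(1 / 2 : ℝ), Ψ u)‖
      ≤ ‖∫ u in (-(1 / 2) : ℝ)..(-h), Ψ u‖ + (‖∫ u in (-h)..h, Ψ u‖ + ‖∫ u in h..(1 / 2 : ℝ), Ψ u‖) :=
        (norm_add_le _ _).trans (add_le_add le_rfl (norm_add_le _ _))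
    _ ≤ _ := by linarith [hleft, hmid, hright]

end Vale.Agent.P110T
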