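import Vale.Agent.Lib.P110T.Rounds

/-! P110T: two rounds of signs, from the linear discrepancy form of Spencer's theorem. -/

namespace Vale.Agent.P110T

/-- the linear discrepancy statement with the constant `C` -/
def LinD (C : ℝ) : Prop := ∀ N m : ℕ, N ≤ m → ∀ a : Fin m → Fin N → ℝ, (∀ i j, |a i j| ≤ 1) →
  ∀ p : Fin N → ℝ, (∀ j, 0 ≤ p j ∧ p j ≤ 1) → ∃ f : Fin N → ℝ, (∀ j, f j = 0 ∨ f j = 1) ∧
    ∀ i, |∑ j, a i j * (f j - p j)| ≤ C * Real.sqrt (Real.sqrt ((N : ℝ) * m))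

private theorem TwoR_fin {C : ℝ} (hL : LinD C) (m : ℕ) (S : Finset ℕ)
    (hS : S.card ≤ m) {E : ℝ} (hE : 0 ≤ E) (a : Fin m → ℕ → ℝ)
    (ha : ∀ k, ∀ j ∈ S, |a k j| ≤ E) (p : ℕ → ℝ) (hp : ∀ j, 0 ≤ p j ∧ p j ≤ 1) :
    ∃ f : ℕ → ℝ, (∀ j, f j = 0 ∨ f j = 1) ∧
      ∀ k, |∑ j ∈ S, a k j * (f j - p j)| ≤
        C * E * Real.sqrt (Real.sqrt ((S.card : ℝ) * m)) := by
  rcases hE.eq_or_lt with h0 | hE'
  · refine ⟨fun _ => 0, fun j => Or.inl rfl, fun k => ?_⟩
    rw [Finset.sum_eq_zero, ← h0]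
    · simp
    · intro j hj
      have h1 := ha k j hj
      rw [← h0] at h1
      rw [abs_nonpos_iff.1 h1, zero_mul]
  · obtain ⟨f', hf', hb⟩ := hL S.card m hS (fun k i => a k (S.equivFin.symm i) / E)
      (fun k i => by
        rw [abs_div, abs_of_pos hE']
        exact (div_le_one hE').2 (ha k _ (S.equivFin.symm i).2))
      (fun i => p (S.equivFin.symm i)) (fun i => hp _)
    refine ⟨fun j => if h : j ∈ S then f' (S.equivFin ⟨j, h⟩) else 0, fun j => ?_, fun k => ?_⟩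
    · change (if h : j ∈ S then f' (S.equivFin ⟨j, h⟩) else 0) = 0 ∨
        (if h : j ∈ S then f' (S.equivFin ⟨j, h⟩) else 0) = 1
      by_cases h : j ∈ S
      · rw [dif_pos h]
        exact hf' _
      · rw [dif_neg h]
        exact Or.inl rfl
    · have h1 : ∑ j ∈ S, a k j * ((if h : j ∈ S then f' (S.equivFin ⟨j, h⟩) else 0) - p j) =
          E * ∑ i, a k (S.equivFin.symm i) / E * (f' i - p (S.equivFin.symm i)) := by
        rw [Finset.mul_sum, ← Equiv.sum_comp S.equivFin, ← Finset.sum_coe_sort S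
          (fun j => a k j * ((if h : j ∈ S then f' (S.equivFin ⟨j, h⟩) else 0) - p j))]
        refine Finset.sum_congr rfl fun j _ => ?_
        rw [dif_pos j.2, Equiv.symm_apply_apply]
        have hE0 : E ≠ 0 := hE'.ne'
        field_simp
      rw [h1, abs_mul, abs_of_pos hE']
      calc E * |∑ i, a k (S.equivFin.symm i) / E * (f' i - p (S.equivFin.symm i))| ≤
          E * (C * Real.sqrt (Real.sqrt ((S.card : ℝ) * m))) :=
            mul_le_mul_of_nonneg_left (hb k) hE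
        _ = C * E * Real.sqrt (Real.sqrt ((S.card : ℝ) * m)) := by ring

private theorem TwoR_sum_image (Bd S : Finset ℕ) (l : ℕ → ℕ) (hl : ∀ i ∈ Bd, l i ∈ S)
    (α s : ℕ → ℝ) : ∑ i ∈ Bd, α i * s (l i) =
      ∑ j ∈ S, (∑ i ∈ Bd.filter (fun i => l i = j), α i) * s j := by
  rw [← Finset.sum_fiberwise_of_maps_to hl]
  refine Finset.sum_congr rfl fun j _ => ?_
  rw [Finset.sum_mul]
  refine Finset.sum_congr rfl fun i hi => ?_
  rw [(Finset.mem_filter.1 hi).2]

private theorem TwoR_abs_fiber (Bd : Finset ℕ) (l : ℕ → ℕ) (hl : Set.InjOn l Bd) (j : ℕ)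
    {E : ℝ} (hE : 0 ≤ E) (α : ℕ → ℝ) (hα : ∀ i ∈ Bd, |α i| ≤ E) :
    |∑ i ∈ Bd.filter (fun i => l i = j), α i| ≤ E := by
  rcases (Bd.filter (fun i => l i = j)).eq_empty_or_nonempty with h | ⟨i, hi⟩
  · rw [h, Finset.sum_empty, abs_zero]
    exact hE
  · have h1 : Bd.filter (fun i => l i = j) = {i} := by
      ext i'
      rw [Finset.mem_singleton]
      constructor
      · intro hi'
        rw [Finset.mem_filter] at hi hi'
        exact hl hi'.1 hi.1 (hi'.2.trans hi.2.symm)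
      · intro h2
        rw [h2]
        exact hi
    rw [h1, Finset.sum_singleton]
    exact hα i (Finset.mem_filter.1 hi).1

private theorem TwoR_sqrt (c m : ℝ) (hc : 0 ≤ c) (hm : 0 ≤ m) {x : ℝ} (hx : x ≤ 2 * c) :
    Real.sqrt (Real.sqrt (x * m)) ≤ 2 * Real.sqrt (Real.sqrt (c * m)) := by
  have h1 : Real.sqrt (x * m) ≤ 2 ^ 2 * Real.sqrt (c * m) := by
    rw [Real.sqrt_le_left (by positivity), mul_pow, Real.sq_sqrt (by positivity)]
    nlinarith [mul_le_mul_of_nonneg_right hx hm, mul_nonneg hc hm]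
  rw [Real.sqrt_le_left (by positivity), mul_pow, Real.sq_sqrt (Real.sqrt_nonneg _)]
  exact h1

/-- two rounds, from the linear discrepancy statement -/
theorem two_rounds_of {C : ℝ} (hC : 0 < C) (hL : LinD C) :
    ∀ (m : ℕ) (Bd : Finset ℕ) (l ρ : ℕ → ℕ),
    Set.InjOn l Bd → Set.InjOn ρ Bd → 2 * Bd.card ≤ m → ∀ (E : ℝ)
    (F : Fin m → ℕ → (ℕ → ℝ) → Bool → ℝ) (p : ℕ → ℝ) (α β : Fin m → ℕ → ℝ),
    (∀ i, 0 ≤ p i ∧ p i ≤ 1) → (∀ k, ∀ i ∈ Bd, |α k i| ≤ E ∧ |β k i| ≤ E) →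
    (∀ k, ∀ i ∈ Bd, ∀ s : ℕ → ℝ, (∀ j, s j = 1 ∨ s j = -1) →
      (∀ r, |F k i s r| ≤ E) ∧
        p i * F k i s true + (1 - p i) * F k i s false = α k i * s (l i) + β k i * s (ρ i)) →
    ∃ (s : ℕ → ℝ) (r : ℕ → Bool), (∀ j, s j = 1 ∨ s j = -1) ∧
      ∀ k, |∑ i ∈ Bd, F k i s (r i)| ≤
        (10 * C) * E * Real.sqrt (Real.sqrt ((Bd.card : ℝ) * m)) := by
  intro m Bd l ρ hl hρ hm E F p α β hp hαβ hF
  rcases Bd.eq_empty_or_nonempty with hB | ⟨i₀, hi₀⟩
  · subst hB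
    refine ⟨fun _ => 1, fun _ => true, fun _ => Or.inl rfl, fun k => ?_⟩
    simp
  have hcard : 0 < Bd.card := Finset.card_pos.2 ⟨i₀, hi₀⟩
  have hE : 0 ≤ E := (abs_nonneg _).trans (hαβ ⟨0, by omega⟩ i₀ hi₀).1
  classical
  -- first round
  obtain ⟨s, hs, hs1⟩ : ∃ s : ℕ → ℝ, (∀ j, s j = 1 ∨ s j = -1) ∧
      ∀ k, |∑ i ∈ Bd, (α k i * s (l i) + β k i * s (ρ i))| ≤
        (8 * C) * E * Real.sqrt (Real.sqrt ((Bd.card : ℝ) * m)) := by
    have hlS : ∀ i ∈ Bd, l i ∈ Bd.image l ∪ Bd.image ρ := fun i hi =>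
      Finset.mem_union_left _ (Finset.mem_image_of_mem l hi)
    have hρS : ∀ i ∈ Bd, ρ i ∈ Bd.image l ∪ Bd.image ρ := fun i hi =>
      Finset.mem_union_right _ (Finset.mem_image_of_mem ρ hi)
    have hS : (Bd.image l ∪ Bd.image ρ).card ≤ 2 * Bd.card := by
      refine (Finset.card_union_le _ _).trans ?_
      have h1 := Finset.card_image_le (s := Bd) (f := l)
      have h2 := Finset.card_image_le (s := Bd) (f := ρ)
      omega
    obtain ⟨f, hf, hf1⟩ := TwoR_fin hL m (Bd.image l ∪ Bd.image ρ) (hS.trans hm)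
      (E := 2 * E) (by positivity)
      (fun k j => (∑ i ∈ Bd.filter (fun i => l i = j), α k i) +
        ∑ i ∈ Bd.filter (fun i => ρ i = j), β k i)
      (fun k j _ => by
        refine (abs_add_le _ _).trans ?_
        have h1 := TwoR_abs_fiber Bd l hl j hE (α k) (fun i hi => (hαβ k i hi).1)
        have h2 := TwoR_abs_fiber Bd ρ hρ j hE (β k) (fun i hi => (hαβ k i hi).2)
        linarith) (fun _ => 1 / 2) (fun _ => ⟨by norm_num, by norm_num⟩)
    refine ⟨fun j => 2 * f j - 1, fun j => ?_, fun k => ?_⟩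
    · rcases hf j with h | h
      · right
        change 2 * f j - 1 = -1
        rw [h]
        norm_num
      · left
        change 2 * f j - 1 = 1
        rw [h]
        norm_num
    · have h1 : ∑ i ∈ Bd, (α k i * (2 * f (l i) - 1) + β k i * (2 * f (ρ i) - 1)) =
          2 * ∑ j ∈ Bd.image l ∪ Bd.image ρ,
            ((∑ i ∈ Bd.filter (fun i => l i = j), α k i) +
              ∑ i ∈ Bd.filter (fun i => ρ i = j), β k i) * (f j - 1 / 2) := by
        rw [Finset.sum_add_distrib,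
          TwoR_sum_image Bd (Bd.image l ∪ Bd.image ρ) l hlS (α k) (fun j => 2 * f j - 1),
          TwoR_sum_image Bd (Bd.image l ∪ Bd.image ρ) ρ hρS (β k) (fun j => 2 * f j - 1),
          ← Finset.sum_add_distrib, Finset.mul_sum]
        refine Finset.sum_congr rfl fun j _ => ?_
        ring
      rw [h1, abs_mul, abs_of_pos (by norm_num : (0 : ℝ) < 2)]
      have h2 := hf1 k
      have h3 := TwoR_sqrt (Bd.card : ℝ) (m : ℝ) (Nat.cast_nonneg _) (Nat.cast_nonneg _)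
        (x := ((Bd.image l ∪ Bd.image ρ).card : ℝ)) (by exact_mod_cast hS)
      have h4 : C * (2 * E) * Real.sqrt (Real.sqrt (((Bd.image l ∪ Bd.image ρ).card : ℝ) * m)) ≤
          C * (2 * E) * (2 * Real.sqrt (Real.sqrt ((Bd.card : ℝ) * m))) :=
        mul_le_mul_of_nonneg_left h3 (by positivity)
      linarith
  -- second round
  obtain ⟨f, hf, hf1⟩ := TwoR_fin hL m Bd (by omega) (E := 2 * E) (by positivity)
    (fun k i => F k i s true - F k i s false)
    (fun k i hi => by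
      refine (abs_sub _ _).trans ?_
      have h1 := (hF k i hi s hs).1 true
      have h2 := (hF k i hi s hs).1 false
      linarith) p hp
  refine ⟨s, fun i => decide (f i = 1), hs, fun k => ?_⟩
  have h1 : ∑ i ∈ Bd, F k i s (decide (f i = 1)) =
      ∑ i ∈ Bd, (α k i * s (l i) + β k i * s (ρ i)) +
        ∑ i ∈ Bd, (F k i s true - F k i s false) * (f i - p i) := by
    rw [← Finset.sum_add_distrib]
    refine Finset.sum_congr rfl fun i hi => ?_
    rw [← (hF k i hi s hs).2]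
    rcases hf i with h | h
    · rw [h]
      have h2 : decide ((0 : ℝ) = 1) = false := by
        rw [decide_eq_false_iff_not]
        norm_num
      rw [h2]
      ring
    · rw [h]
      have h2 : decide ((1 : ℝ) = 1) = true := by
        rw [decide_eq_true_iff]
      rw [h2]
      ring
  rw [h1]
  refine (abs_add_le _ _).trans ?_
  have h2 := hs1 k
  have h3 := hf1 k
  linarith

/-- two rounds -/
theorem TwoR.two_rounds : ∃ C > 0, ∀ (m : ℕ) (Bd : Finset ℕ) (l ρ : ℕ → ℕ),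
    Set.InjOn l Bd → Set.InjOn ρ Bd → 2 * Bd.card ≤ m → ∀ (E : ℝ)
    (F : Fin m → ℕ → (ℕ → ℝ) → Bool → ℝ) (p : ℕ → ℝ) (α β : Fin m → ℕ → ℝ),
    (∀ i, 0 ≤ p i ∧ p i ≤ 1) → (∀ k, ∀ i ∈ Bd, |α k i| ≤ E ∧ |β k i| ≤ E) →
    (∀ k, ∀ i ∈ Bd, ∀ s : ℕ → ℝ, (∀ j, s j = 1 ∨ s j = -1) →
      (∀ r, |F k i s r| ≤ E) ∧
        p i * F k i s true + (1 - p i) * F k i s false = α k i * s (l i) + β k i * s (ρ i)) →
    ∃ (s : ℕ → ℝ) (r : ℕ → Bool), (∀ j, s j = 1 ∨ s j = -1) ∧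
      ∀ k, |∑ i ∈ Bd, F k i s (r i)| ≤ C * E * Real.sqrt (Real.sqrt ((Bd.card : ℝ) * m)) := by
  obtain ⟨C, hC, h⟩ := lindisc
  have hL : LinD C := by
    intro N m hNm a ha p hp
    obtain ⟨f, hf, hfe⟩ := h N m Finset.univ (by rw [Finset.card_univ, Fintype.card_fin]; exact hNm)
      a ha p hp
    refine ⟨f, hf, fun i => ?_⟩
    have h1 := hfe i
    rw [Finset.card_univ, Fintype.card_fin] at h1
    exact h1
  exact ⟨10 * C, by positivity, two_rounds_of hC hL⟩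

end Vale.Agent.P110T
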