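import Vale.Agent.Lib.P110U.G16
import Vale.Agent.Lib.P110T.CorrFin
import Vale.Agent.Lib.P110T.Iface
import Vale.Agent.Lib.P110T.Forms

/-!
P110T: real Littlewood polynomials of arbitrarily large length `N` with
`(1 - c) √N ≤ |P| ≤ (1 + c) √N` on the unit circle, for every `c > 0`.
-/

namespace Vale.Agent.P110T

theorem ultra : Ultra := final_round (exists_frac Vale.Agent.P110U.inputT correction)

end Vale.Agent.P110T
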